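import Vale.Agent.P099.Stmt

/-! Abstract structures: local actions of the Euclidean group, and triangle data. -/

namespace Vale.Agent.P099

open MeasureTheory Filter Topology ComplexConjugate

/-- Hilbert space form of a local action of the Euclidean group of the plane. -/
structure HData (H : Type) [NormedAddCommGroup H] [InnerProductSpace ℂ H] where
  W : ℂ → H →ₗᵢ[ℂ] H
  V : UnitAddCircle → H →ₗᵢ[ℂ] H
  E : ℝ → H →L[ℂ] H
  W_zero : ∀ x, W 0 x = x
  W_add : ∀ (y : ℂ) (s t : ℝ) x, W ((s + t) • y) x = W (s • y) (W (t • y) x)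
  V_zero : ∀ x, V 0 x = x
  V_add : ∀ θ θ' x, V (θ + θ') x = V θ (V θ' x)
  V_W : ∀ θ y x, V θ (W y x) = W (dir θ * y) (V θ x)
  W_cont : ∀ x, Tendsto (fun y => W y x) (𝓝 0) (𝓝 x)
  V_cont : ∀ x, Tendsto (fun θ => V θ x) (𝓝 0) (𝓝 x)
  E_adj : ∀ r x x', inner ℂ (E r x) x' = inner ℂ x (E r x')
  E_E : ∀ r r' x, r ≤ r' → E r (E r' x) = E r' x
  V_E : ∀ θ r x, V θ (E r x) = E r (V θ x)
  lip : ∀ r r' y x, 0 ≤ r → r + ‖y‖ ≤ r' → E r' (W y x) = E r' (W y (E r x))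
  loc : ∀ r y y' x, ‖y‖ + ‖y'‖ ≤ r → E r (W y (W y' x)) = E r (W (y + y') x)
  comm : ∀ r r' y x, E r (W y (E r' (W (-y) x))) = W y (E r' (W (-y) (E r x)))
  dense : Dense {x | ∃ C : ℝ, ∀ r, 0 < r → ∀ y, ‖W y x - E r (W y x)‖ ≤ C * r}

/-- Measure theoretic form of a local action of the Euclidean group of the plane. -/
structure LocE (M : Type) [TopologicalSpace M] [MeasurableSpace M] (μ : Measure M) where
  τ : ℂ → M → M
  R : UnitAddCircle → M → M
  d : M → ℝ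
  τ_mp : ∀ y, MeasurePreserving (τ y) μ μ
  R_mp : ∀ θ, MeasurePreserving (R θ) μ μ
  d_meas : Measurable d
  τ_zero : ∀ᵐ z ∂μ, τ 0 z = z
  τ_add : ∀ (y : ℂ) (s t : ℝ), ∀ᵐ z ∂μ, τ ((s + t) • y) z = τ (t • y) (τ (s • y) z)
  R_zero : ∀ z, R 0 z = z
  R_add : ∀ θ θ' z, R (θ + θ') z = R θ' (R θ z)
  τ_R : ∀ θ y, ∀ᵐ z ∂μ, τ y (R θ z) = R θ (τ (dir θ * y) z)
  d_R : ∀ θ z, d (R θ z) = d z
  τ_cont : ∀ y : ℕ → ℂ, Tendsto y atTop (𝓝 0) →
    ∀ᵐ z ∂μ, Tendsto (fun k => τ (y k) z) atTop (𝓝 z)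
  R_cont : ∀ z, Tendsto (fun θ => R θ z) (𝓝 0) (𝓝 z)
  lip : ∀ y, ∀ᵐ z ∂μ, ‖y‖ < d z → d z - ‖y‖ ≤ d (τ y z)
  loc : ∀ y y', ∀ᵐ z ∂μ, ‖y‖ + ‖y'‖ < d z → τ y' (τ y z) = τ (y + y') z
  small : ∃ C : ℝ, ∀ r, 0 < r → μ {z | d z ≤ r} ≤ ENNReal.ofReal (C * r ^ 2)

/-- A triangle given by three half planes. -/
structure Tri where
  n : Fin 3 → ℂ
  c : Fin 3 → ℝ
  κ : Fin 3 → UnitAddCircle
  norm_n : ∀ i, ‖n i‖ = 1
  dir_κ : ∀ i, dir (κ i) = -n i ^ 2
  indep : ∀ i j, i ≠ j → (conj (n i) * n j).im ≠ 0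
  side : ∀ i, ∃ x : ℂ, (conj (n i) * x).re = c i ∧ ∀ j, j ≠ i → c j < (conj (n j) * x).re
  bdd : Bornology.IsBounded {x : ℂ | ∀ i, c i < (conj (n i) * x).re}

/-- The frame bundle of the plane. -/
abbrev Fr : Type := (UnitAddCircle × Bool) × ℂ

/-- An orthogonal frame acting on a vector. -/
noncomputable def act (g : UnitAddCircle × Bool) (y : ℂ) : ℂ :=
  dir g.1 * (if g.2 then y else conj y)

/-- Translation by a frame vector. -/
noncomputable def tr (y : ℂ) (z : Fr) : Fr := (z.1, z.2 + act z.1 y)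

/-- Rotation of the frame. -/
noncomputable def rot (θ : UnitAddCircle) (z : Fr) : Fr :=
  ((z.1.1 + (if z.1.2 then θ else -θ), z.1.2), z.2)

/-- The uniform measure on frames. -/
noncomputable def frM : Measure (UnitAddCircle × Bool) :=
  (volume : Measure UnitAddCircle).prod
    ((2⁻¹ : ENNReal) • (Measure.dirac true + Measure.dirac false))

namespace Tri

variable (T : Tri)

/-- Signed distance to the `i`-th side. -/
noncomputable def δ (i : Fin 3) (x : ℂ) : ℝ := (conj (T.n i) * x).re - T.c i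

/-- The open triangle. -/
def Q : Set ℂ := {x | ∀ i, 0 < T.δ i x}

/-- A substitute for the distance to the vertices. -/
noncomputable def d (x : ℂ) : ℝ :=
  min (max (T.δ 1 x) (T.δ 2 x)) (min (max (T.δ 2 x) (T.δ 0 x)) (max (T.δ 0 x) (T.δ 1 x)))

/-- Reflection in the `i`-th side. -/
noncomputable def refl (i : Fin 3) (z : Fr) : Fr :=
  ((T.κ i - z.1.1, !z.1.2), z.2 - (2 * T.δ i z.2) • T.n i)

/-- The frame is on the wrong side of the `i`-th line. -/
def Out (i : Fin 3) (z : Fr) : Prop := T.δ i z.2 < 0 ∨ (T.δ i z.2 = 0 ∧ z.1.2 = false)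

/-- The frame bundle of the double of the triangle, without the vertices. -/
def M₀ : Set Fr := {z | (∀ i, ¬T.Out i z) ∧ 0 < T.d z.2}

open Classical in
/-- Folding back into the triangle. -/
noncomputable def fold (z : Fr) : Fr :=
  if T.Out 0 z then T.refl 0 z else if T.Out 1 z then T.refl 1 z else
    if T.Out 2 z then T.refl 2 z else z

/-- The local translation maps. -/
noncomputable def ell (y : ℂ) (z : Fr) : Fr := T.fold (tr y z)

/-- The invariant probability measure. -/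
noncomputable def μ : Measure Fr := frM.prod ((volume T.Q)⁻¹ • volume.restrict T.Q)

/-- Trajectories with velocity `y` on the set of times `I`. -/
def Traj (y : ℂ) (γ : ℝ → Fr) (I : Set ℝ) : Prop :=
  ∀ t ∈ I, γ t ∈ T.M₀ ∧ ∀ᶠ h in 𝓝 (0 : ℝ), γ (t + h) = T.ell (h • y) (γ t)

end Tri

end Vale.Agent.P099
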