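import Vale.Agent.P099.Meas

/-! The global flows. -/

namespace Vale.Agent.P099

open MeasureTheory Filter Topology Set

namespace Tri

variable {T : Tri}

theorem flow_mono {y : ℂ} {γ : ℝ → Fr} {I J : Set ℝ} (h : T.Traj y γ I) (hJ : J ⊆ I) :
    T.Traj y γ J := fun t ht => h t (hJ ht)

theorem flow_congr {y : ℂ} {γ γ' : ℝ → Fr} {I : Set ℝ} (hI : IsOpen I) (h : T.Traj y γ I)
    (he : ∀ t ∈ I, γ' t = γ t) : T.Traj y γ' I := by
  intro t ht
  refine ⟨by rw [he t ht]; exact (h t ht).1, ?_⟩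
  have h1 : ∀ᶠ s in 𝓝 (0 : ℝ), t + s ∈ I := by
    have : Tendsto (fun s : ℝ => t + s) (𝓝 0) (𝓝 t) := by
      simpa using (tendsto_const_nhds (x := t)).add (tendsto_id (x := 𝓝 (0 : ℝ)))
    exact this.eventually (hI.mem_nhds ht)
  filter_upwards [h1, (h t ht).2] with s hs1 hs2
  rw [he _ hs1, he t ht, hs2]

theorem flow_scale {y : ℂ} {γ : ℝ → Fr} {I : Set ℝ} (h : T.Traj y γ I) (c : ℝ) :
    T.Traj (c • y) (fun s => γ (c * s)) ((fun s => c * s) ⁻¹' I) := by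
  intro t ht
  refine ⟨(h _ ht).1, ?_⟩
  have : Tendsto (fun s : ℝ => c * s) (𝓝 0) (𝓝 0) := by
    simpa using (tendsto_const_nhds (x := c)).mul (tendsto_id (x := 𝓝 (0 : ℝ)))
  filter_upwards [this.eventually (h _ ht).2] with s hs
  rw [mul_add, hs, smul_smul, mul_comm s c]

theorem flow_shift {y : ℂ} {γ : ℝ → Fr} (h : T.Traj y γ univ) (c : ℝ) :
    T.Traj y (fun s => γ (c + s)) univ := by
  intro t _
  refine ⟨(h _ trivial).1, ?_⟩
  filter_upwards [(h (c + t) trivial).2] with s hs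
  rw [← add_assoc, hs]

theorem flow_rot {y : ℂ} {θ : UnitAddCircle} {γ : ℝ → Fr} (h : T.Traj (dir θ * y) γ univ) :
    T.Traj y (fun s => rot θ (γ s)) univ := by
  intro t _
  refine ⟨(T.rot_mem θ).2 (h _ trivial).1, ?_⟩
  filter_upwards [(h t trivial).2] with s hs
  rw [hs, T.ell_rot, mul_smul_comm]

theorem flow_uniq {y : ℂ} {γ γ' : ℝ → Fr} (h : T.Traj y γ univ) (h' : T.Traj y γ' univ)
    (h0 : γ 0 = γ' 0) (t : ℝ) : γ t = γ' t :=
  Traj.unique isPreconnected_univ h h' (mem_univ 0) h0 t trivial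

theorem flow_glue {y : ℂ} {γ γ' : ℝ → Fr} {I J : Set ℝ} (hI : IsOpen I) (hJ : IsOpen J)
    (hI' : OrdConnected I) (hJ' : OrdConnected J) (h : T.Traj y γ I) (h' : T.Traj y γ' J)
    {t₀ : ℝ} (h1 : t₀ ∈ I) (h2 : t₀ ∈ J) (h0 : γ t₀ = γ' t₀) :
    ∃ Γ, T.Traj y Γ (I ∪ J) ∧ (∀ t ∈ I, Γ t = γ t) ∧ ∀ t ∈ J, Γ t = γ' t := by
  classical
  have hu := Traj.unique (hI'.inter hJ').isPreconnected (flow_mono h inter_subset_left)
    (flow_mono h' inter_subset_right) ⟨h1, h2⟩ h0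
  have e1 : ∀ t ∈ I, (fun t => if t ∈ I then γ t else γ' t) t = γ t := fun t ht => if_pos ht
  have e2 : ∀ t ∈ J, (fun t => if t ∈ I then γ t else γ' t) t = γ' t := by
    intro t ht
    by_cases hti : t ∈ I
    · rw [e1 t hti, hu t ⟨hti, ht⟩]
    · exact if_neg hti
  refine ⟨fun t => if t ∈ I then γ t else γ' t, ?_, e1, e2⟩
  rintro t (ht | ht)
  · exact flow_congr hI h e1 t ht
  · exact flow_congr hJ h' e2 t ht

theorem flow_glue_all {y : ℂ} {z : Fr}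
    (H : ∀ t : ℝ, ∃ γ I, IsOpen I ∧ OrdConnected I ∧ (0 : ℝ) ∈ I ∧ t ∈ I ∧ T.Traj y γ I ∧ γ 0 = z) :
    ∃ Γ, T.Traj y Γ univ ∧ Γ 0 = z := by
  choose γ I hI hI' h0 ht hγ hz using H
  have key : ∀ t, ∀ s ∈ I t, γ s s = γ t s := by
    intro t s hs
    exact Traj.unique ((hI' s).inter (hI' t)).isPreconnected (flow_mono (hγ s) inter_subset_left)
      (flow_mono (hγ t) inter_subset_right) ⟨h0 s, h0 t⟩ ((hz s).trans (hz t).symm) s ⟨ht s, hs⟩
  exact ⟨fun s => γ s s, fun t _ => flow_congr (hI t) (hγ t) (key t) t (ht t), hz 0⟩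

variable (T)

/-- points far from the vertices -/
def flowD (y : ℂ) (h : ℝ) : Set Fr := {z | z ∈ T.M₀ ∧ 3 * h * (‖y‖ + 1) < T.d z.2}

/-- points whose first iterates stay far from the vertices -/
def flowG (y : ℂ) (h : ℝ) (m : ℕ) : Set Fr :=
  {z | ∀ i < m, (T.ell (h • y))^[i] z ∈ T.flowD y h}

theorem flow_measD (y : ℂ) (h : ℝ) : MeasurableSet (T.flowD y h) :=
  T.measurableSet_M₀.inter
    (measurableSet_lt measurable_const (T.continuous_d.measurable.comp measurable_snd))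

theorem flow_measG (y : ℂ) (h : ℝ) (m : ℕ) : MeasurableSet (T.flowG y h m) := by
  have : T.flowG y h m = ⋂ i, ⋂ _ : i < m, (T.ell (h • y))^[i] ⁻¹' T.flowD y h := by
    ext z; simp [flowG]
  rw [this]
  exact MeasurableSet.iInter fun i => MeasurableSet.iInter fun _ =>
    (T.measurable_ell _).iterate i (T.flow_measD y h)

theorem flow_subinv (y : ℂ) {h : ℝ} (hh : 0 < h) (m : ℕ) : ∀ {A : Set Fr}, MeasurableSet A →
    T.μ (T.flowG y h m ∩ (T.ell (h • y))^[m] ⁻¹' A) ≤ T.μ A := by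
  induction m with
  | zero => intro A _; exact measure_mono fun z hz => hz.2
  | succ m ih =>
    intro A hA
    have hB : MeasurableSet (T.flowD y h ∩ T.ell (h • y) ⁻¹' A) :=
      (T.flow_measD y h).inter (T.measurable_ell _ hA)
    refine le_trans (measure_mono ?_) ((ih hB).trans (le_trans (measure_mono ?_)
      (T.subinv (h • y) hA)))
    · rintro z ⟨hz, hz'⟩
      refine ⟨fun i hi => hz i (by omega), hz m (by omega), ?_⟩
      rw [mem_preimage, Function.iterate_succ_apply'] at hz'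
      exact hz'
    · rintro z ⟨⟨hz, hz1⟩, hz'⟩
      refine ⟨⟨hz, lt_of_le_of_lt ?_ hz1⟩, hz'⟩
      rw [norm_smul, Real.norm_of_nonneg hh.le]
      nlinarith [norm_nonneg y]

theorem flow_compl (y : ℂ) {h : ℝ} (hh : 0 < h) (m : ℕ) :
    T.μ (T.flowG y h m)ᶜ ≤ m * T.μ (T.flowD y h)ᶜ := by
  induction m with
  | zero =>
    have : (T.flowG y h 0)ᶜ = ∅ := by
      ext z; simp [flowG]
    simp [this]
  | succ m ih =>
    have hs : (T.flowG y h (m + 1))ᶜ ⊆ (T.flowG y h m)ᶜ ∪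
        (T.flowG y h m ∩ (T.ell (h • y))^[m] ⁻¹' (T.flowD y h)ᶜ) := by
      intro z hz
      by_cases hm : z ∈ T.flowG y h m
      · refine Or.inr ⟨hm, fun hd => hz fun i hi => ?_⟩
        rcases Nat.lt_succ_iff_lt_or_eq.1 hi with hi | rfl
        · exact hm i hi
        · exact hd
      · exact Or.inl hm
    refine (measure_mono hs).trans ((measure_union_le _ _).trans ?_)
    push_cast
    rw [add_mul, one_mul]
    exact add_le_add ih (T.flow_subinv y hh m (T.flow_measD y h).compl)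

theorem flow_tend (y : ℂ) (L : ℕ) :
    Tendsto (fun N : ℕ => T.μ (T.flowG y (1 / ((N : ℝ) + 1)) (L * (N + 1) + 1))ᶜ) atTop (𝓝 0) := by
  obtain ⟨C, hC⟩ := T.small
  have hb : ∀ N : ℕ, T.μ (T.flowG y (1 / ((N : ℝ) + 1)) (L * (N + 1) + 1))ᶜ ≤
      ENNReal.ofReal ((((L : ℝ) + 1) * (|C| * (9 * (‖y‖ + 1) ^ 2))) * (1 / ((N : ℝ) + 1))) := by
    intro N
    have hN : (0 : ℝ) < (N : ℝ) + 1 := by positivity
    have hh : (0 : ℝ) < 1 / ((N : ℝ) + 1) := by positivity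
    refine (T.flow_compl y hh _).trans ?_
    have h1 : T.μ (T.flowD y (1 / ((N : ℝ) + 1)))ᶜ ≤
        T.μ {z | T.d z.2 ≤ 3 * (1 / ((N : ℝ) + 1)) * (‖y‖ + 1)} := by
      refine measure_mono_ae ?_
      filter_upwards [T.ae_mem_Q] with z hz hz'
      by_contra hc
      exact hz' ⟨T.mem_M₀_of_Q hz, not_le.1 hc⟩
    have h2 := h1.trans (hC _ (by positivity))
    refine (mul_le_mul_right h2 _).trans ?_
    rw [← ENNReal.ofReal_natCast, ← ENNReal.ofReal_mul (by positivity)]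
    refine ENNReal.ofReal_le_ofReal ?_
    push_cast
    have h3 : C * (3 * (1 / ((N : ℝ) + 1)) * (‖y‖ + 1)) ^ 2 ≤
        |C| * (3 * (1 / ((N : ℝ) + 1)) * (‖y‖ + 1)) ^ 2 :=
      mul_le_mul_of_nonneg_right (le_abs_self C) (by positivity)
    have h4 : (L : ℝ) * (N + 1) + 1 ≤ ((L : ℝ) + 1) * (N + 1) := by nlinarith
    calc ((L : ℝ) * (N + 1) + 1) * (C * (3 * (1 / ((N : ℝ) + 1)) * (‖y‖ + 1)) ^ 2)
        ≤ ((L : ℝ) * (N + 1) + 1) * (|C| * (3 * (1 / ((N : ℝ) + 1)) * (‖y‖ + 1)) ^ 2) :=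
          mul_le_mul_of_nonneg_left h3 (by positivity)
      _ ≤ (((L : ℝ) + 1) * (N + 1)) * (|C| * (3 * (1 / ((N : ℝ) + 1)) * (‖y‖ + 1)) ^ 2) :=
          mul_le_mul_of_nonneg_right h4 (by positivity)
      _ = _ := by field_simp; ring
  have h0 : Tendsto (fun N : ℕ => ENNReal.ofReal ((((L : ℝ) + 1) * (|C| * (9 * (‖y‖ + 1) ^ 2))) *
      (1 / ((N : ℝ) + 1)))) atTop (𝓝 0) := by
    have := (tendsto_one_div_add_atTop_nhds_zero_nat (𝕜 := ℝ)).const_mul
      (((L : ℝ) + 1) * (|C| * (9 * (‖y‖ + 1) ^ 2)))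
    have := ENNReal.tendsto_ofReal this
    simpa using this
  exact tendsto_of_tendsto_of_tendsto_of_le_of_le tendsto_const_nhds h0 (fun _ => zero_le) hb

theorem flow_ae (y : ℂ) (L : ℕ) :
    ∀ᵐ z ∂T.μ, ∃ N : ℕ, z ∈ T.flowG y (1 / ((N : ℝ) + 1)) (L * (N + 1) + 1) := by
  rw [ae_iff]
  refine le_antisymm (ge_of_tendsto' (T.flow_tend y L) fun N => measure_mono ?_) zero_le
  intro z hz hz'
  exact hz ⟨N, hz'⟩

variable {T}

theorem flow_local {y : ℂ} {h : ℝ} (hh : 0 < h) {w : Fr} (hw : w ∈ T.flowD y h) (t₀ : ℝ) :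
    T.Traj y (fun t => T.ell ((t - t₀) • y) w) (Ioo (t₀ - h) (t₀ + 2 * h)) := by
  refine flow_mono (traj_ell hw.1 y t₀) fun t ht => lt_of_le_of_lt ?_ hw.2
  have h1 : |t - t₀| ≤ 2 * h := abs_le.2 ⟨by linarith [ht.1], by linarith [ht.2]⟩
  have := mul_le_mul_of_nonneg_right h1 (norm_nonneg y)
  nlinarith [norm_nonneg y]

theorem flow_fwd {y : ℂ} {h : ℝ} (hh : 0 < h) {z : Fr} (m : ℕ) (hz : z ∈ T.flowG y h (m + 1)) :
    ∃ γ, T.Traj y γ (Ioo (-h) (m * h + h)) ∧ γ 0 = z ∧ γ (m * h) = (T.ell (h • y))^[m] z := by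
  induction m with
  | zero =>
    have hw : z ∈ T.flowD y h := hz 0 (by omega)
    refine ⟨_, flow_mono (flow_local hh hw 0) (Ioo_subset_Ioo (by simp) (by simp; linarith)),
      ?_, ?_⟩ <;> simp [T.ell_zero hw.1]
  | succ m ih =>
    obtain ⟨γ, h1, h2, h3⟩ := ih fun i hi => hz i (by omega)
    have hw := hz m (by omega)
    have hm : (0 : ℝ) ≤ m * h := by positivity
    obtain ⟨Γ, g1, g2, g3⟩ := flow_glue isOpen_Ioo isOpen_Ioo ordConnected_Ioo ordConnected_Ioo h1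
      (flow_local hh hw (m * h)) (t₀ := m * h) ⟨by linarith, by linarith⟩
      ⟨by linarith, by linarith⟩ (by rw [h3, sub_self, zero_smul, T.ell_zero hw.1])
    refine ⟨Γ, flow_mono g1 fun t ht => ?_, ?_, ?_⟩
    · push_cast at ht
      by_cases h4 : t < m * h + h
      · exact Or.inl ⟨ht.1, h4⟩
      · exact Or.inr ⟨by linarith [not_lt.1 h4], by linarith [ht.2]⟩
    · rw [g2 0 ⟨by linarith, by linarith⟩, h2]
    · rw [g3 _ ⟨by push_cast; linarith, by push_cast; linarith⟩, Function.iterate_succ_apply']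
      congr 2
      push_cast
      ring

variable (T)

theorem flow_fwd_ae (y : ℂ) : ∀ᵐ z ∂T.μ, ∀ L : ℕ, ∃ ε : ℝ, 0 < ε ∧
    ∃ γ, T.Traj y γ (Ioo (-ε) L) ∧ γ 0 = z := by
  rw [ae_all_iff]
  intro L
  filter_upwards [T.flow_ae y L] with z ⟨N, hN⟩
  have hh : (0 : ℝ) < 1 / ((N : ℝ) + 1) := by positivity
  obtain ⟨γ, h1, h2, -⟩ := flow_fwd hh _ hN
  refine ⟨_, hh, γ, flow_mono h1 (Ioo_subset_Ioo le_rfl ?_), h2⟩
  have : ((L * (N + 1) : ℕ) : ℝ) * (1 / ((N : ℝ) + 1)) = L := by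
    push_cast; field_simp
  linarith

theorem flow_global (y : ℂ) : ∀ᵐ z ∂T.μ, ∃ γ, T.Traj y γ univ ∧ γ 0 = z := by
  filter_upwards [T.flow_fwd_ae y, T.flow_fwd_ae (-y)] with z h1 h2
  refine flow_glue_all fun t => ?_
  obtain ⟨L, hL⟩ := exists_nat_gt |t|
  have hL0 : (0 : ℝ) < L := lt_of_le_of_lt (abs_nonneg t) hL
  rcases le_total 0 t with ht | ht
  · obtain ⟨ε, hε, γ, g1, g2⟩ := h1 L
    exact ⟨γ, _, isOpen_Ioo, ordConnected_Ioo, ⟨by linarith, hL0⟩,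
      ⟨by linarith, (le_abs_self t).trans_lt hL⟩, g1, g2⟩
  · obtain ⟨ε, hε, γ, g1, g2⟩ := h2 L
    have g3 := flow_scale g1 (-1)
    rw [neg_smul, one_smul, neg_neg] at g3
    refine ⟨_, Ioo (-(L : ℝ)) ε, isOpen_Ioo, ordConnected_Ioo, ⟨by linarith, hε⟩,
      ⟨by linarith [neg_abs_le t], by linarith⟩, flow_mono g3 fun s hs => ?_, by simpa using g2⟩
    exact ⟨by linarith [hs.2], by linarith [hs.1]⟩

theorem flow_one {y : ℂ} {γ : ℝ → Fr} (hγ : T.Traj y γ univ) (N : ℕ)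
    (hN : γ 0 ∈ T.flowG y (1 / ((N : ℝ) + 1)) (1 * (N + 1) + 1)) :
    γ 1 = (T.ell ((1 / ((N : ℝ) + 1)) • y))^[1 * (N + 1)] (γ 0) := by
  have hh : (0 : ℝ) < 1 / ((N : ℝ) + 1) := by positivity
  obtain ⟨γ', h1, h2, h3⟩ := flow_fwd hh _ hN
  have e : ((1 * (N + 1) : ℕ) : ℝ) * (1 / ((N : ℝ) + 1)) = 1 := by
    push_cast; field_simp
  rw [e] at h1 h3
  rw [← h3]
  exact Traj.unique ordConnected_Ioo.isPreconnected (flow_mono hγ (subset_univ _)) h1
    (t₀ := 0) ⟨by linarith, by linarith⟩ h2.symm 1 ⟨by linarith, by linarith⟩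

theorem flow_mp {M : Type} [MeasurableSpace M] {μ : Measure M} [IsProbabilityMeasure μ]
    {τ : M → M} (hm : Measurable τ) (G : ℕ → Set M) (F : ℕ → M → M)
    (hG : Tendsto (fun N => μ (G N)ᶜ) atTop (𝓝 0))
    (hF : ∀ N A, MeasurableSet A → μ (G N ∩ F N ⁻¹' A) ≤ μ A)
    (he : ∀ᵐ z ∂μ, ∀ N, z ∈ G N → τ z = F N z) : MeasurePreserving τ μ μ := by
  have hle : ∀ A, MeasurableSet A → μ (τ ⁻¹' A) ≤ μ A := by
    intro A hA
    have ht : Tendsto (fun N => μ A + μ (G N)ᶜ) atTop (𝓝 (μ A + 0)) :=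
      tendsto_const_nhds.add hG
    rw [add_zero] at ht
    refine ge_of_tendsto' ht fun N => ?_
    have h1 : μ (τ ⁻¹' A) ≤ μ ((G N ∩ F N ⁻¹' A) ∪ (G N)ᶜ) := by
      refine measure_mono_ae ?_
      filter_upwards [he] with z g hz
      by_cases hzN : z ∈ G N
      · refine Or.inl ⟨hzN, ?_⟩
        change F N z ∈ A
        rw [← g N hzN]
        exact hz
      · exact Or.inr hzN
    exact h1.trans ((measure_union_le _ _).trans (add_le_add_left (hF N A hA) _))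
  refine ⟨hm, Measure.ext fun A hA => ?_⟩
  rw [Measure.map_apply hm hA]
  refine le_antisymm (hle A hA) ?_
  have h1 := hle Aᶜ hA.compl
  rw [preimage_compl, prob_compl_eq_one_sub (hm hA), prob_compl_eq_one_sub hA] at h1
  exact (ENNReal.sub_le_sub_iff_left prob_le_one ENNReal.one_ne_top).1 h1

theorem flow_select {M : Type} [MeasurableSpace M] (G : ℕ → Set M) (F : ℕ → M → M)
    (hG : ∀ n, MeasurableSet (G n)) (hF : ∀ n, Measurable (F n)) :
    ∃ τ : M → M, Measurable τ ∧ ∀ z, (∃ n, z ∈ G n) → ∃ n, z ∈ G n ∧ τ z = F n z := by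
  classical
  have hp : ∀ z, ∃ n : ℕ, z ∈ G n ∪ (⋃ k, G k)ᶜ := by
    intro z
    by_cases h : z ∈ ⋃ k, G k
    · obtain ⟨k, hk⟩ := mem_iUnion.1 h
      exact ⟨k, Or.inl hk⟩
    · exact ⟨0, Or.inr h⟩
  refine ⟨fun z => F (Nat.find (hp z)) z, Measurable.find
    (p := fun n z => z ∈ G n ∪ (⋃ k, G k)ᶜ) hF
    (fun n => (hG n).union (MeasurableSet.iUnion hG).compl) hp, fun z hz => ⟨_, ?_, rfl⟩⟩
  rcases Nat.find_spec (hp z) with h | h
  · exact h
  · exact absurd (mem_iUnion.2 hz) h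

theorem exists_tau (y : ℂ) : ∃ τ : Fr → Fr, MeasurePreserving τ T.μ T.μ ∧
    ∀ᵐ z ∂T.μ, ∃ γ, T.Traj y γ Set.univ ∧ γ 0 = z ∧ τ z = γ 1 := by
  obtain ⟨τ, hm, hτ⟩ := flow_select
    (fun N : ℕ => T.flowG y (1 / ((N : ℝ) + 1)) (1 * (N + 1) + 1))
    (fun N : ℕ => (T.ell ((1 / ((N : ℝ) + 1)) • y))^[1 * (N + 1)])
    (fun n => T.flow_measG _ _ _) (fun n => (T.measurable_ell _).iterate _)
  have hae : ∀ᵐ z ∂T.μ, ∃ γ, T.Traj y γ Set.univ ∧ γ 0 = z ∧ τ z = γ 1 := by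
    filter_upwards [T.flow_global y, T.flow_ae y 1] with z ⟨γ, h1, h2⟩ hN
    refine ⟨γ, h1, h2, ?_⟩
    obtain ⟨n, g1, g2⟩ := hτ z hN
    subst h2
    rw [g2, T.flow_one h1 n g1]
  refine ⟨τ, flow_mp hm (fun N : ℕ => T.flowG y (1 / ((N : ℝ) + 1)) (1 * (N + 1) + 1))
    (fun N : ℕ => (T.ell ((1 / ((N : ℝ) + 1)) • y))^[1 * (N + 1)]) (T.flow_tend y 1) ?_ ?_, hae⟩
  · intro N A hA
    have hh : (0 : ℝ) < 1 / ((N : ℝ) + 1) := by positivity
    refine le_trans (measure_mono ?_) (T.flow_subinv y hh (1 * (N + 1)) hA)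
    exact inter_subset_inter_left _ fun z hz i hi => hz i (by omega)
  · filter_upwards [hae] with z ⟨γ, g1, g2, g3⟩ N hN
    subst g2
    rw [g3, T.flow_one g1 N hN]

theorem exists_locE : ∃ L : LocE Fr T.μ, ∀ (y : ℂ) (t : ℝ),
    ∀ᵐ z ∂T.μ, ∃ γ, T.Traj y γ Set.univ ∧ γ 0 = z ∧ L.τ (t • y) z = γ t := by
  choose τ hmp hτ using T.exists_tau
  have key : ∀ (y : ℂ) (t : ℝ),
      ∀ᵐ z ∂T.μ, ∃ γ, T.Traj y γ Set.univ ∧ γ 0 = z ∧ τ (t • y) z = γ t := by
    intro y t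
    filter_upwards [hτ y, hτ (t • y)] with z ⟨γ, g1, g2, _⟩ ⟨γ', h1, h2, h3⟩
    refine ⟨γ, g1, g2, ?_⟩
    have := flow_uniq h1 (flow_scale g1 t) (by simp [h2, g2]) 1
    rw [h3, this, mul_one]
  have strong : ∀ y, ∀ᵐ z ∂T.μ, z ∈ T.M₀ ∧ (‖y‖ < T.d z.2 → τ y z = T.ell y z) := by
    intro y
    filter_upwards [hτ y] with z ⟨γ, g1, g2, g3⟩
    subst g2
    refine ⟨(g1 0 trivial).1, fun hy => ?_⟩
    have := g1.strong 0 1 (by simpa using hy)
    rw [g3]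
    simpa using this
  refine ⟨{ τ := τ
            R := rot
            d := fun z => T.d z.2
            τ_mp := hmp
            R_mp := T.rot_mp
            d_meas := T.continuous_d.measurable.comp measurable_snd
            τ_zero := ?_
            τ_add := ?_
            R_zero := rot_zero
            R_add := rot_add
            τ_R := ?_
            d_R := fun _ _ => rfl
            τ_cont := ?_
            R_cont := ?_
            lip := ?_
            loc := ?_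
            small := T.small }, key⟩
  · filter_upwards [key 0 0] with z ⟨γ, _, g2, g3⟩
    rw [zero_smul] at g3
    rw [g3, g2]
  · intro y s t
    filter_upwards [key y (s + t), key y s, (hmp (s • y)).quasiMeasurePreserving.ae (key y t)]
      with z ⟨γ, g1, g2, g3⟩ ⟨γ₁, h1, h2, h3⟩ ⟨γ₂, k1, k2, k3⟩
    have e1 := flow_uniq h1 g1 (h2.trans g2.symm) s
    have e2 := flow_uniq k1 (flow_shift g1 s) (by rw [k2, h3, e1, add_zero]) t
    rw [g3, k3, e2]
  · intro θ y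
    filter_upwards [hτ (dir θ * y), (T.rot_mp θ).quasiMeasurePreserving.ae (hτ y)]
      with z ⟨γ, g1, g2, g3⟩ ⟨γ₁, h1, h2, h3⟩
    rw [h3, g3]
    exact flow_uniq h1 (flow_rot g1) (by rw [h2, g2]) 1
  · intro y hy
    filter_upwards [ae_all_iff.2 fun k => hτ (y k), T.ae_mem_Q] with z hz hQ
    have h0 : Tendsto (fun k => act z.1 (y k)) atTop (𝓝 0) := by
      rw [tendsto_zero_iff_norm_tendsto_zero] at hy ⊢
      simpa only [norm_act] using hy
    have h1 : Tendsto (fun k => z.2 + act z.1 (y k)) atTop (𝓝 z.2) := by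
      simpa using (tendsto_const_nhds (x := z.2)).add h0
    have h2 : Tendsto (fun k => tr (y k) z) atTop (𝓝 z) :=
      (tendsto_const_nhds (x := z.1)).prodMk_nhds h1
    refine h2.congr' ?_
    filter_upwards [h1.eventually (T.isOpen_Q.mem_nhds hQ)] with k hk
    obtain ⟨γ, g1, g2, g3⟩ := hz k
    subst g2
    rw [g3, g1.interior hQ hk]
  · intro z
    have hc : Continuous fun θ => rot θ z := by
      unfold rot
      split_ifs <;> fun_prop
    simpa [rot_zero] using hc.tendsto 0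
  · intro y
    filter_upwards [strong y] with z ⟨h1, h2⟩ hy
    rw [h2 hy]
    exact T.d_ell h1 hy
  · intro y y'
    filter_upwards [strong y, strong (y + y'), (hmp y).quasiMeasurePreserving.ae (strong y')]
      with z ⟨h1, h2⟩ ⟨_, h3⟩ ⟨_, h4⟩ hy
    have a1 : ‖y‖ < T.d z.2 := by linarith [norm_nonneg y']
    have a2 : ‖y'‖ < T.d (τ y z).2 := by
      rw [h2 a1]
      linarith [T.d_ell h1 a1]
    rw [h4 a2, h3 ((norm_add_le _ _).trans_lt hy), h2 a1, T.ell_add h1 hy]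

end Tri

end Vale.Agent.P099
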