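import Vale.Agent.P099.Defs

/-! Pointwise geometry of the folding maps and of trajectories. -/

namespace Vale.Agent.P099

open Filter Topology ComplexConjugate

theorem norm_dir (θ : UnitAddCircle) : ‖dir θ‖ = 1 := Circle.norm_coe _

theorem dir_zero : dir 0 = 1 := by simp [dir]

theorem dir_add (θ θ' : UnitAddCircle) : dir (θ + θ') = dir θ * dir θ' := by
  simp [dir, AddCircle.toCircle_add]

theorem dir_neg (θ : UnitAddCircle) : dir (-θ) = conj (dir θ) := by
  rw [dir, AddCircle.toCircle_neg, Circle.coe_inv_eq_conj, dir]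

theorem dir_injective : Function.Injective dir := fun _ _ h =>
  AddCircle.injective_toCircle one_ne_zero (Subtype.ext h)

theorem continuous_dir : Continuous dir :=
  continuous_subtype_val.comp AddCircle.continuous_toCircle

theorem exists_dir {u : ℂ} (hu : ‖u‖ = 1) : ∃ θ, dir θ = u := by
  obtain ⟨θ, hθ⟩ := (AddCircle.homeomorphCircle (T := 1) one_ne_zero).surjective
    ⟨u, by simp [Submonoid.unitSphere, hu]⟩
  refine ⟨θ, ?_⟩
  rw [AddCircle.homeomorphCircle_apply] at hθ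
  rw [dir, hθ]

theorem norm_act (g : UnitAddCircle × Bool) (y : ℂ) : ‖act g y‖ = ‖y‖ := by
  unfold act
  rw [norm_mul, norm_dir, one_mul]
  split_ifs <;> simp

theorem act_add (g : UnitAddCircle × Bool) (y y' : ℂ) : act g (y + y') = act g y + act g y' := by
  unfold act
  split_ifs <;> simp [mul_add]

theorem act_smul (g : UnitAddCircle × Bool) (t : ℝ) (y : ℂ) : act g (t • y) = t • act g y := by
  unfold act
  split_ifs <;> simp <;> ring

theorem tr_tr (y y' : ℂ) (z : Fr) : tr y' (tr y z) = tr (y + y') z := by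
  simp [tr, act_add, add_assoc]

theorem tr_zero (z : Fr) : tr 0 z = z := by
  simp [tr, act]

theorem tr_rot (θ : UnitAddCircle) (y : ℂ) (z : Fr) :
    tr y (rot θ z) = rot θ (tr (dir θ * y) z) := by
  obtain ⟨⟨φ, ε⟩, x⟩ := z
  cases ε
  · simp only [tr, rot, act, Bool.false_eq_true, if_false, dir_add, dir_neg, map_mul, mul_assoc]
  · simp only [tr, rot, act, if_true, dir_add, mul_assoc]

theorem rot_zero (z : Fr) : rot 0 z = z := by
  simp [rot]

theorem rot_add (θ θ' : UnitAddCircle) (z : Fr) : rot (θ + θ') z = rot θ' (rot θ z) := by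
  obtain ⟨⟨φ, ε⟩, x⟩ := z
  cases ε
  · simp only [rot, Bool.false_eq_true, if_false, neg_add, add_assoc]
  · simp only [rot, if_true, add_assoc]

namespace Tri

variable (T : Tri)

theorem δ_add (i : Fin 3) (x v : ℂ) : T.δ i (x + v) = T.δ i x + (conj (T.n i) * v).re := by
  simp only [δ, mul_add, Complex.add_re]; ring

theorem abs_δ_sub (i : Fin 3) (x x' : ℂ) : |T.δ i x - T.δ i x'| ≤ ‖x - x'‖ := by
  have e : T.δ i x - T.δ i x' = (conj (T.n i) * (x - x')).re := by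
    simp only [δ, mul_sub, Complex.sub_re]; ring
  rw [e]
  refine (Complex.abs_re_le_norm _).trans (le_of_eq ?_)
  rw [norm_mul, Complex.norm_conj, T.norm_n, one_mul]

theorem geo_d_le (x x' : ℂ) : T.d x ≤ T.d x' + ‖x - x'‖ := by
  have h : ∀ i, T.δ i x ≤ T.δ i x' + ‖x - x'‖ := fun i => by
    have := (abs_le.1 (T.abs_δ_sub i x x')).2
    linarith
  unfold d
  simp only [← min_add_add_right, ← max_add_add_right]
  gcongr <;> exact h _

theorem abs_d_sub (x x' : ℂ) : |T.d x - T.d x'| ≤ ‖x - x'‖ := by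
  have h1 := T.geo_d_le x x'
  have h2 := T.geo_d_le x' x
  rw [norm_sub_rev] at h2
  exact abs_le.2 ⟨by linarith, by linarith⟩

theorem continuous_δ (i : Fin 3) : Continuous (T.δ i) := by
  unfold δ
  fun_prop

theorem continuous_d : Continuous T.d := by
  have := T.continuous_δ
  unfold d
  fun_prop

theorem lt_d_iff (r : ℝ) (x : ℂ) : r < T.d x ↔ ∀ i j, i ≠ j → r < T.δ i x ∨ r < T.δ j x := by
  simp only [d, lt_min_iff, lt_max_iff]
  constructor
  · rintro ⟨h1, h2, h3⟩ i j hij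
    fin_cases i <;> fin_cases j <;> first | exact absurd rfl hij | assumption | exact Or.symm ‹_›
  · intro h
    exact ⟨h 1 2 (by decide), h 2 0 (by decide), h 0 1 (by decide)⟩

theorem geo_d_le_max (x : ℂ) {i j : Fin 3} (hij : i ≠ j) : T.d x ≤ max (T.δ i x) (T.δ j x) := by
  by_contra hc
  push Not at hc
  rcases (T.lt_d_iff _ x).1 hc i j hij with h | h
  · exact absurd (le_max_left _ _) (not_le.2 h)
  · exact absurd (le_max_right _ _) (not_le.2 h)

/-- all lines but one are at distance at least `d x` -/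
theorem exists_near (x : ℂ) : ∃ i, ∀ j, j ≠ i → T.d x ≤ T.δ j x := by
  obtain ⟨i, -, hi⟩ := Finset.exists_min_image Finset.univ (fun i => T.δ i x) Finset.univ_nonempty
  refine ⟨i, fun j hj => ?_⟩
  have := T.geo_d_le_max x hj
  rwa [max_eq_left (hi j (Finset.mem_univ _))] at this

theorem isOpen_Q : IsOpen T.Q := by
  have : T.Q = ⋂ i, {x | 0 < T.δ i x} := by ext; simp [Q]
  rw [this]
  exact isOpen_iInter_of_finite fun i => isOpen_lt continuous_const (T.continuous_δ i)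

theorem convex_Q : Convex ℝ T.Q := by
  intro x hx x' hx' a b ha hb hab i
  have h1 := hx i
  have h2 := hx' i
  have e : T.δ i (a • x + b • x') = a * T.δ i x + b * T.δ i x' := by
    simp only [δ, mul_add, mul_smul_comm, Complex.add_re, Complex.smul_re, smul_eq_mul]
    linear_combination (T.c i) * hab
  rw [e]
  rcases ha.lt_or_eq with h | h
  · have := mul_pos h h1
    have := mul_nonneg hb h2.le
    linarith
  · rw [← h] at hab ⊢
    rw [zero_add] at hab
    rw [hab]; linarith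

theorem geo_not_out {z : Fr} {i : Fin 3} (h : 0 < T.δ i z.2) : ¬T.Out i z := by
  rintro (h' | ⟨h', -⟩) <;> linarith

theorem geo_out_le {z : Fr} {i : Fin 3} (h : T.Out i z) : T.δ i z.2 ≤ 0 := by
  rcases h with h' | ⟨h', -⟩ <;> linarith

theorem geo_nonneg {z : Fr} {i : Fin 3} (h : ¬T.Out i z) : 0 ≤ T.δ i z.2 := by
  by_contra hc
  exact h (Or.inl (not_le.1 hc))

theorem mem_M₀_of_Q {z : Fr} (hz : z.2 ∈ T.Q) : z ∈ T.M₀ :=
  ⟨fun i => T.geo_not_out (hz i), (T.lt_d_iff 0 _).2 fun i _ _ => Or.inl (hz i)⟩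

theorem fold_of_mem {z : Fr} (hz : ∀ i, ¬T.Out i z) : T.fold z = z := by
  simp [fold, hz]

theorem fold_of_out {z : Fr} {i : Fin 3} (hi : T.Out i z) (hz : ∀ j, j ≠ i → ¬T.Out j z) :
    T.fold z = T.refl i z := by
  unfold fold
  fin_cases i
  · exact if_pos hi
  · rw [if_neg (hz 0 (by decide))]; exact if_pos hi
  · rw [if_neg (hz 0 (by decide)), if_neg (hz 1 (by decide))]; exact if_pos hi

theorem geo_conj_mul (i : Fin 3) : conj (T.n i) * T.n i = 1 := by
  rw [Complex.conj_mul', T.norm_n]; simp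

theorem δ_refl (i : Fin 3) (z : Fr) : T.δ i (T.refl i z).2 = -T.δ i z.2 := by
  show T.δ i (z.2 - (2 * T.δ i z.2) • T.n i) = _
  rw [sub_eq_add_neg, δ_add, mul_neg, mul_smul_comm, geo_conj_mul]
  simp only [Complex.neg_re, Complex.smul_re, Complex.one_re, smul_eq_mul]
  ring

theorem refl_refl (i : Fin 3) (z : Fr) : T.refl i (T.refl i z) = z := by
  have h := T.δ_refl i z
  obtain ⟨⟨φ, ε⟩, x⟩ := z
  refine Prod.ext (Prod.ext (sub_sub_cancel _ _) (Bool.not_not ε)) ?_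
  show (T.refl i ((φ, ε), x)).2 - (2 * T.δ i (T.refl i ((φ, ε), x)).2) • T.n i = x
  rw [h]
  simp [refl]

theorem out_refl (i : Fin 3) (z : Fr) : T.Out i (T.refl i z) ↔ ¬T.Out i z := by
  unfold Out
  rw [δ_refl]
  have e : (T.refl i z).1.2 = !z.1.2 := rfl
  rw [e]
  rcases lt_trichotomy (T.δ i z.2) 0 with h | h | h
  · simp [h, h.ne, h.le]
  · simp [h]
  · simp [h, h.ne', h.le]

theorem geo_reflect (i : Fin 3) (v : ℂ) :
    v - (2 * (conj (T.n i) * v).re) • T.n i = -T.n i ^ 2 * conj v := by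
  have h1 := T.geo_conj_mul i
  have h2 := Complex.add_conj (conj (T.n i) * v)
  rw [map_mul, Complex.conj_conj] at h2
  rw [Complex.real_smul, ← h2]
  linear_combination (-v) * h1

theorem tr_refl (i : Fin 3) (y : ℂ) (z : Fr) : tr y (T.refl i z) = T.refl i (tr y z) := by
  obtain ⟨⟨φ, ε⟩, x⟩ := z
  have e : act (T.κ i - φ, !ε) y = -T.n i ^ 2 * conj (act (φ, ε) y) := by
    cases ε <;> simp [act, sub_eq_add_neg, dir_add, dir_neg, T.dir_κ, mul_assoc]
  refine Prod.ext rfl ?_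
  show x - (2 * T.δ i x) • T.n i + act (T.κ i - φ, !ε) y =
    x + act (φ, ε) y - (2 * T.δ i (x + act (φ, ε) y)) • T.n i
  rw [e, ← T.geo_reflect, δ_add, mul_add, add_smul]
  ring

theorem rot_mem {z : Fr} (θ : UnitAddCircle) : rot θ z ∈ T.M₀ ↔ z ∈ T.M₀ := Iff.rfl

theorem geo_refl_rot (i : Fin 3) (θ : UnitAddCircle) (z : Fr) :
    T.refl i (rot θ z) = rot θ (T.refl i z) := by
  obtain ⟨⟨φ, ε⟩, x⟩ := z
  refine Prod.ext (Prod.ext ?_ rfl) rfl
  cases ε
  · show T.κ i - (φ + -θ) = T.κ i - φ + θ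
    abel
  · show T.κ i - (φ + θ) = T.κ i - φ + -θ
    abel

theorem ell_rot (θ : UnitAddCircle) (y : ℂ) (z : Fr) :
    T.ell y (rot θ z) = rot θ (T.ell (dir θ * y) z) := by
  unfold ell
  rw [tr_rot]
  generalize tr (dir θ * y) z = w
  unfold fold
  simp only [geo_refl_rot]
  split_ifs <;> first | rfl | contradiction

theorem ell_zero {z : Fr} (hz : z ∈ T.M₀) : T.ell 0 z = z := by
  rw [ell, tr_zero, T.fold_of_mem hz.1]

theorem geo_pos_near {x x' : ℂ} {i : Fin 3} (hi : ∀ j, j ≠ i → T.d x ≤ T.δ j x)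
    (h : ‖x' - x‖ < T.d x) (j : Fin 3) (hj : j ≠ i) : 0 < T.δ j x' := by
  have h1 := (abs_le.1 (T.abs_δ_sub j x' x)).1
  have := hi j hj
  linarith

theorem geo_norm_tr (y : ℂ) (z : Fr) : ‖(tr y z).2 - z.2‖ = ‖y‖ := by
  simp [tr, norm_act]

theorem geo_norm_refl {z w : Fr} {i : Fin 3} (hz : ¬T.Out i z) (hw : T.Out i w) :
    ‖(T.refl i w).2 - z.2‖ ≤ ‖w.2 - z.2‖ := by
  have h1 := T.geo_nonneg hz
  have h2 := T.geo_out_le hw
  obtain ⟨v, hv⟩ : ∃ v, v = w.2 - z.2 := ⟨_, rfl⟩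
  have h3 : T.δ i w.2 = T.δ i z.2 + (conj (T.n i) * v).re := by
    rw [← δ_add, hv, add_sub_cancel]
  have e : (T.refl i w).2 - z.2 = v - (2 * T.δ i w.2) • T.n i := by
    rw [hv]; simp only [refl]; ring
  rw [e, ← hv]
  have hn : (T.n i).re ^ 2 + (T.n i).im ^ 2 = 1 := by
    have := Complex.sq_norm (T.n i)
    rw [T.norm_n, Complex.normSq_apply] at this
    linarith
  refine (sq_le_sq₀ (norm_nonneg _) (norm_nonneg _)).1 ?_
  rw [Complex.sq_norm, Complex.sq_norm, Complex.normSq_apply, Complex.normSq_apply]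
  simp only [Complex.sub_re, Complex.sub_im, Complex.smul_re, Complex.smul_im, smul_eq_mul,
    Complex.mul_re, Complex.conj_re, Complex.conj_im] at h3 ⊢
  have h4 := mul_nonneg h1 (neg_nonneg.2 h2)
  generalize T.δ i w.2 = a at *
  generalize T.δ i z.2 = b at *
  have h5 : a * a = a * b + a * ((T.n i).re * v.re + (T.n i).im * v.im) := by
    linear_combination a * h3
  have h6 : a ^ 2 * ((T.n i).re ^ 2 + (T.n i).im ^ 2) = a ^ 2 := by rw [hn, mul_one]
  linarith

/-- near a point of `M₀` only one line matters -/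
theorem ell_cases {z : Fr} (hz : z ∈ T.M₀) {y : ℂ} (hy : ‖y‖ < T.d z.2) :
    ((∀ i, ¬T.Out i (tr y z)) ∧ T.ell y z = tr y z) ∨
      ∃ i, T.Out i (tr y z) ∧ (∀ j, j ≠ i → 0 < T.δ j (tr y z).2) ∧
        T.ell y z = T.refl i (tr y z) := by
  obtain ⟨i, hi⟩ := T.exists_near z.2
  have hp := T.geo_pos_near (x' := (tr y z).2) hi (by rwa [geo_norm_tr])
  by_cases ho : T.Out i (tr y z)
  · exact Or.inr ⟨i, ho, hp, T.fold_of_out ho fun j hj => T.geo_not_out (hp j hj)⟩
  · have : ∀ j, ¬T.Out j (tr y z) := fun j => by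
      by_cases hj : j = i
      · rwa [hj]
      · exact T.geo_not_out (hp j hj)
    exact Or.inl ⟨this, T.fold_of_mem this⟩

theorem norm_ell_sub {z : Fr} (hz : z ∈ T.M₀) {y : ℂ} (hy : ‖y‖ < T.d z.2) :
    ‖(T.ell y z).2 - z.2‖ ≤ ‖y‖ := by
  rcases T.ell_cases hz hy with ⟨-, h⟩ | ⟨i, ho, -, h⟩ <;> rw [h]
  · exact (geo_norm_tr y z).le
  · exact (T.geo_norm_refl (hz.1 i) ho).trans (geo_norm_tr y z).le

theorem geo_d_ell {z : Fr} (hz : z ∈ T.M₀) {y : ℂ} (hy : ‖y‖ < T.d z.2) :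
    T.d z.2 - ‖y‖ ≤ T.d (T.ell y z).2 := by
  have h1 := T.norm_ell_sub hz hy
  have h2 := (abs_le.1 (T.abs_d_sub (T.ell y z).2 z.2)).1
  linarith

theorem geo_near_of_out {z : Fr} {y : ℂ} (hy : ‖y‖ < T.d z.2) {i : Fin 3}
    (ho : T.Out i (tr y z)) (j : Fin 3) (hj : j ≠ i) : T.d z.2 ≤ T.δ j z.2 := by
  have h1 := T.geo_out_le ho
  have h2 := (abs_le.1 (T.abs_δ_sub i (tr y z).2 z.2)).1
  rw [geo_norm_tr] at h2
  rcases le_max_iff.1 (T.geo_d_le_max z.2 hj) with h | h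
  · exact h
  · linarith

theorem ell_mem {z : Fr} (hz : z ∈ T.M₀) {y : ℂ} (hy : ‖y‖ < T.d z.2) : T.ell y z ∈ T.M₀ := by
  refine ⟨?_, by linarith [T.geo_d_ell hz hy]⟩
  have hn := T.norm_ell_sub hz hy
  rcases T.ell_cases hz hy with ⟨h0, h⟩ | ⟨i, ho, -, h⟩
  · rwa [h]
  · intro j
    by_cases hj : j = i
    · rw [hj, h, out_refl]; exact not_not.2 ho
    · exact T.geo_not_out (T.geo_pos_near (T.geo_near_of_out hy ho) (hn.trans_lt hy) j hj)

theorem d_ell {z : Fr} (hz : z ∈ T.M₀) {y : ℂ} (hy : ‖y‖ < T.d z.2) :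
    T.d z.2 - ‖y‖ ≤ T.d (T.ell y z).2 := T.geo_d_ell hz hy

theorem ell_add {z : Fr} (hz : z ∈ T.M₀) {y y' : ℂ} (hy : ‖y‖ + ‖y'‖ < T.d z.2) :
    T.ell y' (T.ell y z) = T.ell (y + y') z := by
  have hy1 : ‖y‖ < T.d z.2 := by linarith [norm_nonneg y']
  have hn := T.norm_ell_sub hz hy1
  rcases T.ell_cases hz hy1 with ⟨-, h⟩ | ⟨i, ho, -, h⟩
  · rw [h, ell, tr_tr, ell]
  · have hi := T.geo_near_of_out hy1 ho
    have e : tr y' (T.ell y z) = T.refl i (tr (y + y') z) := by rw [h, tr_refl, tr_tr]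
    have p1 := T.geo_pos_near (x' := (tr (y + y') z).2) hi
      (by rw [geo_norm_tr]; exact (norm_add_le _ _).trans_lt hy)
    have p2 := T.geo_pos_near (x' := (tr y' (T.ell y z)).2) hi (by
      have := norm_sub_le_norm_sub_add_norm_sub (tr y' (T.ell y z)).2 (T.ell y z).2 z.2
      rw [geo_norm_tr] at this
      linarith)
    show T.fold (tr y' (T.ell y z)) = T.fold (tr (y + y') z)
    rw [e] at p2 ⊢
    generalize tr (y + y') z = p at *
    by_cases hp : T.Out i p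
    · rw [T.fold_of_out hp fun j hj => T.geo_not_out (p1 j hj)]
      refine T.fold_of_mem fun j => ?_
      by_cases hj : j = i
      · rw [hj, out_refl]; exact not_not.2 hp
      · exact T.geo_not_out (p2 j hj)
    · rw [T.fold_of_out ((T.out_refl i p).2 hp) fun j hj => T.geo_not_out (p2 j hj), refl_refl]
      refine (T.fold_of_mem fun j => ?_).symm
      by_cases hj : j = i
      · rwa [hj]
      · exact T.geo_not_out (p1 j hj)

theorem geo_ell_inv {z : Fr} (hz : z ∈ T.M₀) {y : ℂ} (hy : 2 * ‖y‖ < T.d z.2) :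
    T.ell (-y) (T.ell y z) = z := by
  rw [T.ell_add hz (by rw [norm_neg]; linarith), add_neg_cancel, T.ell_zero hz]

theorem geo_ev (y : ℂ) {a b : ℝ} (c : ℝ) (hab : a < b) :
    ∀ᶠ h in 𝓝 (0 : ℝ), a + c * ‖h • y‖ < b := by
  have : ContinuousAt (fun h : ℝ => a + c * ‖h • y‖) 0 := by fun_prop
  exact this.eventually_lt continuousAt_const (by simpa using hab)

variable {T}

/-- uniqueness of trajectories -/
theorem Traj.unique {y : ℂ} {γ γ' : ℝ → Fr} {I : Set ℝ} (hI : IsPreconnected I)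
    (h : T.Traj y γ I) (h' : T.Traj y γ' I) {t₀ : ℝ} (ht₀ : t₀ ∈ I) (h0 : γ t₀ = γ' t₀) :
    ∀ t ∈ I, γ t = γ' t := by
  intro t ht
  have key := hI.induction₂' (fun s u => γ s = γ' s → γ u = γ' u) ?_
    (fun _ _ _ _ _ _ a b c => b (a c)) ht₀ ht
  · exact key h0
  intro s hs
  obtain ⟨m1, e1⟩ := h s hs
  obtain ⟨m2, e2⟩ := h' s hs
  have e3 := geo_ev y 2 m1.2
  have e4 := geo_ev y 2 m2.2
  have e5 : ∀ᶠ k in 𝓝 (0 : ℝ), (γ s = γ' s → γ (s + k) = γ' (s + k)) ∧
      (γ (s + k) = γ' (s + k) → γ s = γ' s) := by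
    filter_upwards [e1, e2, e3, e4] with k a1 a2 a3 a4
    rw [zero_add] at a3 a4
    rw [a1, a2]
    refine ⟨fun a => by rw [a], fun a => ?_⟩
    rw [← T.geo_ell_inv m1 a3, a, T.geo_ell_inv m2 a4]
  have tt : Tendsto (fun u : ℝ => u - s) (𝓝 s) (𝓝 0) := by
    have : ContinuousAt (fun u : ℝ => u - s) s := by fun_prop
    simpa [ContinuousAt] using this
  refine Filter.Eventually.filter_mono nhdsWithin_le_nhds ?_
  filter_upwards [tt.eventually e5] with u hu
  rwa [add_sub_cancel] at hu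

theorem Traj.geo_mono {y : ℂ} {γ : ℝ → Fr} {I J : Set ℝ} (h : T.Traj y γ I) (hJ : J ⊆ I) :
    T.Traj y γ J := fun t ht => h t (hJ ht)

theorem traj_ell {z : Fr} (hz : z ∈ T.M₀) (y : ℂ) (t₀ : ℝ) :
    T.Traj y (fun t => T.ell ((t - t₀) • y) z) {t | |t - t₀| * ‖y‖ < T.d z.2} := by
  intro t ht
  have h1 : ‖(t - t₀) • y‖ < T.d z.2 := by rwa [norm_smul, Real.norm_eq_abs]
  refine ⟨T.ell_mem hz h1, ?_⟩
  filter_upwards [geo_ev y 1 h1] with k hk
  rw [one_mul] at hk
  rw [T.ell_add hz hk, ← add_smul]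
  congr 2
  ring

theorem traj_tr (z : Fr) (y : ℂ) :
    T.Traj y (fun t => tr (t • y) z) {t | (tr (t • y) z).2 ∈ T.Q} := by
  intro t ht
  refine ⟨T.mem_M₀_of_Q ht, ?_⟩
  have hc : ContinuousAt (fun k : ℝ => (tr ((t + k) • y) z).2) 0 := by
    simp only [tr, act_smul]
    fun_prop
  have := hc.eventually (T.isOpen_Q.mem_nhds (by beta_reduce; rw [add_zero]; exact ht))
  filter_upwards [this] with k hk
  rw [ell, tr_tr, ← add_smul, T.fold_of_mem (T.mem_M₀_of_Q hk).1]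

theorem Traj.strong {y : ℂ} {γ : ℝ → Fr} (h : T.Traj y γ Set.univ) (t s : ℝ)
    (hs : |s| * ‖y‖ < T.d (γ t).2) : γ (t + s) = T.ell (s • y) (γ t) := by
  have hz := (h t trivial).1
  have sub : Set.uIcc t (t + s) ⊆ {u | |u - t| * ‖y‖ < T.d (γ t).2} := by
    intro u hu
    have := Set.abs_sub_left_of_mem_uIcc hu
    rw [add_sub_cancel_left] at this
    exact (mul_le_mul_of_nonneg_right this (norm_nonneg _)).trans_lt hs
  have := Traj.unique isPreconnected_uIcc (h.geo_mono (Set.subset_univ _))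
    ((traj_ell hz y t).geo_mono sub) Set.left_mem_uIcc
    (by simp only [sub_self, zero_smul, T.ell_zero hz]) (t + s) Set.right_mem_uIcc
  simpa only [add_sub_cancel_left] using this

theorem Traj.interior {y : ℂ} {γ : ℝ → Fr} (h : T.Traj y γ Set.univ) (h0 : (γ 0).2 ∈ T.Q)
    (h1 : (tr y (γ 0)).2 ∈ T.Q) : γ 1 = tr y (γ 0) := by
  have sub : Set.Icc (0 : ℝ) 1 ⊆ {t | (tr (t • y) (γ 0)).2 ∈ T.Q} := by
    intro u hu
    show (γ 0).2 + act (γ 0).1 (u • y) ∈ T.Q
    rw [act_smul]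
    exact T.convex_Q.add_smul_mem h0 h1 hu
  have := Traj.unique isPreconnected_Icc (h.geo_mono (Set.subset_univ _))
    ((traj_tr (γ 0) y).geo_mono sub) (Set.left_mem_Icc.2 zero_le_one)
    (by simp only [zero_smul, tr_zero]) 1 (Set.right_mem_Icc.2 zero_le_one)
  simpa only [one_smul] using this

end Tri

end Vale.Agent.P099
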