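import Vale.Agent.P099.Defs

/-! Basic facts on the Hilbert space structure, and Fourier modes. -/

namespace Vale.Agent.P099

open MeasureTheory Filter Topology ComplexConjugate AddCircle

theorem hb_dir_eq (θ : UnitAddCircle) : dir θ = fourier 1 θ := fourier_one.symm

theorem hb_fourier_add (n : ℤ) (θ θ' : UnitAddCircle) :
    fourier n (θ + θ') = fourier n θ * fourier n θ' := by
  simp [fourier_apply, toCircle_add]

theorem hb_norm_fourier (n : ℤ) (θ : UnitAddCircle) : ‖fourier n θ‖ = 1 := by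
  rw [fourier_apply, Circle.norm_coe]

theorem hb_dir_coe (a : ℝ) : dir ((a / (2 * Real.pi) : ℝ) : UnitAddCircle) =
    Complex.exp (a * Complex.I) := by
  rw [dir, toCircle_apply_mk, Circle.coe_exp]
  congr 2
  have := Real.pi_ne_zero
  push_cast
  field_simp

variable {H : Type} [NormedAddCommGroup H] [InnerProductSpace ℂ H]

/-- a self-adjoint idempotent is a contraction, and so is its complement -/
theorem hb_proj {N : H →L[ℂ] H} (adj : ∀ x x', inner ℂ (N x) x' = inner ℂ x (N x'))
    (idem : ∀ x, N (N x) = N x) (x z : H) :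
    ‖x - N x + N z‖ ^ 2 = ‖x - N x‖ ^ 2 + ‖N z‖ ^ 2 := by
  have h : inner ℂ (x - N x) (N z) = 0 := by rw [← adj, map_sub, idem, sub_self, inner_zero_left]
  rw [sq, sq, sq]
  exact norm_add_sq_eq_norm_sq_add_norm_sq_of_inner_eq_zero _ _ h

theorem hb_proj_le {N : H →L[ℂ] H} (adj : ∀ x x', inner ℂ (N x) x' = inner ℂ x (N x'))
    (idem : ∀ x, N (N x) = N x) (x : H) : ‖N x‖ ≤ ‖x‖ ∧ ‖x - N x‖ ≤ ‖x‖ := by
  have h := hb_proj adj idem x x
  rw [sub_add_cancel] at h
  constructor
  · exact le_of_sq_le_sq (by nlinarith [sq_nonneg ‖x - N x‖]) (norm_nonneg _)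
  · exact le_of_sq_le_sq (by nlinarith [sq_nonneg ‖N x‖]) (norm_nonneg _)

namespace HData

variable (D : HData H)

theorem W_W_neg (y : ℂ) (x : H) : D.W y (D.W (-y) x) = x := by
  have := D.W_add y 1 (-1) x
  simp only [add_neg_cancel, zero_smul, D.W_zero, one_smul, neg_smul] at this
  exact this.symm

theorem W_neg_W (y : ℂ) (x : H) : D.W (-y) (D.W y x) = x := by
  simpa using D.W_W_neg (-y) x

theorem W_adj (y : ℂ) (x x' : H) : inner ℂ (D.W y x) x' = inner ℂ x (D.W (-y) x') := by
  conv_lhs => rw [← D.W_W_neg y x']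
  exact (D.W y).inner_map_map _ _

theorem V_V_neg (θ : UnitAddCircle) (x : H) : D.V θ (D.V (-θ) x) = x := by
  rw [← D.V_add, add_neg_cancel, D.V_zero]

theorem V_adj (θ : UnitAddCircle) (x x' : H) :
    inner ℂ (D.V θ x) x' = inner ℂ x (D.V (-θ) x') := by
  conv_lhs => rw [← D.V_V_neg θ x']
  exact (D.V θ).inner_map_map _ _

theorem U_add (s t : ℝ) (x : H) : D.W ((s + t : ℝ) : ℂ) x = D.W s (D.W t x) := by
  simpa using D.W_add 1 s t x

theorem E_idem (r : ℝ) (x : H) : D.E r (D.E r x) = D.E r x := D.E_E r r x le_rfl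

theorem E_E' {r r' : ℝ} (h : r ≤ r') (x : H) : D.E r' (D.E r x) = D.E r' x :=
  ext_inner_left ℂ fun v => by rw [← D.E_adj, ← D.E_adj, D.E_E r r' v h, D.E_adj]

theorem norm_E_le (r : ℝ) (x : H) : ‖D.E r x‖ ≤ ‖x‖ :=
  (hb_proj_le (D.E_adj r) (D.E_idem r) x).1

theorem norm_sub_E_le (r : ℝ) (x : H) : ‖x - D.E r x‖ ≤ ‖x‖ :=
  (hb_proj_le (D.E_adj r) (D.E_idem r) x).2

theorem lip' {r r' : ℝ} {y : ℂ} (h0 : 0 ≤ r) (h : r + ‖y‖ ≤ r') (x : H) :
    D.E r (D.W y (D.E r' x)) = D.W y (D.E r' x) :=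
  ext_inner_left ℂ fun v => by
    have h1 : ∀ a b : H, inner ℂ a (D.W y b) = inner ℂ (D.W (-y) a) b := fun a b => by
      rw [D.W_adj, neg_neg]
    rw [← D.E_adj, h1, h1, ← D.E_adj, ← D.E_adj, ← D.lip r r' (-y) v h0 (by rwa [norm_neg])]

theorem loc' {r : ℝ} {y y' : ℂ} (h : ‖y‖ + ‖y'‖ ≤ r) (x : H) :
    D.W y (D.W y' (D.E r x)) = D.W (y + y') (D.E r x) :=
  ext_inner_left ℂ fun v => by
    have h1 : ∀ (y : ℂ) (a b : H), inner ℂ a (D.W y b) = inner ℂ (D.W (-y) a) b := fun y a b => by
      rw [D.W_adj, neg_neg]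
    rw [h1, h1, h1, ← D.E_adj, ← D.E_adj, D.loc r (-y') (-y) v (by simpa [add_comm] using h),
      neg_add_rev]

theorem continuous_iso {X : Type*} [TopologicalSpace X] {A : X → H →ₗᵢ[ℂ] H}
    (hA : ∀ x, Continuous fun p => A p x) {g : X → H} (hg : Continuous g) :
    Continuous fun p => A p (g p) := by
  rw [continuous_iff_continuousAt]
  intro p
  have h1 : Tendsto (fun p' => A p' (g p' - g p)) (𝓝 p) (𝓝 0) := by
    rw [tendsto_zero_iff_norm_tendsto_zero]
    simp only [LinearIsometry.norm_map]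
    exact tendsto_iff_norm_sub_tendsto_zero.1 hg.continuousAt
  have h2 := h1.add (hA (g p)).continuousAt
  simp only [map_sub, sub_add_cancel, zero_add] at h2
  exact h2

theorem continuous_V (x : H) : Continuous fun θ => D.V θ x := by
  rw [continuous_iff_continuousAt]
  intro θ
  have h1 : Tendsto (fun θ' : UnitAddCircle => θ' - θ) (𝓝 θ) (𝓝 0) := by
    simpa using (continuous_sub_right θ).tendsto θ
  have h2 := ((D.V θ).continuous.tendsto x).comp ((D.V_cont x).comp h1)
  refine h2.congr fun θ' => ?_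
  simp only [Function.comp, ← D.V_add, add_sub_cancel]

theorem continuous_U (x : H) : Continuous fun t : ℝ => D.W t x := by
  rw [continuous_iff_continuousAt]
  intro t
  have h1 : Tendsto (fun s : ℝ => ((s - t : ℝ) : ℂ)) (𝓝 t) (𝓝 0) := by
    have : Continuous fun s : ℝ => ((s - t : ℝ) : ℂ) := by fun_prop
    simpa using this.tendsto t
  have h2 := ((D.W t).continuous.tendsto x).comp ((D.W_cont x).comp h1)
  refine h2.congr fun s => ?_
  simp only [Function.comp, ← D.U_add, add_sub_cancel]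

theorem W_polar (θ : UnitAddCircle) (y : ℂ) (x : H) :
    D.W (dir θ * y) x = D.V θ (D.W y (D.V (-θ) x)) := by
  rw [D.V_W, D.V_V_neg]

theorem continuous_W (x : H) : Continuous fun y => D.W y x := by
  rw [continuous_iff_continuousAt]
  intro y₀
  rcases eq_or_ne y₀ 0 with rfl | h0
  · simpa only [D.W_zero, ContinuousAt] using D.W_cont x
  have hF : Continuous fun p : UnitAddCircle × ℝ => D.V p.1 (D.W p.2 (D.V (-p.1) x)) :=
    continuous_iso (A := fun p : UnitAddCircle × ℝ => D.V p.1)
      (fun x => (D.continuous_V x).comp continuous_fst)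
      (continuous_iso (A := fun p : UnitAddCircle × ℝ => D.W p.2)
        (fun x => (D.continuous_U x).comp continuous_snd)
        ((D.continuous_V x).comp continuous_fst.neg))
  have ha : ContinuousAt (fun y : ℂ => Complex.arg (y / y₀)) y₀ :=
    ContinuousAt.comp (g := Complex.arg) (f := fun y : ℂ => y / y₀)
      (Complex.continuousAt_arg (by simp [h0])) (by fun_prop)
  have hθ : ContinuousAt (fun y : ℂ => ((((Complex.arg y₀ + Complex.arg (y / y₀)) /
      (2 * Real.pi) : ℝ) : UnitAddCircle), ‖y‖)) y₀ :=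
    ContinuousAt.prodMk ((AddCircle.continuous_mk' 1).continuousAt.comp
      ((continuousAt_const.add ha).div_const _)) continuous_norm.continuousAt
  refine (hF.continuousAt.comp hθ).congr (Eventually.of_forall fun y => ?_)
  simp only [Function.comp, ← D.W_polar, hb_dir_coe]
  congr 2
  have h1 := Complex.norm_mul_exp_arg_mul_I y₀
  have h2 := Complex.norm_mul_exp_arg_mul_I (y / y₀)
  have h3 : (‖y₀‖ : ℂ) ≠ 0 := by simpa using h0
  push_cast
  rw [add_mul, Complex.exp_add]
  rw [norm_div] at h2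
  push_cast at h2
  calc _ = (‖y₀‖ * Complex.exp (y₀.arg * Complex.I)) *
      (‖y‖ / ‖y₀‖ * Complex.exp ((y / y₀).arg * Complex.I)) := by field_simp
    _ = y := by rw [h1, h2]; field_simp

theorem ev_small (x : H) {ε : ℝ} (hε : 0 < ε) :
    ∀ᶠ δ in 𝓝[>] (0 : ℝ), ∀ y : ℂ, ‖y‖ ≤ δ → ‖D.W y x - x‖ ≤ ε := by
  obtain ⟨δ₀, h0, h⟩ := Metric.tendsto_nhds_nhds.1 (D.W_cont x) ε hε
  filter_upwards [Ioo_mem_nhdsGT h0] with δ hδ y hy
  have := h (x := y) (by simpa using hy.trans_lt hδ.2)
  rw [dist_eq_norm] at this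
  exact this.le

theorem tendsto_E (x : H) : Tendsto (fun r => D.E r x) (𝓝[>] 0) (𝓝 x) := by
  rw [Metric.tendsto_nhds]
  intro ε hε
  obtain ⟨x₀, h1, C, hC⟩ := Metric.dense_iff.1 D.dense x (ε / 2) (by positivity)
  have h2 : Tendsto (fun r : ℝ => C * r) (𝓝[>] 0) (𝓝 0) := by
    have : Continuous fun r : ℝ => C * r := by fun_prop
    simpa using (this.tendsto 0).mono_left nhdsWithin_le_nhds
  filter_upwards [h2.eventually (gt_mem_nhds (half_pos hε)), self_mem_nhdsWithin] with r h3 h4
  have h5 := hC r h4 0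
  rw [D.W_zero] at h5
  have h6 := D.norm_sub_E_le r (x - x₀)
  rw [Metric.mem_ball, dist_comm, dist_eq_norm] at h1
  rw [dist_comm, dist_eq_norm, show x - D.E r x = (x - x₀ - D.E r (x - x₀)) + (x₀ - D.E r x₀) by
    rw [map_sub]; abel]
  linarith [norm_add_le (x - x₀ - D.E r (x - x₀)) (x₀ - D.E r x₀)]

theorem integrable_V (n : ℤ) (x : H) :
    Integrable (fun θ => fourier n θ • D.V θ x) haarAddCircle :=
  ((fourier n).continuous.smul (D.continuous_V x)).integrable_of_hasCompactSupport
    (HasCompactSupport.of_compactSpace _)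

/-- projection onto the `n`-th mode -/
noncomputable def P (n : ℤ) : H →L[ℂ] H :=
  LinearMap.mkContinuous
    { toFun := fun x => ∫ θ, fourier (-n) θ • D.V θ x ∂haarAddCircle
      map_add' := fun x x' => by
        simp only [map_add, smul_add]
        exact integral_add (D.integrable_V _ x) (D.integrable_V _ x')
      map_smul' := fun c x => by
        simp only [map_smul, RingHom.id_apply, smul_comm _ c]
        exact integral_smul _ _ } 1 fun x => by
    have := norm_integral_le_of_norm_le_const (μ := haarAddCircle)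
      (f := fun θ => fourier (-n) θ • D.V θ x) (C := ‖x‖) (Eventually.of_forall fun θ => by
        rw [norm_smul, hb_norm_fourier, one_mul, LinearIsometry.norm_map])
    simpa using this

theorem P_apply (n : ℤ) (x : H) :
    D.P n x = ∫ θ, fourier (-n) θ • D.V θ x ∂haarAddCircle := rfl

variable [CompleteSpace H]

theorem P_comm {A : H →L[ℂ] H} {k : ℤ} (hA : ∀ θ x, D.V θ (A x) = fourier k θ • A (D.V θ x))
    (n : ℤ) (x : H) : D.P (n + k) (A x) = A (D.P n x) := by
  rw [P_apply, P_apply, ← A.integral_comp_comm (D.integrable_V _ x)]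
  refine integral_congr_ae (Eventually.of_forall fun θ => ?_)
  simp only [hA, smul_smul, map_smul, ← fourier_add]
  congr 3
  ring

theorem P_E (n : ℤ) (r : ℝ) (x : H) : D.P n (D.E r x) = D.E r (D.P n x) := by
  simpa using D.P_comm (A := D.E r) (k := 0) (fun θ x => by simp [D.V_E]) n x

theorem V_P (θ : UnitAddCircle) (n : ℤ) (x : H) : D.V θ (D.P n x) = fourier n θ • D.P n x := by
  rw [P_apply, ← (D.V θ).integral_comp_comm, ← integral_smul,
    ← integral_add_left_eq_self (μ := haarAddCircle)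
      (fun θ' => fourier n θ • fourier (-n) θ' • D.V θ' x) θ]
  refine integral_congr_ae (Eventually.of_forall fun θ' => ?_)
  simp only [map_smul, ← D.V_add, hb_fourier_add, smul_smul, ← mul_assoc, ← fourier_add,
    add_neg_cancel, fourier_zero, one_mul]

theorem P_P (n : ℤ) (x : H) : D.P n (D.P n x) = D.P n x := by
  rw [P_apply]
  simp only [V_P, smul_smul, ← fourier_add, neg_add_cancel, fourier_zero, one_smul]
  simp

theorem P_adj (n : ℤ) (x x' : H) : inner ℂ (D.P n x) x' = inner ℂ x (D.P n x') := by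
  rw [← inner_conj_symm, P_apply, P_apply, ← integral_inner (D.integrable_V _ x),
    ← integral_inner (D.integrable_V _ x'), ← integral_conj,
    ← integral_neg_eq_self (μ := haarAddCircle)]
  refine integral_congr_ae (Eventually.of_forall fun θ => ?_)
  simp only [inner_smul_right, map_mul, inner_conj_symm, D.V_adj, neg_neg]
  congr 1
  rw [← fourier_neg, neg_neg, fourier_apply, fourier_apply, smul_neg, neg_smul]

theorem P_orth {m n : ℤ} (h : m ≠ n) (x x' : H) : inner ℂ (D.P m x) (D.P n x') = 0 := by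
  have h1 := (D.V ((1 / 2 / ((n - m : ℤ) : ℝ) : ℝ) : UnitAddCircle)).inner_map_map (D.P m x)
    (D.P n x')
  have h2 := fourier_add_half_inv_index (T := 1) (sub_ne_zero.2 h.symm) one_pos 0
  rw [zero_add, fourier_eval_zero] at h2
  rw [V_P, V_P, inner_smul_left, inner_smul_right, ← mul_assoc, ← fourier_neg, ← fourier_add,
    neg_add_eq_sub, h2] at h1
  linear_combination (-1 / 2 : ℂ) * h1

theorem P_P_ne {m n : ℤ} (h : m ≠ n) (x : H) : D.P m (D.P n x) = 0 :=
  ext_inner_left ℂ fun v => by rw [← P_adj, D.P_orth h, inner_zero_right]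

theorem norm_P_le (n : ℤ) (x : H) : ‖D.P n x‖ ≤ ‖x‖ :=
  (hb_proj_le (D.P_adj n) (D.P_P n) x).1

theorem norm_sum_P (s : Finset ℤ) (x : H) :
    ‖∑ k ∈ s, D.P k x‖ ^ 2 = ∑ k ∈ s, ‖D.P k x‖ ^ 2 := by
  classical
  induction s using Finset.induction_on with
  | empty => simp
  | insert a s ha ih =>
    rw [Finset.sum_insert ha, Finset.sum_insert ha, ← ih, sq, sq, sq]
    refine norm_add_sq_eq_norm_sq_add_norm_sq_of_inner_eq_zero (𝕜 := ℂ) _ _ ?_
    rw [inner_sum]
    exact Finset.sum_eq_zero fun k hk => D.P_orth (by rintro rfl; exact ha hk) _ _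

theorem norm_sum_P_le (s : Finset ℤ) (x : H) : ‖∑ k ∈ s, D.P k x‖ ≤ ‖x‖ := by
  have := hb_proj_le (N := ∑ k ∈ s, D.P k) (fun x x' => by
    simp only [ContinuousLinearMap.sum_apply, sum_inner, inner_sum, D.P_adj]) (fun x => by
    simp only [ContinuousLinearMap.sum_apply, map_sum]
    refine Finset.sum_congr rfl fun k hk => ?_
    rw [Finset.sum_eq_single k (fun j _ hj => D.P_P_ne hj x) (fun h => absurd hk h), P_P]) x
  simpa only [ContinuousLinearMap.sum_apply] using this.1

theorem summable_sq (x : H) : Summable fun k => ‖D.P k x‖ ^ 2 :=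
  summable_of_sum_le (c := ‖x‖ ^ 2) (fun _ => sq_nonneg _) fun s => by
    rw [← norm_sum_P]
    exact pow_le_pow_left₀ (norm_nonneg _) (D.norm_sum_P_le s x) 2

theorem summable_P (x : H) : Summable fun k => D.P k x := by
  rw [summable_iff_vanishing_norm]
  intro ε hε
  obtain ⟨s, hs⟩ := summable_iff_vanishing_norm.1 (D.summable_sq x) (ε ^ 2) (by positivity)
  refine ⟨s, fun t ht => ?_⟩
  have := hs t ht
  rw [← norm_sum_P, Real.norm_of_nonneg (sq_nonneg _)] at this
  exact lt_of_pow_lt_pow_left₀ 2 hε.le this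

theorem tendsto_P (n : ℤ) (x : H) : Tendsto (fun N : ℕ => D.P (n + N) x) atTop (𝓝 0) :=
  ((D.summable_P x).comp_injective (i := fun N : ℕ => n + N)
    fun a b h => by simpa using h).tendsto_atTop_zero

theorem inner_eq_zero_of_modes {x x' : H} (h : ∀ n, inner ℂ x' (D.P n x) = 0) :
    inner ℂ x' x = 0 := by
  let g : C(UnitAddCircle, ℂ) := ⟨fun θ => inner ℂ x' (D.V θ x),
    continuous_const.inner (D.continuous_V x)⟩
  have h1 : fourierCoeff g = 0 := funext fun n => by
    have := h n
    rw [P_apply, ← integral_inner (D.integrable_V _ x)] at this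
    simp only [inner_smul_right] at this
    exact this
  have h2 := has_pointwise_sum_fourier_series_of_summable (f := g)
    (by rw [h1]; exact summable_zero) 0
  simp only [h1, Pi.zero_apply, zero_smul] at h2
  have h3 : inner ℂ x' (D.V 0 x) = 0 := h2.unique hasSum_zero
  rwa [D.V_zero] at h3

end HData

end Vale.Agent.P099
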