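import Vale.Agent.P099.HBasic

/-! Kernel operators. -/

namespace Vale.Agent.P099

open MeasureTheory Filter Topology ComplexConjugate AddCircle Metric

/-- integrable kernels supported in the unit disc -/
structure Ker where
  k : ℂ → ℂ
  int : Integrable k
  supp : ∀ y, k y ≠ 0 → ‖y‖ ≤ 1

/-- the mass of a kernel -/
noncomputable def Ker.m (κ : Ker) : ℝ := ∫ y, ‖κ.k y‖

theorem Ker.m_nonneg (κ : Ker) : 0 ≤ κ.m := integral_nonneg fun _ => norm_nonneg _

/-- a continuous function cut off to the unit disc -/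
noncomputable def cut (g : ℂ → ℂ) (hg : Continuous g) : Ker where
  k := (ball 0 1).indicator g
  int := (integrable_indicator_iff measurableSet_ball).2
    ((hg.continuousOn.integrableOn_compact (isCompact_closedBall 0 1)).mono_set
      ball_subset_closedBall)
  supp := fun y hy => by
    have := Set.mem_of_indicator_ne_zero hy
    exact (mem_ball_zero_iff.1 this).le

theorem cut_apply (g : ℂ → ℂ) (hg : Continuous g) (y : ℂ) :
    (cut g hg).k y = if ‖y‖ < 1 then g y else 0 := by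
  by_cases h : ‖y‖ < 1
  · rw [if_pos h]
    exact Set.indicator_of_mem (mem_ball_zero_iff.2 h) _
  · rw [if_neg h]
    exact Set.indicator_of_notMem (fun h' => h (mem_ball_zero_iff.1 h')) _

/-- raising kernel -/
noncomputable def kp : Ker := cut (fun y => conj y) Complex.continuous_conj

/-- lowering kernel -/
noncomputable def km : Ker := cut (fun y => y) continuous_id

/-- the sum of the two -/
noncomputable def ks : Ker := cut (fun y => 2 * (y.re : ℂ)) (by fun_prop)

theorem kp_add_km (y : ℂ) : kp.k y + km.k y = ks.k y := by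
  simp only [kp, km, ks, cut_apply]
  split_ifs
  · rw [add_comm, Complex.add_conj]
    push_cast
    rfl
  · simp

theorem kp_neg (y : ℂ) : kp.k (-y) = -kp.k y := by
  simp only [kp, cut_apply, norm_neg, map_neg]
  split_ifs <;> simp

theorem km_neg (y : ℂ) : km.k (-y) = -km.k y := by
  simp only [km, cut_apply, norm_neg]
  split_ifs <;> simp

theorem conj_kp (y : ℂ) : conj (kp.k y) = km.k y := by
  simp only [kp, km, cut_apply]
  split_ifs <;> simp

theorem integral_odd {κ : Ker} (h : ∀ y, κ.k (-y) = -κ.k y) : ∫ y, κ.k y = 0 := by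
  have := integral_neg_eq_self κ.k volume
  simp only [h, integral_neg] at this
  linear_combination (-1 / 2 : ℂ) * this

/-- the normalising constant -/
noncomputable def c0 : ℂ := ∫ y, ks.k y * (y.re : ℂ)

theorem c0_ne_zero : c0 ≠ 0 := by
  have h1 : c0 = ((∫ y in ball (0 : ℂ) 1, 2 * y.re ^ 2 : ℝ) : ℂ) := by
    rw [c0, ← integral_complex_ofReal, ← integral_indicator measurableSet_ball]
    refine integral_congr_ae (Eventually.of_forall fun y => ?_)
    by_cases h : ‖y‖ < 1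
    · simp only [ks, cut_apply, if_pos h]
      rw [Set.indicator_of_mem (mem_ball_zero_iff.2 h)]
      push_cast
      ring
    · simp only [ks, cut_apply, if_neg h]
      rw [Set.indicator_of_notMem (fun h' => h (mem_ball_zero_iff.1 h')), zero_mul]
  rw [h1, Complex.ofReal_ne_zero]
  have hc : Continuous fun y : ℂ => 2 * y.re ^ 2 := by fun_prop
  refine ne_of_gt ((setIntegral_pos_iff_support_of_nonneg_ae
    (Eventually.of_forall fun y => by positivity)
    ((hc.continuousOn.integrableOn_compact (isCompact_closedBall 0 1)).mono_set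
      ball_subset_closedBall)).2 ?_)
  refine (hc.isOpen_support.inter isOpen_ball).measure_pos _ ⟨1 / 2, ?_, ?_⟩
  · simp
  · simp
    norm_num

variable {H : Type} [NormedAddCommGroup H] [InnerProductSpace ℂ H]

theorem Ker.norm_int_le (κ : Ker) {F : ℂ → H} {c : ℝ} (h : ∀ y, ‖y‖ ≤ 1 → ‖F y‖ ≤ c) :
    ‖∫ y, κ.k y • F y‖ ≤ κ.m * c := by
  rw [Ker.m, ← integral_mul_const]
  refine norm_integral_le_of_norm_le (κ.int.norm.mul_const c) (Eventually.of_forall fun y => ?_)
  rw [norm_smul]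
  by_cases h0 : κ.k y = 0
  · simp [h0]
  · exact mul_le_mul_of_nonneg_left (h y (κ.supp y h0)) (norm_nonneg _)

theorem Ker.integrable (κ : Ker) {F : ℂ → H} (hF : Continuous F) :
    Integrable fun y => κ.k y • F y := by
  obtain ⟨c, hc⟩ := (isCompact_closedBall (0 : ℂ) 1).exists_bound_of_continuousOn hF.continuousOn
  refine (κ.int.norm.mul_const c).mono' (κ.int.1.smul hF.aestronglyMeasurable)
    (Eventually.of_forall fun y => ?_)
  rw [norm_smul]
  by_cases h0 : κ.k y = 0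
  · simp [h0]
  · exact mul_le_mul_of_nonneg_left (hc y (mem_closedBall_zero_iff.2 (κ.supp y h0)))
      (norm_nonneg _)

theorem Ker.int_congr (κ : Ker) {F F' : ℂ → H} (h : ∀ y, ‖y‖ ≤ 1 → F y = F' y) :
    ∫ y, κ.k y • F y = ∫ y, κ.k y • F' y := by
  refine integral_congr_ae (Eventually.of_forall fun y => ?_)
  by_cases h0 : κ.k y = 0
  · simp [h0]
  · simp only [h y (κ.supp y h0)]

theorem ks_odd (G : ℝ → H) : ∫ y, ks.k y • G y.im = 0 := by
  have h := integral_comp (Complex.conjLIE.trans (LinearIsometryEquiv.neg ℝ))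
    fun y => ks.k y • G y.im
  have h1 : ∀ y : ℂ, ks.k (-conj y) = -ks.k y := fun y => by
    simp only [ks, cut_apply, norm_neg, Complex.norm_conj]
    split_ifs <;> simp
  simp only [LinearIsometryEquiv.trans_apply, Complex.conjLIE_apply, LinearIsometryEquiv.coe_neg,
    h1, Complex.neg_im, Complex.conj_im, neg_neg, neg_smul, integral_neg] at h
  have h2 : (2 : ℂ) • ∫ y, ks.k y • G y.im = 0 := by
    rw [two_smul]
    nth_rewrite 1 [← h]
    exact neg_add_cancel _
  exact (smul_eq_zero.1 h2).resolve_left two_ne_zero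

theorem hk_norm_mul {δ : ℝ} (hδ : 0 ≤ δ) {y : ℂ} (hy : ‖y‖ ≤ 1) : ‖(δ : ℂ) * y‖ ≤ δ := by
  rw [norm_mul, Complex.norm_of_nonneg hδ]
  exact mul_le_of_le_one_right hδ hy

namespace HData

variable (D : HData H)

theorem continuous_Wd (δ : ℝ) (x : H) : Continuous fun y : ℂ => D.W (δ * y) x :=
  (D.continuous_W x).comp (by fun_prop)

/-- the kernel operator at scale `δ` -/
noncomputable def T (κ : Ker) (δ : ℝ) : H →L[ℂ] H :=
  LinearMap.mkContinuous
    { toFun := fun x => ∫ y, κ.k y • D.W (δ * y) x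
      map_add' := fun x x' => by
        simp only [map_add, smul_add]
        exact integral_add (κ.integrable (D.continuous_Wd δ x))
          (κ.integrable (D.continuous_Wd δ x'))
      map_smul' := fun c x => by
        simp only [map_smul, RingHom.id_apply, smul_comm _ c]
        exact integral_smul _ _ } κ.m fun x =>
    κ.norm_int_le fun y _ => (LinearIsometry.norm_map _ _).le

theorem T_apply (κ : Ker) (δ : ℝ) (x : H) : D.T κ δ x = ∫ y, κ.k y • D.W (δ * y) x := rfl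

theorem norm_T_le (κ : Ker) (δ : ℝ) (x : H) : ‖D.T κ δ x‖ ≤ κ.m * ‖x‖ :=
  κ.norm_int_le fun _ _ => (LinearIsometry.norm_map _ _).le

theorem T_add (δ : ℝ) (x : H) : D.T kp δ x + D.T km δ x = D.T ks δ x := by
  rw [T_apply, T_apply, T_apply, ← integral_add (kp.integrable (D.continuous_Wd δ x))
    (km.integrable (D.continuous_Wd δ x))]
  simp only [← add_smul, kp_add_km]

variable [CompleteSpace H]

theorem map_T (A : H →L[ℂ] H) (κ : Ker) (δ : ℝ) (x : H) :
    A (D.T κ δ x) = ∫ y, κ.k y • A (D.W (δ * y) x) := by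
  rw [T_apply, ← A.integral_comp_comm (κ.integrable (D.continuous_Wd δ x))]
  simp only [map_smul]

theorem T_congr {A A' : H →L[ℂ] H} {δ : ℝ} (hδ : 0 ≤ δ) {x x' : H}
    (h : ∀ y : ℂ, ‖y‖ ≤ δ → A (D.W y x) = A' (D.W y x')) (κ : Ker) :
    A (D.T κ δ x) = A' (D.T κ δ x') := by
  rw [map_T, map_T]
  exact κ.int_congr fun y hy => h _ (hk_norm_mul hδ hy)

theorem E_W_T {δ r : ℝ} (hδ : 0 ≤ δ) {y : ℂ} (h : ‖y‖ + δ ≤ r) (κ : Ker) (x : H) :
    D.E r (D.W y (D.T κ δ x)) = D.E r (D.T κ δ (D.W y x)) :=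
  D.T_congr (A := (D.E r).comp (D.W y).toContinuousLinearMap) hδ (fun y' hy' => by
    simp only [ContinuousLinearMap.comp_apply, LinearIsometry.coe_toContinuousLinearMap]
    rw [D.loc _ _ _ _ (by linarith), D.loc _ _ _ _ (by linarith), add_comm]) κ

theorem E_T_T {δ r : ℝ} (hδ : 0 ≤ δ) (h : 2 * δ ≤ r) (κ κ' : Ker) (x : H) :
    D.E r (D.T κ δ (D.T κ' δ x)) = D.E r (D.T κ' δ (D.T κ δ x)) := by
  have h1 := D.map_T ((D.E r).comp (D.T κ' δ)) κ δ x
  simp only [ContinuousLinearMap.comp_apply] at h1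
  rw [h1, map_T]
  exact κ.int_congr fun y hy => D.E_W_T hδ (by linarith [hk_norm_mul hδ hy]) κ' x

theorem E_T_E {δ r r' : ℝ} (hδ : 0 ≤ δ) (h0 : 0 ≤ r) (h : r + δ ≤ r') (κ : Ker) (x : H) :
    D.E r' (D.T κ δ x) = D.E r' (D.T κ δ (D.E r x)) :=
  D.T_congr hδ (fun y hy => D.lip r r' y x h0 (by linarith)) κ

theorem E_T_E' {δ r r' : ℝ} (hδ : 0 ≤ δ) (h0 : 0 ≤ r) (h : r + δ ≤ r') (κ : Ker) (x : H) :
    D.E r (D.T κ δ (D.E r' x)) = D.T κ δ (D.E r' x) :=
  D.T_congr (A' := ContinuousLinearMap.id ℂ H) hδ (fun y hy => D.lip' h0 (by linarith) x) κ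

theorem norm_sub_E_T {δ r r' : ℝ} (hδ : 0 ≤ δ) (h0 : 0 ≤ r) (h : r + δ ≤ r') (κ : Ker) (x : H) :
    ‖D.T κ δ x - D.E r (D.T κ δ x)‖ ≤ κ.m * ‖x - D.E r' x‖ := by
  have : D.T κ δ x - D.E r (D.T κ δ x) =
      D.T κ δ (x - D.E r' x) - D.E r (D.T κ δ (x - D.E r' x)) := by
    simp only [map_sub, D.E_T_E' hδ h0 h]
    abel
  rw [this]
  exact (D.norm_sub_E_le _ _).trans (D.norm_T_le _ _ _)

theorem V_T {κ : Ker} {j : ℤ} (hκ : ∀ θ y, κ.k y = fourier j θ * κ.k (dir θ * y))
    (δ : ℝ) (θ : UnitAddCircle) (x : H) :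
    D.V θ (D.T κ δ x) = fourier j θ • D.T κ δ (D.V θ x) := by
  have h1 := D.map_T (D.V θ).toContinuousLinearMap κ δ x
  simp only [LinearIsometry.coe_toContinuousLinearMap, D.V_W] at h1
  rw [h1, T_apply, ← integral_smul, ← integral_comp (rotation (toCircle θ))
    fun y => fourier j θ • κ.k y • D.W (δ * y) (D.V θ x)]
  refine integral_congr_ae (Eventually.of_forall fun y => ?_)
  simp only [rotation_apply, smul_smul]
  rw [hκ θ y, dir, mul_left_comm]

theorem P_Tp (δ : ℝ) (n : ℤ) (x : H) : D.P (n + 1) (D.T kp δ x) = D.T kp δ (D.P n x) :=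
  D.P_comm (D.V_T (fun θ y => by
    have h : fourier 1 θ * conj (fourier 1 θ) = 1 := by
      rw [← fourier_neg, ← fourier_add, add_neg_cancel, fourier_zero]
    simp only [kp, cut_apply, hb_dir_eq, norm_mul, hb_norm_fourier, one_mul, map_mul]
    split_ifs
    · rw [← mul_assoc, h, one_mul]
    · simp) δ) n x

theorem P_Tm (δ : ℝ) (n : ℤ) (x : H) : D.P (n - 1) (D.T km δ x) = D.T km δ (D.P n x) :=
  D.P_comm (k := -1) (D.V_T (fun θ y => by
    simp only [km, cut_apply, hb_dir_eq, norm_mul, hb_norm_fourier, one_mul]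
    split_ifs
    · rw [← mul_assoc, ← fourier_add, neg_add_cancel, fourier_zero, one_mul]
    · simp) δ) n x

theorem Tp_adj (δ : ℝ) (x x' : H) :
    inner ℂ (D.T kp δ x) x' = -inner ℂ x (D.T km δ x') := by
  rw [← inner_conj_symm, T_apply, T_apply, ← integral_inner (kp.integrable (D.continuous_Wd δ x)),
    ← integral_inner (km.integrable (D.continuous_Wd δ x')), ← integral_conj, ← integral_neg,
    ← integral_neg_eq_self _ volume]
  refine integral_congr_ae (Eventually.of_forall fun y => ?_)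
  simp only [inner_smul_right, map_mul, inner_conj_symm, D.W_adj, conj_kp, km_neg, mul_neg,
    neg_neg, neg_mul]

theorem Tm_adj (δ : ℝ) (x x' : H) :
    inner ℂ (D.T km δ x) x' = -inner ℂ x (D.T kp δ x') := by
  rw [← inner_conj_symm, ← inner_conj_symm x, D.Tp_adj, map_neg, neg_neg]

theorem norm_Tp_eq {δ r : ℝ} (hδ : 0 ≤ δ) (h : 2 * δ ≤ r) (x : H) :
    ‖D.T kp δ (D.E r x)‖ = ‖D.T km δ (D.E r x)‖ := by
  have h1 : inner ℂ (D.T kp δ (D.E r x)) (D.T kp δ (D.E r x)) =
      inner ℂ (D.T km δ (D.E r x)) (D.T km δ (D.E r x)) := by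
    rw [Tp_adj, Tm_adj, D.E_adj, D.E_adj, D.E_T_T hδ h]
  rw [inner_self_eq_norm_sq_to_K, inner_self_eq_norm_sq_to_K] at h1
  exact (sq_eq_sq₀ (norm_nonneg _) (norm_nonneg _)).1 (by exact_mod_cast h1)

theorem norm_T_sub (κ : Ker) {δ ε : ℝ} (hδ : 0 ≤ δ) {x : H}
    (h : ∀ y : ℂ, ‖y‖ ≤ δ → ‖D.W y x - x‖ ≤ ε) : ‖D.T κ δ x - (∫ y, κ.k y) • x‖ ≤ κ.m * ε := by
  rw [T_apply, ← integral_smul_const, ← integral_sub (κ.integrable (D.continuous_Wd δ x))
    (κ.int.smul_const x)]
  simp only [← smul_sub]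
  exact κ.norm_int_le fun y hy => h _ (hk_norm_mul hδ hy)

theorem tendsto_T (κ : Ker) (x : H) :
    Tendsto (fun δ => D.T κ δ x) (𝓝[>] 0) (𝓝 ((∫ y, κ.k y) • x)) := by
  rw [Metric.tendsto_nhds]
  intro ε hε
  have hm := κ.m_nonneg
  filter_upwards [D.ev_small x (ε := ε / (κ.m + 1)) (by positivity), self_mem_nhdsWithin]
    with δ h1 h2
  rw [dist_eq_norm]
  refine (D.norm_T_sub κ (le_of_lt h2) h1).trans_lt ?_
  rw [← mul_div_assoc, div_lt_iff₀ (by positivity)]
  nlinarith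

theorem E_Ts {δ r : ℝ} (hδ : 0 ≤ δ) (h : 2 * δ ≤ r) (x : H) :
    D.E r (D.T ks δ x) = ∫ y, ks.k y •
      D.E r (D.W (δ * y.im * Complex.I) (D.W ((δ * y.re : ℝ) : ℂ) x - x)) := by
  have hc : Continuous fun y : ℂ => D.E r (D.W (δ * y.im * Complex.I) x) :=
    (D.E r).continuous.comp ((D.continuous_W x).comp (by fun_prop))
  have hc' : Continuous fun y : ℂ => D.E r (D.W (δ * y) x) :=
    (D.E r).continuous.comp (D.continuous_Wd δ x)
  rw [map_T, ← sub_zero (∫ y, ks.k y • D.E r (D.W (δ * y) x)),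
    ← ks_odd fun b => D.E r (D.W (δ * b * Complex.I) x),
    ← integral_sub (ks.integrable hc') (ks.integrable hc)]
  simp only [← smul_sub]
  refine ks.int_congr fun y hy => ?_
  have h1 : ‖(δ * y.im * Complex.I : ℂ)‖ ≤ δ := by
    rw [mul_assoc]
    exact hk_norm_mul hδ (by simpa using (Complex.abs_im_le_norm y).trans hy)
  have h2 : ‖((δ * y.re : ℝ) : ℂ)‖ ≤ δ := by
    push_cast
    exact hk_norm_mul hδ (by simpa using (Complex.abs_re_le_norm y).trans hy)
  have h3 : (δ * y : ℂ) = δ * y.im * Complex.I + ((δ * y.re : ℝ) : ℂ) := by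
    push_cast
    conv_lhs => rw [← Complex.re_add_im y]
    ring
  rw [map_sub, map_sub, D.loc _ _ _ _ (by linarith), ← h3]

theorem norm_E_Ts {δ r γ : ℝ} (hδ : 0 ≤ δ) (h : 2 * δ ≤ r) {x : H}
    (hγ : ∀ t : ℝ, |t| ≤ δ → ‖D.W t x - x‖ ≤ γ) : ‖D.E r (D.T ks δ x)‖ ≤ ks.m * γ := by
  rw [D.E_Ts hδ h]
  refine ks.norm_int_le fun y hy => (D.norm_E_le _ _).trans ?_
  rw [LinearIsometry.norm_map]
  refine hγ _ ?_
  rw [abs_mul, abs_of_nonneg hδ]
  exact mul_le_of_le_one_right hδ ((Complex.abs_re_le_norm y).trans hy)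

end HData

end Vale.Agent.P099
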