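import Vale.Agent.P099.HKer

/-! The basic energy estimate, no-cut projections and time integrals. -/

namespace Vale.Agent.P099

open MeasureTheory Filter Topology ComplexConjugate

variable {H : Type} [NormedAddCommGroup H] [InnerProductSpace ℂ H] [CompleteSpace H]

omit [CompleteSpace H] in
theorem hl_re_inner (p q : H) : (inner ℂ (p + q) (p - q)).re = ‖p‖ ^ 2 - ‖q‖ ^ 2 := by
  have h1 : (inner ℂ p p).re = ‖p‖ ^ 2 := inner_self_eq_norm_sq (𝕜 := ℂ) p
  have h2 : (inner ℂ q q).re = ‖q‖ ^ 2 := inner_self_eq_norm_sq (𝕜 := ℂ) q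
  have h3 : (inner ℂ p q).re = (inner ℂ q p).re := inner_re_symm (𝕜 := ℂ) p q
  simp only [inner_add_left, inner_sub_right, Complex.add_re, Complex.sub_re, h1, h2, h3]
  ring

namespace HData

variable (D : HData H)

theorem P_Tp' (δ : ℝ) (n : ℤ) (x : H) : D.P n (D.T kp δ x) = D.T kp δ (D.P (n - 1) x) := by
  rw [← P_Tp, sub_add_cancel]

theorem P_Tm' (δ : ℝ) (n : ℤ) (x : H) : D.P n (D.T km δ x) = D.T km δ (D.P (n + 1) x) := by
  rw [← P_Tm, add_sub_cancel_right]

theorem energy {δ : ℝ} (hδ : 0 ≤ δ) (x : H) (n : ℤ) {B : ℝ}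
    (hB : ∀ s : Finset ℤ, ‖inner ℂ (∑ k ∈ s, D.P k (D.T ks δ (D.E (2 * δ) x)))
      (D.T kp δ (D.E (2 * δ) x) - D.T km δ (D.E (2 * δ) x))‖ ≤ B) :
    ‖D.T kp δ (D.P n (D.E (2 * δ) x))‖ ^ 2 ≤ B := by
  set w := D.E (2 * δ) x with hw
  set a : ℤ → ℝ := fun k => ‖D.T kp δ (D.P k w)‖ ^ 2 with ha
  have h1 : ∀ k, (inner ℂ (D.P k (D.T ks δ w)) (D.T kp δ w - D.T km δ w)).re =
      a (k - 1) - a (k + 1) := fun k => by
    rw [← D.P_P, D.P_adj, ← D.T_add, map_add, map_sub, P_Tp', P_Tm', hl_re_inner, ha]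
    simp only [hw, D.P_E, D.norm_Tp_eq hδ le_rfl]
  have h2 : ∀ N : ℕ, a n + a (n + 1) - a (n + N) - a (n + 1 + N) ≤ B := fun N => by
    have h3 : ∑ j ∈ Finset.range N, (a (n + j) - a (n + 2 + j)) =
        a n + a (n + 1) - a (n + N) - a (n + 1 + N) := by
      induction N with
      | zero => simp
      | succ N ih =>
        rw [Finset.sum_range_succ, ih]
        push_cast
        rw [show n + (N + 1 : ℤ) = n + 1 + N by ring, show n + 1 + (N + 1 : ℤ) = n + 2 + N by ring]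
        ring
    have h4 := (Complex.re_le_norm _).trans
      (hB ((Finset.range N).map ⟨fun j : ℕ => n + 1 + j, fun a b h => by simpa using h⟩))
    rw [Finset.sum_map, sum_inner, Complex.re_sum] at h4
    simp only [Function.Embedding.coeFn_mk, h1] at h4
    rw [← h3]
    refine le_of_eq_of_le (Finset.sum_congr rfl fun j _ => ?_) h4
    change _ = a (n + 1 + j - 1) - a (n + 1 + j + 1)
    congr 2 <;> ring
  have h5 : ∀ m : ℤ, Tendsto (fun N : ℕ => a (m + N)) atTop (𝓝 0) := fun m => by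
    have := ((((D.T kp δ).continuous.tendsto 0).comp (D.tendsto_P m w)).norm).pow 2
    simpa using this
  have h6 := le_of_tendsto' (((tendsto_const_nhds (x := a n + a (n + 1))).sub (h5 n)).sub
    (h5 (n + 1))) h2
  have h7 : 0 ≤ a (n + 1) := sq_nonneg _
  change a n ≤ B
  linarith

/-- The basic estimate. -/
theorem lemA : ∃ K : ℝ, 0 ≤ K ∧ ∀ (δ : ℝ) (x : H) (C γ : ℝ), 0 < δ → 0 ≤ γ →
    (∀ r, 0 < r → ‖x - D.E r x‖ ≤ C * r) → (∀ t : ℝ, |t| ≤ δ → ‖D.W t x - x‖ ≤ γ) → ∀ n,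
      ‖D.T kp δ (D.P n x)‖ ^ 2 ≤ K * (C ^ 2 * δ ^ 2 + γ * ‖x‖) ∧
      ‖D.T km δ (D.P n x)‖ ^ 2 ≤ K * (C ^ 2 * δ ^ 2 + γ * ‖x‖) := by
  have m1 := kp.m_nonneg
  have m2 := km.m_nonneg
  have m3 := ks.m_nonneg
  set c := kp.m + km.m + ks.m with hc
  refine ⟨40 * c ^ 2, by positivity, fun δ x C γ hδ hγ0 tame hγ n => ?_⟩
  set w := D.E (2 * δ) x with hw
  have hC : 0 ≤ C := by simpa using (norm_nonneg _).trans (tame 1 one_pos)
  have t4 : ‖w - D.E (4 * δ) w‖ ≤ C * (4 * δ) := by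
    rw [hw, D.E_E' (by linarith), ← D.E_E (2 * δ) (4 * δ) x (by linarith), ← map_sub]
    exact (D.norm_E_le _ _).trans (tame _ (by positivity))
  have tT : ∀ κ : Ker, ‖D.T κ δ w - D.E (3 * δ) (D.T κ δ w)‖ ≤ κ.m * (C * (4 * δ)) := fun κ =>
    (D.norm_sub_E_T hδ.le (by positivity) (by linarith) κ w).trans
      (mul_le_mul_of_nonneg_left t4 κ.m_nonneg)
  have hwx : ‖w‖ ≤ ‖x‖ := D.norm_E_le _ _
  have key := D.energy hδ.le x n (B := c ^ 2 * (16 * (C ^ 2 * δ ^ 2) + γ * ‖x‖)) fun s => by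
    rw [← hw]
    set G := D.T ks δ w with hG
    set F := D.T kp δ w - D.T km δ w with hF
    have g1 : ‖D.E (3 * δ) G‖ ≤ c * γ := by
      rw [hG, hw, ← D.E_T_E hδ.le (by positivity) (by linarith)]
      exact (D.norm_E_Ts hδ.le (by linarith) hγ).trans (by gcongr; linarith)
    have g2 : ‖G - D.E (3 * δ) G‖ ≤ c * (C * (4 * δ)) := (tT ks).trans (by gcongr; linarith)
    have f1 : ‖F‖ ≤ c * ‖x‖ := by
      refine (norm_sub_le _ _).trans ?_
      nlinarith [D.norm_T_le kp δ w, D.norm_T_le km δ w, norm_nonneg w, norm_nonneg x]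
    have f2 : ‖F - D.E (3 * δ) F‖ ≤ c * (C * (4 * δ)) := by
      rw [hF, map_sub, sub_sub_sub_comm]
      refine (norm_sub_le_of_le (tT kp) (tT km)).trans ?_
      rw [← add_mul]
      gcongr
      linarith
    have e1 : inner ℂ (∑ k ∈ s, D.P k G) F = inner ℂ (∑ k ∈ s, D.P k (D.E (3 * δ) G)) F +
        inner ℂ (∑ k ∈ s, D.P k (G - D.E (3 * δ) G)) (F - D.E (3 * δ) F) := by
      have : inner ℂ (∑ k ∈ s, D.P k (G - D.E (3 * δ) G)) (D.E (3 * δ) F) = 0 := by
        rw [← D.E_adj, map_sum]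
        simp only [← D.P_E, map_sub, D.E_idem, sub_self, Finset.sum_const_zero, inner_zero_left]
      rw [inner_sub_right _ F, this, sub_zero, ← inner_add_left, ← Finset.sum_add_distrib]
      simp only [map_sub, add_sub_cancel]
    rw [e1]
    refine (norm_add_le_of_le (norm_inner_le_norm _ _) (norm_inner_le_norm _ _)).trans ?_
    have p1 := mul_le_mul ((D.norm_sum_P_le s _).trans g1) f1 (norm_nonneg _) (by positivity)
    have p2 := mul_le_mul ((D.norm_sum_P_le s _).trans g2) f2 (norm_nonneg _) (by positivity)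
    nlinarith
  rw [← hw] at key
  have fin : ∀ κ : Ker, κ.m ≤ c → ‖D.T κ δ (D.P n w)‖ = ‖D.T kp δ (D.P n w)‖ →
      ‖D.T κ δ (D.P n x)‖ ^ 2 ≤ 40 * c ^ 2 * (C ^ 2 * δ ^ 2 + γ * ‖x‖) := fun κ h1 h2 => by
    have e1 : D.T κ δ (D.P n x) = D.T κ δ (D.P n w) + D.T κ δ (D.P n (x - w)) := by
      simp only [map_sub, add_sub_cancel]
    have e2 : ‖D.T κ δ (D.P n (x - w))‖ ≤ c * (C * (2 * δ)) :=
      (D.norm_T_le _ _ _).trans (mul_le_mul h1 ((D.norm_P_le _ _).trans
        (tame _ (by positivity))) (norm_nonneg _) (by positivity))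
    have e3 := norm_add_le (D.T κ δ (D.P n w)) (D.T κ δ (D.P n (x - w)))
    rw [← e1, h2] at e3
    have e4 := pow_le_pow_left₀ (norm_nonneg _) e2 2
    have e5 := pow_le_pow_left₀ (norm_nonneg _) e3 2
    have e6 : 0 ≤ c ^ 2 * (γ * ‖x‖) := by positivity
    nlinarith [sq_nonneg (‖D.T kp δ (D.P n w)‖ - ‖D.T κ δ (D.P n (x - w))‖)]
  refine ⟨fin kp (by linarith) rfl, fin km (by linarith) ?_⟩
  rw [hw, D.P_E, D.norm_Tp_eq hδ.le le_rfl]

/-- the transported projections -/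
noncomputable def Et (t r : ℝ) : H →L[ℂ] H :=
  (D.W t).toContinuousLinearMap.comp ((D.E r).comp (D.W (-t)).toContinuousLinearMap)

omit [CompleteSpace H] in
theorem Et_apply (t r : ℝ) (x : H) : D.Et t r x = D.W t (D.E r (D.W (-t) x)) := rfl

omit [CompleteSpace H] in
theorem Et_adj (t r : ℝ) (x x' : H) : inner ℂ (D.Et t r x) x' = inner ℂ x (D.Et t r x') := by
  rw [Et_apply, Et_apply, D.W_adj, D.E_adj, D.W_adj, neg_neg]

omit [CompleteSpace H] in
theorem Et_idem (t r : ℝ) (x : H) : D.Et t r (D.Et t r x) = D.Et t r x := by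
  simp only [Et_apply, D.W_neg_W, D.E_idem]

omit [CompleteSpace H] in
theorem Et_comm (t r t' r' : ℝ) (x : H) : D.Et t r (D.Et t' r' x) = D.Et t' r' (D.Et t r x) := by
  have h1 : ∀ (a b : ℝ) (z : H), D.W (-(a : ℂ)) (D.W b z) = D.W ((b - a : ℝ) : ℂ) z := fun a b z => by
    rw [← Complex.ofReal_neg, ← D.U_add, neg_add_eq_sub]
  have h2 := D.comm r r' ((t' - t : ℝ) : ℂ) (D.W (-t) x)
  have h3 : D.W (-((t' - t : ℝ) : ℂ)) (D.W (-t) x) = D.W (-t') x := by
    rw [← Complex.ofReal_neg t, h1, ← Complex.ofReal_neg]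
    congr 3
    ring
  rw [h3] at h2
  simp only [Et_apply, h1, h2, ← D.U_add, add_sub_cancel]
  rw [← Complex.ofReal_neg, neg_sub]

omit [CompleteSpace H] in
theorem exists_N_aux (δ ρ : ℝ) (m : ℕ) : ∃ N : H →L[ℂ] H,
    (∀ x x', inner ℂ (N x) x' = inner ℂ x (N x')) ∧ (∀ x, N (N x) = N x) ∧
    (∀ t r x, D.Et t r (N x) = N (D.Et t r x)) ∧
    (∀ j : ℕ, j < m → ∀ x, N (D.Et (j * δ) ρ x) = N x) ∧
    ∀ x c, (∀ t : ℝ, ‖D.W t x - D.E ρ (D.W t x)‖ ≤ c) → ‖x - N x‖ ^ 2 ≤ m * c ^ 2 := by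
  induction m with
  | zero => exact ⟨ContinuousLinearMap.id ℂ H, by simp, by simp, by simp, by simp, by simp⟩
  | succ m ih =>
    obtain ⟨N, h1, h2, h3, h4, h5⟩ := ih
    refine ⟨N.comp (D.Et (m * δ) ρ), fun x x' => ?_, fun x => ?_, fun t r x => ?_,
      fun j hj x => ?_, fun x c hc => ?_⟩ <;> simp only [ContinuousLinearMap.comp_apply]
    · rw [h1, Et_adj, h3]
    · rw [h3, h2, Et_idem]
    · rw [h3, Et_comm]
    · rcases Nat.lt_succ_iff_lt_or_eq.1 hj with hj | rfl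
      · rw [Et_comm, h4 j hj]
      · rw [Et_idem]
    · have e1 := hb_proj h1 h2 x (x - D.Et (m * δ) ρ x)
      rw [map_sub, sub_add_sub_cancel, ← map_sub] at e1
      have e2 : ‖x - D.Et (m * δ) ρ x‖ ≤ c := by
        have := hc (-(m * δ))
        rw [← (D.W ((m * δ : ℝ) : ℂ)).norm_map, map_sub, Complex.ofReal_neg, D.W_W_neg] at this
        exact this
      have e3 := pow_le_pow_left₀ (norm_nonneg _) ((hb_proj_le h1 h2 _).1.trans e2) 2
      rw [e1]
      push_cast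
      linarith [h5 x c hc]

/-- the no-cut projection -/
theorem exists_N {δ T : ℝ} (hδ : 0 < δ) (hT : 0 ≤ T) : ∃ N : H →L[ℂ] H,
    (∀ x x', inner ℂ (N x) x' = inner ℂ x (N x')) ∧ (∀ x, N (N x) = N x) ∧
    (∀ t r x, D.Et t r (N x) = N (D.Et t r x)) ∧
    (∀ t : ℝ, 0 ≤ t → t ≤ T → ∀ x, N (D.W t x) = N (D.W t (D.E (2 * δ) x))) ∧
    (∀ t : ℝ, 0 ≤ t → t ≤ T → ∀ κ x, N (D.W t (D.T κ δ x)) = N (D.T κ δ (D.W t x))) ∧
    ∀ x C, (∀ r, 0 < r → ∀ t : ℝ, ‖D.W t x - D.E r (D.W t x)‖ ≤ C * r) →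
      ‖x - N x‖ ^ 2 ≤ 9 * C ^ 2 * (T * δ + δ ^ 2) := by
  obtain ⟨N, h1, h2, h3, h4, h5⟩ := D.exists_N_aux δ (3 * δ) (⌊T / δ⌋₊ + 1)
  have h6 : ∀ t : ℝ, 0 ≤ t → t ≤ T → ∀ x, N (D.W t x) = N (D.W t (D.E (2 * δ) x)) := by
    intro t t0 tT x
    set j := ⌊t / δ⌋₊ with hj
    have j1 : j < ⌊T / δ⌋₊ + 1 := Nat.lt_succ_of_le (Nat.floor_le_floor (by gcongr))
    have j2 : j * δ ≤ t := (le_div_iff₀ hδ).1 (Nat.floor_le (by positivity))
    have j3 : t < (j + 1) * δ := (div_lt_iff₀ hδ).1 (Nat.lt_floor_add_one _)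
    have e : ∀ z, N (D.W t z) =
        N (D.W ((j * δ : ℝ) : ℂ) (D.E (3 * δ) (D.W ((t - j * δ : ℝ) : ℂ) z))) := fun z => by
      rw [← h4 j j1, Et_apply, ← Complex.ofReal_neg, ← D.U_add, neg_add_eq_sub]
    rw [e, e, ← D.lip (2 * δ) (3 * δ) _ x (by positivity)]
    rw [Complex.norm_real, Real.norm_of_nonneg (by linarith)]
    linarith
  refine ⟨N, h1, h2, h3, h6, fun t t0 tT κ => ?_, fun x C hC => ?_⟩
  · have key : ∀ j : ℕ, ∀ t : ℝ, 0 ≤ t → t ≤ T → t ≤ j * δ → ∀ x,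
        N (D.W t (D.T κ δ x)) = N (D.T κ δ (D.W t x)) := by
      intro j
      induction j with
      | zero =>
        intro t t0 _ t1 x
        obtain rfl : t = 0 := le_antisymm (by simpa using t1) t0
        simp [D.W_zero]
      | succ j ih =>
        intro t t0 tT t1 x
        push_cast at t1
        have a0 : 0 ≤ max 0 (t - δ) := le_max_left _ _
        have a1 : max 0 (t - δ) ≤ t := max_le t0 (by linarith)
        have a2 : t - δ ≤ max 0 (t - δ) := le_max_right _ _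
        have a3 : max 0 (t - δ) ≤ j * δ := max_le (by positivity) (by linarith)
        set a := max 0 (t - δ)
        have e : ∀ z, D.W t z = D.W a (D.W ((t - a : ℝ) : ℂ) z) := fun z => by
          rw [← D.U_add, add_sub_cancel]
        rw [e, h6 a a0 (a1.trans tT), D.E_W_T hδ.le (by
          rw [Complex.norm_real, Real.norm_of_nonneg (by linarith)]
          linarith), ← h6 a a0 (a1.trans tT), ih a a0 (a1.trans tT) a3, ← e]
    exact key ⌈t / δ⌉₊ t t0 tT ((div_le_iff₀ hδ).1 (Nat.le_ceil _))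
  · refine (h5 x (C * (3 * δ)) (hC _ (by positivity))).trans ?_
    have : (⌊T / δ⌋₊ : ℝ) * δ ≤ T := (le_div_iff₀ hδ).1 (Nat.floor_le (by positivity))
    push_cast
    nlinarith [mul_le_mul_of_nonneg_left this (by positivity : 0 ≤ C ^ 2 * δ)]

omit [CompleteSpace H] in
theorem intInt {G : Type} [NormedAddCommGroup G] [NormedSpace ℂ G] (A : H →L[ℂ] G) (x : H)
    (a b : ℝ) : IntervalIntegrable (fun r : ℝ => A (D.W r x)) volume a b :=
  (A.continuous.comp (D.continuous_U x)).intervalIntegrable a b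

/-- the time integral of the flow -/
noncomputable def J (t : ℝ) : H →L[ℂ] H :=
  LinearMap.mkContinuous
    { toFun := fun x => ∫ r in (0 : ℝ)..t, D.W r x
      map_add' := fun x x' => by
        simp only [map_add]
        exact intervalIntegral.integral_add ((D.continuous_U x).intervalIntegrable _ _)
          ((D.continuous_U x').intervalIntegrable _ _)
      map_smul' := fun c x => by
        simp only [map_smul, RingHom.id_apply]
        exact intervalIntegral.integral_smul _ _ } |t| fun x => by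
    have := intervalIntegral.norm_integral_le_of_norm_le_const (a := 0) (b := t) (C := ‖x‖)
      (f := fun r : ℝ => D.W r x) fun r _ => (LinearIsometry.norm_map _ _).le
    simpa [mul_comm] using this

omit [CompleteSpace H] in
theorem J_apply (t : ℝ) (x : H) : D.J t x = ∫ r in (0 : ℝ)..t, D.W r x := rfl

omit [CompleteSpace H] in
theorem norm_J_le (t : ℝ) (x : H) : ‖D.J t x‖ ≤ |t| * ‖x‖ := by
  have := intervalIntegral.norm_integral_le_of_norm_le_const (a := 0) (b := t) (C := ‖x‖)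
    (f := fun r : ℝ => D.W r x) fun r _ => (LinearIsometry.norm_map _ _).le
  rw [J_apply]
  simpa [mul_comm] using this

theorem map_J {G : Type} [NormedAddCommGroup G] [NormedSpace ℂ G] [CompleteSpace G]
    (A : H →L[ℂ] G) (t : ℝ) (x : H) : A (D.J t x) = ∫ r in (0 : ℝ)..t, A (D.W r x) :=
  (A.intervalIntegral_comp_comm ((D.continuous_U x).intervalIntegrable _ _)).symm

theorem J_congr {A A' : H →L[ℂ] H} {t : ℝ} (ht : 0 ≤ t) {x x' : H}
    (h : ∀ r : ℝ, 0 ≤ r → r ≤ t → A (D.W r x) = A' (D.W r x')) :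
    A (D.J t x) = A' (D.J t x') := by
  rw [map_J, map_J]
  refine intervalIntegral.integral_congr fun r hr => ?_
  rw [Set.uIcc_of_le ht] at hr
  exact h r hr.1 hr.2

theorem J_adj (t : ℝ) (x x' : H) : inner ℂ x (D.J t x') = -inner ℂ (D.J (-t) x) x' := by
  have h1 := D.map_J (innerSL ℂ x) t x'
  have h2 := D.map_J (innerSL ℂ x') (-t) x
  simp only [innerSL_apply_apply] at h1 h2
  have h3 := (Complex.conjCLE : ℂ →L[ℝ] ℂ).intervalIntegral_comp_comm
    (D.intInt (innerSL ℂ x') x 0 (-t))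
  simp only [innerSL_apply_apply, ContinuousLinearEquiv.coe_coe, Complex.conjCLE_apply] at h3
  rw [← inner_conj_symm (D.J (-t) x), h1, h2, ← h3, ← intervalIntegral.integral_symm]
  have := intervalIntegral.integral_comp_neg (a := 0) (b := t)
    fun r : ℝ => conj (inner ℂ x' (D.W r x))
  rw [neg_zero] at this
  rw [← this]
  refine intervalIntegral.integral_congr fun r _ => ?_
  simp only [inner_conj_symm, D.W_adj, Complex.ofReal_neg, neg_neg]

theorem W_J_sub (a t : ℝ) (x : H) : D.W a (D.J t x) - D.J t x = D.J a (D.W t x - x) := by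
  have h1 := D.map_J (D.W a).toContinuousLinearMap t x
  simp only [LinearIsometry.coe_toContinuousLinearMap, ← D.U_add] at h1
  have hi : ∀ a b : ℝ, IntervalIntegrable (fun r : ℝ => D.W r x) volume a b := fun a b =>
    (D.continuous_U x).intervalIntegrable _ _
  rw [h1, intervalIntegral.integral_comp_add_left (fun r : ℝ => D.W r x) a, map_sub, J_apply,
    J_apply, J_apply]
  simp only [← D.U_add]
  rw [intervalIntegral.integral_comp_add_right (fun r : ℝ => D.W r x) t,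
    intervalIntegral.integral_interval_sub_interval_comm' (hi _ _) (hi _ _) (hi _ _), add_zero,
    zero_add]

theorem norm_J_sub {a ε : ℝ} {x : H} (h : ∀ r : ℝ, |r| ≤ |a| → ‖D.W r x - x‖ ≤ ε) :
    ‖D.J a x - (a : ℂ) • x‖ ≤ |a| * ε := by
  have h1 : (a : ℂ) • x = ∫ _ in (0 : ℝ)..a, x := by simp
  rw [h1, J_apply, ← intervalIntegral.integral_sub ((D.continuous_U x).intervalIntegrable _ _)
    intervalIntegrable_const]
  have := intervalIntegral.norm_integral_le_of_norm_le_const (a := 0) (b := a) (C := ε)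
    (f := fun r : ℝ => D.W r x - x) fun r hr => h r (by
      simpa using Set.abs_sub_left_of_mem_uIcc (Set.uIoc_subset_uIcc hr))
  simpa [mul_comm] using this

end HData

end Vale.Agent.P099
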