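import Vale.Agent.P099.HStep

/-! The Hilbert space theorem. -/

namespace Vale.Agent.P099

open MeasureTheory Filter Topology ComplexConjugate

variable {H : Type} [NormedAddCommGroup H] [InnerProductSpace ℂ H] [CompleteSpace H]

namespace HData

variable (D : HData H)

theorem norm_avg {A : H →L[ℂ] H} {T b : ℝ} (hT : 0 < T) {x : H}
    (h : ∀ r : ℝ, ‖A (D.W r x)‖ ≤ b) : ‖A ((-(T : ℂ)⁻¹) • D.J (-T) x)‖ ≤ b := by
  have h1 := intervalIntegral.norm_integral_le_of_norm_le_const (a := 0) (b := -T) (C := b)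
    (f := fun r : ℝ => A (D.W r x)) fun r _ => h r
  rw [map_smul, map_J, norm_smul, norm_neg, norm_inv, Complex.norm_of_nonneg hT.le,
    inv_mul_le_iff₀ hT]
  rwa [sub_zero, abs_neg, abs_of_pos hT, mul_comm] at h1

theorem theta {f v q₀ : H} (hf : ∀ t : ℝ, D.W t f = f) {C : ℝ}
    (tame : ∀ r, 0 < r → ‖f - D.E r f‖ ≤ C * r)
    (hv : ∀ t : ℝ, 0 ≤ t → c0 • (D.W t v - v) = D.J t q₀) {s c : ℝ} (hs : 0 < s)
    (hc : s ^ 2 ≤ c) :
    ∃ Θ : H, ‖Θ‖ ^ 2 ≤ 18 * C ^ 2 * c ∧ (∀ r, 0 < r → ‖Θ - D.E r Θ‖ ≤ C * r) ∧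
      (∃ γ, 0 ≤ γ ∧ γ * ‖Θ‖ ≤ 36 * (C ^ 2 * s ^ 2) ∧ ∀ t : ℝ, |t| ≤ s → ‖D.W t Θ - Θ‖ ≤ γ) ∧
      ‖inner ℂ (f - Θ) (D.T kp s q₀)‖ ≤ s * (c⁻¹ * (‖c0‖ * (‖f‖ * (2 * ‖D.T kp s v‖)))) := by
  have hc0 : 0 < c := lt_of_lt_of_le (by positivity) hc
  set T := c / s with hT
  have T0 : 0 < T := by positivity
  have T0' : (T : ℂ) ≠ 0 := by exact_mod_cast T0.ne'
  obtain ⟨N, n1, n2, n3, -, n5, n6⟩ := D.exists_N hs T0.le
  set g := f - N f with hg
  have g1 : ‖g‖ ^ 2 ≤ 18 * C ^ 2 * c := by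
    have := n6 f C fun r hr t => by rw [hf]; exact tame r hr
    rw [hT, div_mul_cancel₀ _ hs.ne'] at this
    nlinarith [sq_nonneg C]
  have g2 : ‖(-(T : ℂ)⁻¹) • D.J (-T) g‖ ≤ ‖g‖ :=
    D.norm_avg (A := ContinuousLinearMap.id ℂ H) T0 fun r => (LinearIsometry.norm_map _ _).le
  refine ⟨(-(T : ℂ)⁻¹) • D.J (-T) g, (pow_le_pow_left₀ (norm_nonneg _) g2 2).trans g1,
    fun r hr => ?_, ⟨T⁻¹ * (s * (2 * ‖g‖)), by positivity, ?_, fun t ht => ?_⟩, ?_⟩
  · refine D.norm_avg (A := ContinuousLinearMap.id ℂ H - D.E r) T0 fun t => ?_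
    have e1 : D.Et (-t) r f = D.W (-t : ℝ) (D.E r f) := by
      rw [Et_apply, ← Complex.ofReal_neg, hf]
    have e2 : g - D.Et (-t) r g = (f - D.Et (-t) r f) - N (f - D.Et (-t) r f) := by
      rw [hg, map_sub, map_sub, n3]
      abel
    have e3 : ‖f - D.Et (-t) r f‖ ≤ C * r := by
      rw [e1]
      nth_rw 1 [← hf (-t)]
      rw [← map_sub, LinearIsometry.norm_map]
      exact tame r hr
    have e4 := (hb_proj_le n1 n2 (f - D.Et (-t) r f)).2.trans e3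
    rw [← e2, ← (D.W t).norm_map, map_sub, Et_apply, Complex.ofReal_neg, W_W_neg, neg_neg] at e4
    exact e4
  · refine (mul_le_mul_of_nonneg_left g2 (by positivity)).trans ?_
    have : T⁻¹ * (s * (2 * ‖g‖)) * ‖g‖ = 2 * s ^ 2 * ‖g‖ ^ 2 / c := by
      rw [hT]
      field_simp
    rw [this, div_le_iff₀ hc0]
    nlinarith [sq_nonneg s]
  · rw [map_smul, ← smul_sub, W_J_sub, norm_smul, norm_neg, norm_inv, Complex.norm_of_nonneg T0.le]
    gcongr
    refine (D.norm_J_le _ _).trans ?_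
    gcongr
    refine (norm_sub_le _ _).trans (le_of_eq ?_)
    rw [LinearIsometry.norm_map, two_mul]
  · have e1 : D.J (-T) f = ((-T : ℝ) : ℂ) • f := by
      have := D.norm_J_sub (a := -T) (x := f) (ε := 0) fun r _ => by simp [hf]
      rwa [mul_zero, norm_le_zero_iff, sub_eq_zero] at this
    have e2 : f - (-(T : ℂ)⁻¹) • D.J (-T) g = (-(T : ℂ)⁻¹) • D.J (-T) (N f) := by
      rw [hg, map_sub, e1, smul_sub, smul_smul, Complex.ofReal_neg, neg_mul_neg,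
        inv_mul_cancel₀ T0', one_smul, sub_sub_cancel]
    have e3 : N (D.J T (D.T kp s q₀)) = c0 • (N (D.W T (D.T kp s v)) - N (D.T kp s v)) := by
      have := D.J_congr (A := N) (A' := N.comp (D.T kp s)) T0.le (x := D.T kp s q₀) (x' := q₀)
        fun r h1 h2 => n5 r h1 h2 kp q₀
      rw [this, ← hv T T0.le, n5 T T0.le le_rfl, map_smul, map_sub]
      rfl
    have e4 : ‖N (D.W T (D.T kp s v)) - N (D.T kp s v)‖ ≤ 2 * ‖D.T kp s v‖ := by
      have h1 := (hb_proj_le n1 n2 (D.W T (D.T kp s v))).1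
      have h2 := (hb_proj_le n1 n2 (D.T kp s v)).1
      rw [LinearIsometry.norm_map] at h1
      linarith [norm_sub_le (N (D.W T (D.T kp s v))) (N (D.T kp s v))]
    have e5 := D.J_adj T (N f) (D.T kp s q₀)
    rw [n1, e3, inner_smul_right] at e5
    rw [e2, inner_smul_left, norm_mul, ← norm_neg (inner _ _ _), ← e5, RCLike.norm_conj, norm_neg,
      norm_inv, Complex.norm_of_nonneg T0.le, norm_mul, hT, inv_div, div_eq_mul_inv, mul_assoc]
    gcongr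
    exact (norm_inner_le_norm _ _).trans (by gcongr)

theorem small_pair {f v q₀ : H} (hf : ∀ t : ℝ, D.W t f = f) {C : ℝ}
    (tame : ∀ r, 0 < r → ‖f - D.E r f‖ ≤ C * r)
    (hv : ∀ t : ℝ, 0 ≤ t → c0 • (D.W t v - v) = D.J t q₀) {n : ℤ}
    (hq : D.P (n - 1) q₀ + D.P n q₀ = q₀) {ε : ℝ} (hε : 0 < ε) :
    ∀ᶠ s in 𝓝[>] (0 : ℝ), ‖inner ℂ f (D.T kp s q₀)‖ ≤ s * (5 * ε) := by
  obtain ⟨K, K0, hK⟩ := D.lemA
  have m0 := kp.m_nonneg
  set a := 37 * K * C ^ 2 + 1 with ha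
  have a0 : 0 < a := by positivity
  obtain ⟨x₁, L, δ₀, L0, δ0, h1, h2⟩ := D.exists_lip q₀ (ε := ε / a) (by positivity)
  set b := kp.m * L + 1 with hb
  have b0 : 0 < b := by positivity
  set c := (ε / b) ^ 2 / (18 * C ^ 2 + 1) with hc
  have c0' : 0 < c := by positivity
  have h3 := (((D.tendsto_T kp v).norm.const_mul 2).const_mul ‖f‖).const_mul ‖c0‖ |>.const_mul c⁻¹
  rw [integral_odd kp_neg, zero_smul, norm_zero, mul_zero, mul_zero, mul_zero, mul_zero] at h3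
  have h4 : Tendsto (fun s : ℝ => s ^ 2) (𝓝[>] 0) (𝓝 0) := by
    simpa using ((continuous_pow 2).tendsto (0 : ℝ)).mono_left nhdsWithin_le_nhds
  filter_upwards [h3.eventually (ge_mem_nhds hε), h4.eventually (ge_mem_nhds c0'),
    Ioc_mem_nhdsGT δ0] with s s1 s2 s3
  have s0 := s3.1
  obtain ⟨Θ, t1, t2, ⟨γ, γ0, t3, t4⟩, t5⟩ := D.theta hf tame hv s0 s2
  have t6 : ‖Θ‖ ≤ ε / b := by
    refine le_of_sq_le_sq (t1.trans ?_) (by positivity)
    rw [hc, ← mul_div_assoc, div_le_iff₀ (by positivity)]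
    nlinarith [sq_nonneg (ε / b)]
  have t7 : ∀ j, ‖inner ℂ Θ (D.T kp s (D.P j q₀))‖ ≤ s * (2 * ε) := fun j => by
    have u1 : ‖D.T km s (D.P (j + 1) Θ)‖ ≤ a * s := by
      refine le_of_sq_le_sq ((hK s Θ C γ s0 γ0 t2 t4 (j + 1)).2.trans ?_) (by positivity)
      have : 0 ≤ K * C ^ 2 := by positivity
      have h5 : 37 * K * C ^ 2 ≤ a ^ 2 := by nlinarith
      nlinarith [mul_le_mul_of_nonneg_left t3 K0, mul_le_mul_of_nonneg_right h5 (sq_nonneg s)]
    have u2 : ‖inner ℂ Θ (D.T kp s (D.P j (q₀ - x₁)))‖ ≤ s * ε := by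
      rw [← P_Tp, ← P_adj, ← norm_neg, ← Tm_adj]
      refine (norm_inner_le_norm _ _).trans ((mul_le_mul u1 h1 (norm_nonneg _)
        (by positivity)).trans (le_of_eq ?_))
      field_simp
    have u3 : ‖inner ℂ Θ (D.T kp s (D.P j x₁))‖ ≤ s * ε := by
      have := D.norm_T_lip (integral_odd kp_neg) L0 (fun y hy => D.lip_P h2 j hy) s0.le s3.2
      refine (norm_inner_le_norm _ _).trans ((mul_le_mul t6 this (norm_nonneg _)
        (by positivity)).trans ?_)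
      rw [div_mul_eq_mul_div, div_le_iff₀ b0, hb]
      nlinarith [mul_pos s0 hε]
    rw [← sub_add_cancel q₀ x₁, map_add, map_add, inner_add_right]
    linarith [norm_add_le (inner ℂ Θ (D.T kp s (D.P j (q₀ - x₁)))) (inner ℂ Θ (D.T kp s (D.P j x₁)))]
  have t8 : ‖inner ℂ Θ (D.T kp s q₀)‖ ≤ s * (4 * ε) := by
    rw [← hq, map_add, inner_add_right]
    linarith [norm_add_le (inner ℂ Θ (D.T kp s (D.P (n - 1) q₀))) (inner ℂ Θ (D.T kp s (D.P n q₀))),
      t7 (n - 1), t7 n]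
  rw [← sub_add_cancel f Θ, inner_add_left]
  linarith [norm_add_le (inner ℂ (f - Θ) (D.T kp s q₀)) (inner ℂ Θ (D.T kp s q₀)),
    mul_le_mul_of_nonneg_left s1 s0.le]

theorem summable_tail (n : ℤ) (x : H) : Summable fun k : ℕ => D.P (n + k) x :=
  (D.summable_P x).comp_injective (i := fun N : ℕ => n + N) fun a b h => by simpa using h

theorem tail_eq {f : H} (hf : ∀ t : ℝ, D.W t f = f) (n : ℤ) {δ : ℝ} (hδ : 0 < δ) :
    D.E (2 * δ) (D.T ks δ (∑' k : ℕ, D.P (n + k) f)) =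
      D.E (2 * δ) (D.T km δ (D.P n f + D.P (n + 1) f)) := by
  have h1 : D.E (2 * δ) (D.T ks δ f) = 0 := by
    have := D.norm_E_Ts (γ := 0) (x := f) hδ.le le_rfl fun t _ => by simp [hf]
    rwa [mul_zero, norm_le_zero_iff] at this
  have h2 : ∀ k : ℤ, D.E (2 * δ) (D.T kp δ (D.P k f)) =
      -D.E (2 * δ) (D.T km δ (D.P (k + 2) f)) := fun k => by
    have := congrArg (D.P (k + 1)) h1
    rw [P_E, map_zero, ← T_add, map_add, map_add, P_Tp, P_Tm', add_assoc, one_add_one_eq_two]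
      at this
    exact eq_neg_of_add_eq_zero_left this
  set A := (D.E (2 * δ)).comp (D.T km δ) with hA
  have h3 : HasSum (fun k : ℕ => A (D.P (n + k) f) - A (D.P (n + (k + 2 : ℕ)) f))
      (D.E (2 * δ) (D.T ks δ (∑' k : ℕ, D.P (n + k) f))) := by
    have := ((D.E (2 * δ)).comp (D.T ks δ)).hasSum (D.summable_tail n f).hasSum
    refine this.congr_fun fun k => ?_
    simp only [hA, ContinuousLinearMap.comp_apply, ← T_add, map_add, h2, Nat.cast_add,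
      Nat.cast_ofNat, add_assoc]
    abel
  have h4 := A.hasSum (D.summable_tail n f).hasSum
  have h5 := (hasSum_nat_add_iff' 2).2 h4
  have h6 := h3.unique (h4.sub h5)
  rw [h6]
  simp [Finset.sum_range_succ, hA]

theorem tail_inv {f : H} (hf : ∀ t : ℝ, D.W t f = f) {C : ℝ}
    (tame : ∀ r, 0 < r → ‖f - D.E r f‖ ≤ C * r) (n : ℤ) {t : ℝ} (ht : 0 ≤ t) :
    D.W t (∑' k : ℕ, D.P (n + k) f) = ∑' k : ℕ, D.P (n + k) f := by
  obtain ⟨K, K0, hK⟩ := D.lemA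
  set q : ℝ → H := fun δ => (δ : ℂ)⁻¹ • D.T km δ (D.P n f + D.P (n + 1) f) with hq
  set 𝒰 := Ultrafilter.of (𝓝[>] (0 : ℝ)) with h𝒰
  have hl : (𝒰 : Filter ℝ) ≤ 𝓝[>] 0 := Ultrafilter.of_le _
  have hB : ∀ᶠ δ in (𝒰 : Filter ℝ), ‖q δ‖ ≤ 2 * (K * C ^ 2 + 1) := by
    filter_upwards [hl self_mem_nhdsWithin] with δ hδ
    have hδ : 0 < δ := hδ
    have h1 : ∀ j, ‖D.T km δ (D.P j f)‖ ≤ δ * (K * C ^ 2 + 1) := fun j => by
      refine le_of_sq_le_sq ((hK δ f C 0 hδ le_rfl tame (fun t _ => by simp [hf]) j).2.trans ?_)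
        (by positivity)
      have : 0 ≤ K * C ^ 2 := by positivity
      have h5 : K * C ^ 2 ≤ (K * C ^ 2 + 1) ^ 2 := by nlinarith
      nlinarith [mul_le_mul_of_nonneg_right h5 (sq_nonneg δ)]
    rw [hq]
    beta_reduce
    rw [norm_smul, norm_inv, Complex.norm_of_nonneg hδ.le, inv_mul_le_iff₀ hδ, map_add]
    linarith [norm_add_le (D.T km δ (D.P n f)) (D.T km δ (D.P (n + 1) f)), h1 n, h1 (n + 1)]
  obtain ⟨q₀, hq₀⟩ := exists_weak_limit 𝒰 hB
  have hv := fun (t : ℝ) (ht : 0 ≤ t) => D.cohom hl hB hq₀ (v := ∑' k : ℕ, D.P (n + k) f)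
    (fun δ hδ => by
      rw [D.tail_eq hf n hδ, hq, smul_smul, mul_inv_cancel₀ (by exact_mod_cast hδ.ne'), one_smul])
    ht
  have e1 : ∀ δ x, inner ℂ (q δ) x =
      conj (δ : ℂ)⁻¹ * inner ℂ (D.T km δ f) (D.P (n - 1) x + D.P n x) := fun δ x => by
    rw [hq]
    beta_reduce
    rw [inner_smul_left, map_add, ← P_Tm, ← P_Tm', inner_add_left, inner_add_right, P_adj, P_adj]
  have e2 : D.P (n - 1) q₀ + D.P n q₀ = q₀ := ext_inner_right ℂ fun x => by
    rw [inner_add_left, P_adj, P_adj, ← inner_add_right]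
    refine tendsto_nhds_unique (hq₀ _) ((hq₀ x).congr fun δ => ?_)
    rw [e1, e1, map_add, map_add, P_P, P_P, D.P_P_ne (by omega), D.P_P_ne (by omega), add_zero,
      zero_add]
  have e3 : q₀ = 0 := by
    refine (inner_self_eq_zero (𝕜 := ℂ)).1 (tendsto_nhds_unique (hq₀ q₀) ?_)
    refine Tendsto.mono_left ?_ hl
    rw [Metric.tendsto_nhds]
    intro ε hε
    filter_upwards [D.small_pair hf tame hv e2 (ε := ε / 6) (by positivity), self_mem_nhdsWithin]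
      with s s1 s2
    have s2 : 0 < s := s2
    rw [dist_zero_right, e1, e2, Tm_adj, norm_mul, norm_neg, RCLike.norm_conj, norm_inv,
      Complex.norm_of_nonneg s2.le, inv_mul_lt_iff₀ s2]
    nlinarith
  have := hv t ht
  rwa [e3, map_zero, smul_eq_zero, or_iff_right c0_ne_zero, sub_eq_zero] at this

theorem inv_all {f : H} (hf : ∀ t : ℝ, D.W t f = f) {C : ℝ}
    (tame : ∀ r, 0 < r → ‖f - D.E r f‖ ≤ C * r) (y : ℂ) : D.W y f = f := by
  have h1 : ∀ (n : ℤ) (t : ℝ), 0 ≤ t → D.W t (D.P n f) = D.P n f := fun n t ht => by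
    have e1 := (D.summable_tail n f).tsum_eq_zero_add
    have e2 := D.tail_inv hf tame n ht
    have e3 := D.tail_inv hf tame (n + 1) ht
    simp only [Nat.cast_zero, add_zero, Nat.cast_add, Nat.cast_one, add_comm _ (1 : ℤ),
      ← add_assoc] at e1 e3
    rwa [e1, map_add, e3, add_left_inj] at e2
  have h2 : ∀ (n : ℤ) (y : ℂ), D.W y (D.P n f) = D.P n f := fun n y => by
    rw [← Complex.norm_mul_exp_arg_mul_I y, mul_comm, ← hb_dir_coe, W_polar, V_P, map_smul,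
      h1 n _ (norm_nonneg _), ← V_P, V_V_neg]
  refine ext_inner_left ℂ fun x => ?_
  have h3 := D.inner_eq_zero_of_modes (x := f) (x' := D.W (-y) x - x) fun n => by
    rw [inner_sub_left, W_adj, neg_neg, h2, sub_self]
  rwa [inner_sub_left, W_adj, neg_neg, sub_eq_zero] at h3

end HData

end Vale.Agent.P099
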