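import Vale.Agent.P099.HLem

/-! Weak limits, Lipschitz vectors and the cohomological equation. -/

namespace Vale.Agent.P099

open MeasureTheory Filter Topology ComplexConjugate Metric

variable {H : Type} [NormedAddCommGroup H] [InnerProductSpace ℂ H] [CompleteSpace H]

theorem exists_weak_limit (𝒰 : Ultrafilter ℝ) {q : ℝ → H} {B : ℝ}
    (hB : ∀ᶠ δ in (𝒰 : Filter ℝ), ‖q δ‖ ≤ B) :
    ∃ q₀ : H, ∀ x, Tendsto (fun δ => inner ℂ (q δ) x) 𝒰 (𝓝 (inner ℂ q₀ x)) := by
  have h1 : ∀ x : H, ∃ c : ℂ, ‖c‖ ≤ B * ‖x‖ ∧ Tendsto (fun δ => inner ℂ (q δ) x) 𝒰 (𝓝 c) := by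
    intro x
    obtain ⟨c, hc, h⟩ := (isCompact_closedBall (0 : ℂ) (B * ‖x‖)).ultrafilter_le_nhds
      (𝒰.map fun δ => inner ℂ (q δ) x) (by
        rw [Ultrafilter.coe_map, le_principal_iff, mem_map]
        filter_upwards [hB] with δ hδ
        exact mem_closedBall_zero_iff.2 ((norm_inner_le_norm _ _).trans (by gcongr)))
    exact ⟨c, mem_closedBall_zero_iff.1 hc, h⟩
  choose L hL1 hL2 using h1
  let L' : H →L[ℂ] ℂ := LinearMap.mkContinuous
    { toFun := L
      map_add' := fun x x' => tendsto_nhds_unique (hL2 (x + x')) (by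
        simpa only [inner_add_right] using (hL2 x).add (hL2 x'))
      map_smul' := fun c x => tendsto_nhds_unique (hL2 (c • x)) (by
        simpa only [inner_smul_right, RingHom.id_apply, smul_eq_mul] using (hL2 x).const_mul c) } B hL1
  refine ⟨(InnerProductSpace.toDual ℂ H).symm L', fun x => ?_⟩
  rw [InnerProductSpace.toDual_symm_apply]
  exact hL2 x

omit [CompleteSpace H] in
theorem tendsto_inner_weak {l : Filter ℝ} {q z : ℝ → H} {q₀ z₀ : H} {B : ℝ}
    (hB : ∀ᶠ δ in l, ‖q δ‖ ≤ B) (hq : Tendsto (fun δ => inner ℂ (q δ) z₀) l (𝓝 (inner ℂ q₀ z₀)))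
    (hz : Tendsto z l (𝓝 z₀)) : Tendsto (fun δ => inner ℂ (q δ) (z δ)) l (𝓝 (inner ℂ q₀ z₀)) := by
  have h1 : Tendsto (fun δ => inner ℂ (q δ) (z δ - z₀)) l (𝓝 0) := by
    have h2 := (tendsto_iff_norm_sub_tendsto_zero.1 hz).const_mul B
    rw [mul_zero] at h2
    refine squeeze_zero_norm' ?_ h2
    filter_upwards [hB] with δ hδ using (norm_inner_le_norm _ _).trans (by gcongr)
  simpa only [inner_sub_right, sub_add_cancel, zero_add] using h1.add hq

/-- a Lipschitz bump -/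
noncomputable def bump (y : ℂ) : ℂ := ((max (1 - ‖y‖) 0 : ℝ) : ℂ)

theorem bump_eq_zero {y : ℂ} (hy : 1 ≤ ‖y‖) : bump y = 0 := by
  rw [bump, max_eq_right (by linarith), Complex.ofReal_zero]

theorem continuous_bump : Continuous bump := by
  unfold bump
  fun_prop

theorem norm_bump_sub (y y' : ℂ) : ‖bump y - bump y'‖ ≤ ‖y - y'‖ := by
  rw [bump, bump, ← Complex.ofReal_sub, Complex.norm_real, Real.norm_eq_abs]
  refine (abs_max_sub_max_le_abs _ _ _).trans ?_
  rw [sub_sub_sub_cancel_left, abs_sub_comm]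
  exact abs_norm_sub_norm_le _ _

/-- the bump as a kernel -/
noncomputable def kb : Ker where
  k := bump
  int := continuous_bump.integrable_of_hasCompactSupport
    (HasCompactSupport.intro (isCompact_closedBall 0 1) fun y hy =>
      bump_eq_zero (le_of_lt (by simpa using hy)))
  supp := fun y hy => by
    by_contra h
    exact hy (bump_eq_zero (le_of_lt (not_le.1 h)))

theorem integral_kb_ne : ∫ y, kb.k y ≠ 0 := by
  change ∫ y, ((max (1 - ‖y‖) 0 : ℝ) : ℂ) ≠ 0
  rw [integral_complex_ofReal, Complex.ofReal_ne_zero]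
  have hc : Continuous fun y : ℂ => max (1 - ‖y‖) 0 := by fun_prop
  refine ne_of_gt (hc.integral_pos_of_hasCompactSupport_nonneg_nonzero (x := 0)
    (HasCompactSupport.intro (isCompact_closedBall 0 1) fun y hy => ?_)
    (fun y => le_max_right _ _) (by simp))
  exact max_eq_right (by simpa using le_of_lt (by simpa using hy))

namespace HData

variable (D : HData H)

theorem lip_bump {δ r : ℝ} (hδ : 0 < δ) (h : 3 * δ ≤ r) (w : H) {y : ℂ} (hy : ‖y‖ ≤ δ) :
    ‖D.W y (D.T kb δ (D.E r w)) - D.T kb δ (D.E r w)‖ ≤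
      (volume.real (closedBall (0 : ℂ) 2) * ‖w‖ / δ) * ‖y‖ := by
  have hδ' : (δ : ℂ) ≠ 0 := by exact_mod_cast hδ.ne'
  have hy' : ‖y / δ‖ ≤ 1 := by
    rw [norm_div, Complex.norm_of_nonneg hδ.le]
    exact (div_le_one hδ).2 hy
  have h1 := D.map_T (D.W y).toContinuousLinearMap kb δ (D.E r w)
  simp only [LinearIsometry.coe_toContinuousLinearMap] at h1
  have h2 : ∫ y', kb.k y' • D.W y (D.W (δ * y') (D.E r w)) =
      ∫ y', kb.k (y' - y / δ) • D.W (δ * y') (D.E r w) := by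
    rw [← integral_add_right_eq_self (fun y' => kb.k (y' - y / δ) • D.W (δ * y') (D.E r w)) (y / δ)]
    simp only [add_sub_cancel_right]
    refine kb.int_congr fun y' hy' => ?_
    rw [D.loc' (by linarith [hk_norm_mul hδ.le hy']), mul_add, mul_div_cancel₀ _ hδ', add_comm]
  have h3 : Integrable fun y' => kb.k (y' - y / δ) • D.W (δ * y') (D.E r w) := by
    have := (kb.integrable (F := fun y' => D.W (δ * (y' + y / δ)) (D.E r w))
      ((D.continuous_W _).comp (by fun_prop))).comp_sub_right (y / δ)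
    simpa only [sub_add_cancel] using this
  rw [h1, h2, T_apply, ← integral_sub h3 (kb.integrable (D.continuous_Wd δ _))]
  have h4 : Integrable ((closedBall (0 : ℂ) 2).indicator fun _ => ‖w‖ / δ * ‖y‖) :=
    (integrable_indicator_iff measurableSet_closedBall).2
      (integrableOn_const measure_closedBall_lt_top.ne)
  refine (norm_integral_le_of_norm_le h4 (Eventually.of_forall fun y' => ?_)).trans (le_of_eq ?_)
  · rw [← sub_smul, norm_smul, LinearIsometry.norm_map]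
    by_cases h5 : y' ∈ closedBall (0 : ℂ) 2
    · rw [Set.indicator_of_mem h5]
      have h6 := norm_bump_sub (y' - y / δ) y'
      rw [sub_sub_cancel_left, norm_neg, norm_div, Complex.norm_of_nonneg hδ.le] at h6
      refine (mul_le_mul h6 (D.norm_E_le r w) (norm_nonneg _) (by positivity)).trans (le_of_eq ?_)
      ring
    · rw [Set.indicator_of_notMem h5]
      rw [mem_closedBall_zero_iff, not_le] at h5
      have h6 : kb.k y' = 0 := bump_eq_zero (by linarith)
      have h7 : kb.k (y' - y / δ) = 0 := bump_eq_zero (by linarith [norm_sub_norm_le y' (y / δ)])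
      simp [h6, h7]
  · rw [integral_indicator measurableSet_closedBall, setIntegral_const, smul_eq_mul]
    ring

/-- Lipschitz vectors are dense -/
theorem exists_lip (x : H) {ε : ℝ} (hε : 0 < ε) : ∃ (x₁ : H) (L δ₀ : ℝ), 0 ≤ L ∧ 0 < δ₀ ∧
    ‖x - x₁‖ ≤ ε ∧ ∀ y : ℂ, ‖y‖ ≤ δ₀ → ‖D.W y x₁ - x₁‖ ≤ L * ‖y‖ := by
  set c := ∫ y, kb.k y with hc
  have hc0 : c ≠ 0 := integral_kb_ne
  obtain ⟨r, h1, h2⟩ := ((Metric.tendsto_nhds.1 (D.tendsto_E x) (ε / 2) (by positivity)).and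
    self_mem_nhdsWithin).exists
  have h2 : 0 < r := h2
  have h3 := D.tendsto_T kb (D.E r (c⁻¹ • x))
  rw [← hc, map_smul, smul_smul, mul_inv_cancel₀ hc0, one_smul, ← map_smul] at h3
  obtain ⟨δ, h4, h5⟩ := ((Metric.tendsto_nhds.1 h3 (ε / 2) (by positivity)).and
    (Ioo_mem_nhdsGT (show 0 < r / 3 by positivity))).exists
  refine ⟨_, _, δ, by have := h5.1.le; positivity, h5.1, ?_,
    fun y hy => D.lip_bump (r := r) h5.1 (by linarith [h5.2]) (c⁻¹ • x) hy⟩
  have := dist_triangle_right x (D.T kb δ (D.E r (c⁻¹ • x))) (D.E r x)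
  rw [dist_comm x (D.E r x), dist_eq_norm x] at this
  linarith

theorem lip_P {x : H} {L δ₀ : ℝ} (h : ∀ y : ℂ, ‖y‖ ≤ δ₀ → ‖D.W y x - x‖ ≤ L * ‖y‖) (n : ℤ)
    {y : ℂ} (hy : ‖y‖ ≤ δ₀) : ‖D.W y (D.P n x) - D.P n x‖ ≤ L * ‖y‖ := by
  have h1 := ((D.W y).toContinuousLinearMap - ContinuousLinearMap.id ℂ H).integral_comp_comm
    (D.integrable_V (-n) x)
  simp only [ContinuousLinearMap.sub_apply, LinearIsometry.coe_toContinuousLinearMap,
    ContinuousLinearMap.id_apply, ← D.P_apply] at h1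
  rw [← h1]
  have := norm_integral_le_of_norm_le_const (μ := AddCircle.haarAddCircle) (C := L * ‖y‖)
    (f := fun θ => D.W y (fourier (-n) θ • D.V θ x) - fourier (-n) θ • D.V θ x)
    (Eventually.of_forall fun θ => by
      have e : ‖dir (-θ) * y‖ = ‖y‖ := by rw [norm_mul, hb_dir_eq, hb_norm_fourier, one_mul]
      have e' : dir θ * (dir (-θ) * y) = y := by
        rw [← mul_assoc, hb_dir_eq, hb_dir_eq, ← hb_fourier_add, add_neg_cancel, fourier_eval_zero,
          one_mul]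
      rw [map_smul, ← smul_sub, norm_smul, hb_norm_fourier, one_mul, ← e', ← D.V_W, ← map_sub,
        LinearIsometry.norm_map, e', ← e]
      exact h _ (e.trans_le hy))
  simpa using this

theorem norm_T_lip {κ : Ker} (hκ : ∫ y, κ.k y = 0) {x : H} {L δ₀ s : ℝ} (hL : 0 ≤ L)
    (h : ∀ y : ℂ, ‖y‖ ≤ δ₀ → ‖D.W y x - x‖ ≤ L * ‖y‖) (hs : 0 ≤ s) (hs' : s ≤ δ₀) :
    ‖D.T κ s x‖ ≤ κ.m * (L * s) := by
  have := D.norm_T_sub κ (x := x) (ε := L * s) hs fun y hy =>
    (h y (hy.trans hs')).trans (by gcongr)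
  rwa [hκ, zero_smul, sub_zero] at this

theorem norm_E_Ts_J {δ ε : ℝ} (hδ : 0 ≤ δ) (t : ℝ) (v : H)
    (h : ∀ y : ℂ, ‖y‖ ≤ δ → ‖D.W y (D.W t v - v) - (D.W t v - v)‖ ≤ ε) :
    ‖D.E (2 * δ) (D.T ks δ (D.J t v)) - (δ * c0) • D.E (2 * δ) (D.W t v - v)‖ ≤
      ks.m * (δ * (2 * ε)) := by
  set z := D.W t v - v with hz
  have hc : Continuous fun y : ℂ => D.E (2 * δ)
      (D.W (δ * y.im * Complex.I) (D.W ((δ * y.re : ℝ) : ℂ) (D.J t v) - D.J t v)) :=
    (D.E _).continuous.comp (continuous_iso (A := fun y : ℂ => D.W (δ * y.im * Complex.I))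
      (fun x => (D.continuous_W x).comp (by fun_prop))
      (((D.continuous_W _).comp (by fun_prop)).sub continuous_const))
  have hc' : Continuous fun y : ℂ => ((δ * y.re : ℝ) : ℂ) • D.E (2 * δ) z := by fun_prop
  have h1 : (δ * c0) • D.E (2 * δ) z = ∫ y, ks.k y • ((δ * y.re : ℝ) : ℂ) • D.E (2 * δ) z := by
    rw [c0, ← integral_const_mul, ← integral_smul_const]
    refine integral_congr_ae (Eventually.of_forall fun y => ?_)
    simp only [smul_smul]
    congr 1
    push_cast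
    ring
  rw [D.E_Ts hδ le_rfl, h1, ← integral_sub (ks.integrable hc) (ks.integrable hc')]
  simp only [← smul_sub]
  refine ks.norm_int_le fun y hy => ?_
  have h2 : ‖(δ * y.im * Complex.I : ℂ)‖ ≤ δ := by
    rw [mul_assoc]
    exact hk_norm_mul hδ (by simpa using (Complex.abs_im_le_norm y).trans hy)
  have h3 : |δ * y.re| ≤ δ := by
    rw [abs_mul, abs_of_nonneg hδ]
    exact mul_le_of_le_one_right hδ ((Complex.abs_re_le_norm y).trans hy)
  have hε : 0 ≤ ε := (norm_nonneg _).trans (h 0 (by simpa using hδ))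
  rw [← map_smul, ← map_sub, W_J_sub, ← hz]
  refine (D.norm_E_le _ _).trans ?_
  generalize δ * y.re = a at h3
  generalize δ * y.im * Complex.I = b at h2
  have h4 := D.norm_J_sub (a := a) (x := z) (ε := ε) fun r hr => h r (by
    rw [Complex.norm_real]
    exact hr.trans h3)
  have h5 : D.W b (D.J a z) - (a : ℂ) • z =
      D.W b (D.J a z - (a : ℂ) • z) + (a : ℂ) • (D.W b z - z) := by
    rw [map_sub (D.W b) (D.J a z), map_smul, smul_sub (a : ℂ) (D.W b z) z]
    abel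
  rw [h5]
  refine (norm_add_le _ _).trans ?_
  rw [LinearIsometry.norm_map, norm_smul, Complex.norm_real, Real.norm_eq_abs]
  nlinarith [h b h2, abs_nonneg a, norm_nonneg (D.W b z - z)]

/-- passing to the limit in the cohomological equation -/
theorem cohom {l : Filter ℝ} [l.NeBot] (hl : l ≤ 𝓝[>] 0) {v q₀ : H} {q : ℝ → H} {B : ℝ}
    (hB : ∀ᶠ δ in l, ‖q δ‖ ≤ B)
    (hq : ∀ x, Tendsto (fun δ => inner ℂ (q δ) x) l (𝓝 (inner ℂ q₀ x)))
    (hv : ∀ δ : ℝ, 0 < δ → D.E (2 * δ) (D.T ks δ v) = D.E (2 * δ) ((δ : ℂ) • q δ)) {t : ℝ}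
    (ht : 0 ≤ t) : c0 • (D.W t v - v) = D.J t q₀ := by
  have hN := fun δ : Set.Ioi (0 : ℝ) => D.exists_N (show 0 < δ.1 from δ.2) ht
  choose N n1 n2 _ n4 n5 n6 using hN
  let N' : ℝ → H →L[ℂ] H := fun δ => if h : 0 < δ then N ⟨δ, h⟩ else 0
  have hN' : ∀ x, Tendsto (fun δ => N' δ x) (𝓝[>] 0) (𝓝 x) := fun x => by
    rw [Metric.tendsto_nhds]
    intro ε hε
    obtain ⟨x₀, h1, C, hC⟩ := Metric.dense_iff.1 D.dense x (ε / 2) (by positivity)
    have h2 : Tendsto (fun δ : ℝ => 9 * C ^ 2 * (t * δ + δ ^ 2)) (𝓝[>] 0) (𝓝 0) := by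
      have : Continuous fun δ : ℝ => 9 * C ^ 2 * (t * δ + δ ^ 2) := by fun_prop
      simpa using (this.tendsto 0).mono_left nhdsWithin_le_nhds
    filter_upwards [h2.eventually (gt_mem_nhds (show 0 < (ε / 2) ^ 2 by positivity)),
      self_mem_nhdsWithin] with δ h3 h4
    have h5 := lt_of_pow_lt_pow_left₀ 2 (by positivity)
      ((n6 ⟨δ, h4⟩ x₀ C fun r hr t => hC r hr t).trans_lt h3)
    have h6 := (hb_proj_le (n1 ⟨δ, h4⟩) (n2 ⟨δ, h4⟩) (x - x₀)).2
    rw [Metric.mem_ball, dist_comm, dist_eq_norm] at h1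
    simp only [N', dif_pos (show 0 < δ from h4)]
    rw [dist_comm, dist_eq_norm, show x - N ⟨δ, h4⟩ x =
      (x - x₀ - N ⟨δ, h4⟩ (x - x₀)) + (x₀ - N ⟨δ, h4⟩ x₀) by rw [map_sub]; abel]
    linarith [norm_add_le (x - x₀ - N ⟨δ, h4⟩ (x - x₀)) (x₀ - N ⟨δ, h4⟩ x₀)]
  set z := D.W t v - v with hz
  have h1 : Tendsto (fun δ => N' δ (D.J t (q δ)) - N' δ (c0 • z)) (𝓝[>] 0) (𝓝 0) := by
    rw [Metric.tendsto_nhds]
    intro ε hε
    have hm := ks.m_nonneg
    filter_upwards [D.ev_small z (ε := ε / (2 * ks.m + 1)) (by positivity), self_mem_nhdsWithin]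
      with δ h2 h3
    have h3 : 0 < δ := h3
    have h4 := D.norm_E_Ts_J h3.le t v h2
    simp only [N', dif_pos h3]
    set M := N ⟨δ, h3⟩ with hM
    have e0 : ∀ x, M (D.E (2 * δ) x) = M x := fun x => by
      simpa [D.W_zero] using (n4 ⟨δ, h3⟩ 0 le_rfl ht x).symm
    have e1 : M (D.T ks δ (D.J t v)) = M (D.J t ((δ : ℂ) • q δ)) := by
      have := D.map_J (M.comp (D.T ks δ)) t v
      simp only [ContinuousLinearMap.comp_apply] at this
      rw [this, map_J]
      refine intervalIntegral.integral_congr fun r hr => ?_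
      rw [Set.uIcc_of_le ht] at hr
      beta_reduce
      rw [← n5 ⟨δ, h3⟩ r hr.1 hr.2, n4 ⟨δ, h3⟩ r hr.1 hr.2, hv δ h3, ← n4 ⟨δ, h3⟩ r hr.1 hr.2]
    have h5 := (hb_proj_le (n1 ⟨δ, h3⟩) (n2 ⟨δ, h3⟩) _).1.trans h4
    rw [← hM, map_sub, e0, e1, ← map_smul, e0, ← hz, mul_smul, map_smul, map_smul, map_smul M,
      ← smul_sub, norm_smul, Complex.norm_of_nonneg h3.le, mul_left_comm] at h5
    rw [dist_zero_right]
    refine (le_of_mul_le_mul_left h5 h3).trans_lt ?_
    rw [← mul_assoc, ← mul_div_assoc, div_lt_iff₀ (by positivity)]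
    nlinarith
  refine ext_inner_right ℂ fun x => ?_
  have h2 : Tendsto (fun δ => inner ℂ (N' δ (D.J t (q δ))) x) l (𝓝 (inner ℂ (D.J t q₀) x)) := by
    have h3 := (tendsto_inner_weak hB (hq (D.J (-t) x))
      (((D.J (-t)).continuous.tendsto x).comp ((hN' x).mono_left hl))).neg
    have e : ∀ a b : H, inner ℂ (D.J t a) b = -inner ℂ a (D.J (-t) b) := fun a b => by
      rw [D.J_adj, neg_neg, neg_neg]
    rw [← e] at h3
    refine h3.congr' ?_
    filter_upwards [hl self_mem_nhdsWithin] with δ hδ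
    simp only [N', dif_pos (show 0 < δ from hδ), Function.comp]
    rw [n1, e]
  have h4 := ((h1.mono_left hl).add ((hN' (c0 • z)).mono_left hl)).inner (𝕜 := ℂ)
    (tendsto_const_nhds (x := x))
  simp only [sub_add_cancel, zero_add] at h4
  exact tendsto_nhds_unique h4 h2

end HData

end Vale.Agent.P099
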