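import Vale.Agent.P099.Meas

/-! Ergodicity of the holonomy foliation. -/

namespace Vale.Agent.P099

open MeasureTheory Filter Topology ComplexConjugate

/-- The action of a frame as a linear isometry. -/
noncomputable def holE (g : UnitAddCircle × Bool) : ℂ ≃ₗᵢ[ℝ] ℂ :=
  LinearIsometry.toLinearIsometryEquiv
    { toFun := act g
      map_add' := act_add g
      map_smul' := act_smul g
      norm_map' := norm_act g } rfl

theorem holE_apply (g : UnitAddCircle × Bool) (y : ℂ) : holE g y = act g y := rfl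

theorem hol_act_symm (g : UnitAddCircle × Bool) (y : ℂ) : act g ((holE g).symm y) = y :=
  (holE g).apply_symm_apply y

theorem hol_meas_tr : Measurable fun p : ℂ × Fr => tr p.1 p.2 := by
  refine (measurable_fst.comp measurable_snd).prodMk ((measurable_snd.comp measurable_snd).add ?_)
  refine (continuous_dir.measurable.comp measurable_snd.fst.fst).mul ?_
  refine Measurable.ite (measurable_snd.fst.snd (measurableSet_singleton true)) measurable_fst ?_
  exact Complex.continuous_conj.measurable.comp measurable_fst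

theorem hol_bool {p : Bool → Prop}
    (h : ∀ᵐ b ∂((2⁻¹ : ENNReal) • (Measure.dirac true + Measure.dirac false)), p b) (b : Bool) :
    p b := by
  rw [Measure.ae_ennreal_smul_measure_iff (by norm_num), ae_add_measure_iff, ae_dirac_eq, ae_dirac_eq] at h
  cases b
  · exact h.2
  · exact h.1

namespace Tri

variable (T : Tri)

theorem hol_step1 (τ : ℂ → Fr → Fr)
    (hτ : ∀ y, ∀ᵐ z ∂T.μ, ∃ γ, T.Traj y γ Set.univ ∧ γ 0 = z ∧ τ y z = γ 1)
    (G : Fr → ℝ) (hG : Measurable G) (hinv : ∀ y, ∀ᵐ z ∂T.μ, G (τ y z) = G z) :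
    ∃ Γ : UnitAddCircle × Bool → ℝ, Measurable Γ ∧ ∀ᵐ z ∂T.μ, G z = Γ z.1 := by
  refine ⟨fun g => ∫ x, G (g, x) ∂((volume T.Q)⁻¹ • volume.restrict T.Q),
    (hG.stronglyMeasurable.integral_prod_right').measurable, ?_⟩
  have h1 : ∀ᵐ y ∂(volume : Measure ℂ), ∀ᵐ z ∂T.μ, (tr y z).2 ∈ T.Q → G (tr y z) = G z := by
    refine Eventually.of_forall fun y => ?_
    filter_upwards [hτ y, hinv y, T.ae_mem_Q] with z ⟨γ, hγ, h0, h1⟩ h2 h3 h4
    subst h0
    rw [← hγ.interior h3 h4, ← h1, h2]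
  rw [Measure.ae_ae_comm (((hol_meas_tr.snd T.isOpen_Q.measurableSet)).imp
    (measurableSet_eq_fun (hG.comp hol_meas_tr) (hG.comp measurable_snd)))] at h1
  filter_upwards [h1] with z hz
  have hq : MeasurePreserving (fun x : ℂ => (holE z.1).symm (x - z.2)) volume volume :=
    (holE z.1).symm.measurePreserving.comp (measurePreserving_sub_right volume z.2)
  have h2 : ∀ᵐ x ∂((volume T.Q)⁻¹ • volume.restrict T.Q), G (z.1, x) = G z := by
    refine Measure.ae_smul_measure ?_ _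
    rw [ae_restrict_iff' T.isOpen_Q.measurableSet]
    filter_upwards [hq.quasiMeasurePreserving.ae hz] with x hx
    simpa only [tr, hol_act_symm, add_sub_cancel] using hx
  rw [integral_congr_ae h2]
  simp

theorem hol_open (i : Fin 3) : ∃ x, x ∈ T.Q ∩ {x | T.δ i x < T.d x} := by
  obtain ⟨x, h0, h1⟩ := T.side i
  have a0 : T.δ i x = 0 := sub_eq_zero.2 h0
  have a1 : ∀ j, j ≠ i → 0 < T.δ j x := fun j hj => sub_pos.2 (h1 j hj)
  have a2 : 0 < T.d x := (T.lt_d_iff 0 x).2 fun j k hjk => by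
    by_cases hj : j = i
    · exact Or.inr (a1 k fun hk => hjk (hj.trans hk.symm))
    · exact Or.inl (a1 j hj)
  have hc : Tendsto (fun t : ℝ => x + t • T.n i) (𝓝[>] 0) (𝓝 x) := by
    have : Continuous fun t : ℝ => x + t • T.n i := by fun_prop
    simpa using (this.tendsto 0).mono_left nhdsWithin_le_nhds
  have e1 : ∀ᶠ t : ℝ in 𝓝[>] 0, T.δ i (x + t • T.n i) < T.d (x + t • T.n i) :=
    hc.eventually ((isOpen_lt (T.continuous_δ i) T.continuous_d).mem_nhds (by
      simpa [a0] using a2))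
  have e2 : ∀ j, ∀ᶠ t : ℝ in 𝓝[>] 0, 0 < T.δ j (x + t • T.n i) := fun j => by
    by_cases hj : j = i
    · filter_upwards [self_mem_nhdsWithin] with t ht
      rw [hj, T.δ_add, a0, mul_smul_comm, T.geo_conj_mul]
      simpa using ht
    · exact hc.eventually ((isOpen_lt continuous_const (T.continuous_δ j)).mem_nhds (a1 j hj))
  obtain ⟨t, ht1, ht2⟩ := (e1.and (eventually_all.2 e2)).exists
  exact ⟨_, ht2, ht1⟩

theorem hol_step2 (τ : ℂ → Fr → Fr) (hmp : ∀ y, MeasurePreserving (τ y) T.μ T.μ)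
    (hτ : ∀ y, ∀ᵐ z ∂T.μ, ∃ γ, T.Traj y γ Set.univ ∧ γ 0 = z ∧ τ y z = γ 1)
    (G : Fr → ℝ) (hinv : ∀ y, ∀ᵐ z ∂T.μ, G (τ y z) = G z)
    {Γ : UnitAddCircle × Bool → ℝ} (hΓ : Measurable Γ) (hGΓ : ∀ᵐ z ∂T.μ, G z = Γ z.1)
    (i : Fin 3) : ∀ᵐ g ∂frM, Γ (T.κ i - g.1, !g.2) = Γ g := by
  have h1 : ∀ᵐ y ∂(volume : Measure ℂ), ∀ᵐ z ∂T.μ,
      (‖y‖ < T.d z.2 ∧ T.δ i (tr y z).2 < 0) → Γ (T.κ i - z.1.1, !z.1.2) = Γ z.1 := by
    refine Eventually.of_forall fun y => ?_
    filter_upwards [hτ y, hinv y, T.ae_mem_Q, hGΓ, (hmp y).quasiMeasurePreserving.ae hGΓ]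
      with z ⟨γ, hγ, h0, h1⟩ h2 h3 h4 h5 ⟨h6, h7⟩
    subst h0
    have h8 := hγ.strong 0 1 (by simpa using h6)
    rw [zero_add, one_smul] at h8
    rw [← h4, ← h2, h5, h1, h8]
    rcases T.ell_cases (T.mem_M₀_of_Q h3) h6 with ⟨h9, -⟩ | ⟨j, -, h9, h10⟩
    · exact absurd (Or.inl h7) (h9 i)
    · have : i = j := by
        by_contra h
        exact absurd (h9 i h) (not_lt.2 h7.le)
      rw [h10, this]; rfl
  have hm : MeasurableSet {p : ℂ × Fr | (‖p.1‖ < T.d p.2.2 ∧ T.δ i (tr p.1 p.2).2 < 0) →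
      Γ (T.κ i - p.2.1.1, !p.2.1.2) = Γ p.2.1} := by
    refine MeasurableSet.imp (MeasurableSet.inter ?_ ?_) (measurableSet_eq_fun ?_ ?_)
    · exact measurableSet_lt measurable_fst.norm
        (T.continuous_d.measurable.comp measurable_snd.snd)
    · exact measurableSet_lt ((T.continuous_δ i).measurable.comp hol_meas_tr.snd) measurable_const
    · exact hΓ.comp ((T.refl_mp i).measurable.comp measurable_snd.fst)
    · exact hΓ.comp measurable_snd.fst
  rw [Measure.ae_ae_comm hm] at h1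
  have h2 : ∀ᵐ z ∂T.μ, T.δ i z.2 < T.d z.2 → Γ (T.κ i - z.1.1, !z.1.2) = Γ z.1 := by
    filter_upwards [h1, T.ae_mem_Q] with z hz hQ hlt
    have ho : IsOpen {y : ℂ | ‖y‖ < T.d z.2 ∧ T.δ i (tr y z).2 < 0} :=
      (isOpen_lt continuous_norm continuous_const).inter (isOpen_lt
        ((T.continuous_δ i).comp (continuous_const.add (holE z.1).continuous)) continuous_const)
    obtain ⟨s, hs1, hs2⟩ := exists_between hlt
    have hs0 : 0 < s := (hQ i).trans hs1
    have hne : {y : ℂ | ‖y‖ < T.d z.2 ∧ T.δ i (tr y z).2 < 0}.Nonempty := by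
      refine ⟨(holE z.1).symm ((-s) • T.n i), ?_, ?_⟩
      · rw [LinearIsometryEquiv.norm_map, norm_smul, T.norm_n]
        simpa [abs_of_pos hs0] using hs2
      · simp only [tr, hol_act_symm]
        rw [T.δ_add, mul_smul_comm, T.geo_conj_mul]
        simpa using hs1
    obtain ⟨y, hy, hy'⟩ := Measure.exists_mem_of_measure_ne_zero_of_ae
      (ho.measure_pos volume hne).ne' (ae_restrict_of_ae hz)
    exact hy' hy
  filter_upwards [Measure.ae_ae_of_ae_prod h2] with g hg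
  rw [Measure.ae_ennreal_smul_measure_iff (ENNReal.inv_ne_zero.2 T.volume_Q_ne_top),
    ae_restrict_iff' T.isOpen_Q.measurableSet] at hg
  have ho : IsOpen (T.Q ∩ {x | T.δ i x < T.d x}) :=
    T.isOpen_Q.inter (isOpen_lt (T.continuous_δ i) T.continuous_d)
  obtain ⟨y, hy, hy'⟩ := Measure.exists_mem_of_measure_ne_zero_of_ae
    (ho.measure_pos volume (T.hol_open i)).ne' (ae_restrict_of_ae hg)
  exact hy' hy.1 hy.2

end Tri

theorem Tri.hol_erg (T : Tri) (hirr : ∃ i j, addOrderOf (T.κ i - T.κ j) = 0) (τ : ℂ → Fr → Fr)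
    (hmp : ∀ y, MeasurePreserving (τ y) T.μ T.μ)
    (hτ : ∀ y, ∀ᵐ z ∂T.μ, ∃ γ, T.Traj y γ Set.univ ∧ γ 0 = z ∧ τ y z = γ 1)
    (G : Fr → ℝ) (hG : Measurable G) (hb : ∀ z, |G z| ≤ 1)
    (hinv : ∀ y, ∀ᵐ z ∂T.μ, G (τ y z) = G z) : ∃ c, ∀ᵐ z ∂T.μ, G z = c := by
  obtain ⟨i, j, hij⟩ := hirr
  obtain ⟨Γ, hΓ, hGΓ⟩ := T.hol_step1 τ hτ G hG hinv
  have h2 := T.hol_step2 τ hmp hτ G hinv hΓ hGΓ
  have h3 : ∀ᵐ g ∂frM, Γ (T.κ i - T.κ j + g.1, g.2) = Γ g := by
    filter_upwards [h2 j, (T.refl_mp j).quasiMeasurePreserving.ae (h2 i)] with g h4 h5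
    rw [← h4, ← h5]
    congr 2
    · abel
    · simp
  have h4 : ∀ b : Bool, ∃ c, ∀ᵐ θ ∂(volume : Measure UnitAddCircle), Γ (θ, b) = c := fun b => by
    refine (AddCircle.ergodic_add_left.2 hij).ae_eq_const_of_ae_eq_comp_ae
      (g := fun θ => Γ (θ, b)) (hΓ.comp measurable_prodMk_right).aestronglyMeasurable ?_
    filter_upwards [Measure.ae_ae_of_ae_prod h3] with θ hθ
    exact hol_bool hθ b
  choose c hc using h4
  have h5 : ∀ᵐ g ∂frM, Γ g = c g.2 := by
    filter_upwards [Measure.quasiMeasurePreserving_fst.ae (ae_all_iff.2 hc)] with g hg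
    exact hg g.2
  have h6 : ∀ᵐ g ∂frM, c (!g.2) = c g.2 := by
    filter_upwards [h5, (T.refl_mp i).quasiMeasurePreserving.ae h5, h2 i] with g h7 h8 h9
    rw [← h7, ← h9, h8]
  obtain ⟨g, hg⟩ := h6.exists
  have h7 : ∀ b, c b = c true := by
    rcases g with ⟨θ, b⟩
    cases b <;> intro b <;> cases b <;> simp_all
  refine ⟨c true, ?_⟩
  filter_upwards [hGΓ, Measure.quasiMeasurePreserving_fst.ae h5] with z h8 h9
  rw [h8, h9, h7]

end Vale.Agent.P099
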