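import Vale.Agent.P099.HMain

/-! From the measure theoretic structure to the Hilbert space structure. -/

namespace Vale.Agent.P099

open MeasureTheory Filter Topology ProbabilityTheory BoundedContinuousFunction

section Basic
variable {M : Type} [MeasurableSpace M] {μ : Measure M}

/-- Multiplication by an indicator function. -/
noncomputable def koopInd (μ : Measure M) {S : Set M} (hS : MeasurableSet S) :
    Lp ℂ 2 μ →L[ℂ] Lp ℂ 2 μ :=
  LinearMap.mkContinuous
    { toFun := fun x => ((Lp.memLp x).indicator hS).toLp _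
      map_add' := fun x y => by
        refine Lp.ext ?_
        filter_upwards [((Lp.memLp (x + y)).indicator hS).coeFn_toLp,
          ((Lp.memLp x).indicator hS).coeFn_toLp, ((Lp.memLp y).indicator hS).coeFn_toLp,
          Lp.coeFn_add x y, Lp.coeFn_add (((Lp.memLp x).indicator hS).toLp _)
            (((Lp.memLp y).indicator hS).toLp _)] with z h1 h2 h3 h4 h5
        rw [h5, h1, Pi.add_apply, h2, h3]
        by_cases hz : z ∈ S
        · rw [Set.indicator_of_mem hz, Set.indicator_of_mem hz, Set.indicator_of_mem hz, h4]; rfl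
        · rw [Set.indicator_of_notMem hz, Set.indicator_of_notMem hz, Set.indicator_of_notMem hz,
            add_zero]
      map_smul' := fun c x => by
        refine Lp.ext ?_
        filter_upwards [((Lp.memLp (c • x)).indicator hS).coeFn_toLp,
          ((Lp.memLp x).indicator hS).coeFn_toLp, Lp.coeFn_smul c x,
          Lp.coeFn_smul c (((Lp.memLp x).indicator hS).toLp _)] with z h1 h2 h4 h5
        rw [RingHom.id_apply, h5, h1, Pi.smul_apply, h2]
        by_cases hz : z ∈ S <;> simp [hz, h4] } 1 fun x => by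
    rw [one_mul]
    refine Lp.norm_le_norm_of_ae_le ?_
    filter_upwards [((Lp.memLp x).indicator hS).coeFn_toLp] with z h1
    simp only [LinearMap.coe_mk, AddHom.coe_mk]
    rw [h1]
    exact norm_indicator_le_norm_self _ _

theorem koopInd_ae {S : Set M} (hS : MeasurableSet S) (x : Lp ℂ 2 μ) :
    ∀ᵐ z ∂μ, koopInd μ hS x z = S.indicator x z :=
  ((Lp.memLp x).indicator hS).coeFn_toLp

/-- The Koopman operator. -/
noncomputable def koopU {f : M → M} (hf : MeasurePreserving f μ μ) : Lp ℂ 2 μ →ₗᵢ[ℂ] Lp ℂ 2 μ :=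
  Lp.compMeasurePreservingₗᵢ ℂ f hf

theorem koopU_ae {f : M → M} (hf : MeasurePreserving f μ μ) (x : Lp ℂ 2 μ) :
    ∀ᵐ z ∂μ, koopU hf x z = x (f z) :=
  Lp.coeFn_compMeasurePreserving x hf

theorem koop_tail [IsFiniteMeasure μ] {S : Set M} (hS : MeasurableSet S) {x : Lp ℂ 2 μ} {B : ℝ}
    (hB : 0 ≤ B) (hx : ∀ᵐ z ∂μ, ‖x z‖ ≤ B) {a : ℝ} (ha : 0 ≤ a)
    (h : μ Sᶜ ≤ ENNReal.ofReal (a ^ 2)) : ‖x - koopInd μ hS x‖ ≤ B * a := by
  have h1 : ‖x - koopInd μ hS x‖ ≤
      ‖indicatorConstLp 2 hS.compl (measure_ne_top μ _) B‖ := by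
    refine Lp.norm_le_norm_of_ae_le ?_
    filter_upwards [Lp.coeFn_sub x (koopInd μ hS x), koopInd_ae hS x, hx,
      indicatorConstLp_coeFn (p := 2) (hs := hS.compl) (hμs := measure_ne_top μ _) (c := B)]
      with z h1 h2 h3 h4
    rw [h1, Pi.sub_apply, h2, h4]
    by_cases hz : z ∈ S
    · simp [hz]
    · simpa [hz, abs_of_nonneg hB] using h3
  refine h1.trans ?_
  rw [norm_indicatorConstLp (by norm_num) (by norm_num), Real.norm_of_nonneg hB]
  refine mul_le_mul_of_nonneg_left ?_ hB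
  have h2 : μ.real Sᶜ ≤ a ^ 2 := ENNReal.toReal_le_of_le_ofReal (by positivity) h
  calc μ.real Sᶜ ^ (1 / (2 : ENNReal).toReal) ≤ (a ^ 2) ^ (1 / (2 : ENNReal).toReal) :=
        Real.rpow_le_rpow measureReal_nonneg h2 (by norm_num)
    _ = a := by
        rw [ENNReal.toReal_ofNat, ← Real.sqrt_eq_rpow, Real.sqrt_sq ha]

end Basic

variable {M : Type} [TopologicalSpace M] [MeasurableSpace M] [BorelSpace M]
  [TopologicalSpace.PseudoMetrizableSpace M] [SecondCountableTopology M]
  {μ : Measure M} [IsProbabilityMeasure μ]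

theorem koop_dense : Dense {x : Lp ℂ 2 μ | ∃ g : M →ᵇ ℂ, ∀ᵐ z ∂μ, x z = g z} := by
  let _ := TopologicalSpace.pseudoMetrizableSpacePseudoMetric M
  refine (Lp.boundedContinuousFunction_dense ℂ μ (p := 2) (by norm_num)).mono fun x hx => ?_
  obtain ⟨g, hg⟩ := Lp.mem_boundedContinuousFunction_iff.1 hx
  refine ⟨g, ?_⟩
  have := g.toContinuousMap.coeFn_toAEEqFun μ
  rw [hg] at this
  exact this

theorem koop_seq {f : ℕ → M → M} (hf : ∀ k, MeasurePreserving (f k) μ μ)
    (h : ∀ᵐ z ∂μ, Tendsto (fun k => f k z) atTop (𝓝 z)) (x : Lp ℂ 2 μ) :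
    Tendsto (fun k => koopU (hf k) x) atTop (𝓝 x) := by
  have key : ∀ x : Lp ℂ 2 μ, (∃ g : M →ᵇ ℂ, ∀ᵐ z ∂μ, x z = g z) →
      Tendsto (fun k => koopU (hf k) x) atTop (𝓝 x) := by
    rintro x ⟨g, hg⟩
    have hid : ∀ k, IdentDistrib (fun z => koopU (hf k) x z) x μ μ := fun k => by
      refine (IdentDistrib.of_ae_eq (Lp.aestronglyMeasurable _).aemeasurable
        (koopU_ae (hf k) x)).trans ⟨?_, (Lp.aestronglyMeasurable _).aemeasurable, ?_⟩
      · exact (Lp.aestronglyMeasurable x).aemeasurable.comp_quasiMeasurePreserving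
          (hf k).quasiMeasurePreserving
      · have h1 : AEMeasurable (x : M → ℂ) μ := (Lp.aestronglyMeasurable x).aemeasurable
        generalize (x : M → ℂ) = u at h1
        have h2 := AEMeasurable.map_map_of_aemeasurable (g := u)
          (by rw [(hf k).map_eq]; exact h1) (hf k).measurable.aemeasurable
        rw [(hf k).map_eq] at h2
        exact h2.symm
    rw [Lp.tendsto_Lp_iff_tendsto_eLpNorm']
    refine tendsto_Lp_finite_of_tendsto_ae (by norm_num) (by norm_num)
      (fun k => Lp.aestronglyMeasurable _) (Lp.memLp x)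
      (MemLp.uniformIntegrable_of_identDistrib (j := 0) (by norm_num) (by norm_num) (Lp.memLp _)
        fun k => (hid k).trans (hid 0).symm).unifIntegrable ?_
    have h1 : ∀ᵐ z ∂μ, ∀ k, koopU (hf k) x z = g (f k z) := by
      rw [ae_all_iff]
      intro k
      filter_upwards [koopU_ae (hf k) x, (hf k).quasiMeasurePreserving.ae hg] with z h1 h2
      rw [h1, h2]
    filter_upwards [h, h1, hg] with z h2 h3 h4
    simp only [h3, h4]
    exact (g.continuous.tendsto z).comp h2
  rw [Metric.tendsto_atTop]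
  intro ε hε
  obtain ⟨x', hx', hd⟩ := koop_dense.exists_dist_lt x (by positivity : 0 < ε / 3)
  obtain ⟨N, hN⟩ := Metric.tendsto_atTop.1 (key x' hx') (ε / 3) (by positivity)
  refine ⟨N, fun k hk => ?_⟩
  have h1 := dist_triangle4 (koopU (hf k) x) (koopU (hf k) x') x' x
  rw [LinearIsometry.dist_map, dist_comm x' x] at h1
  linarith [hN k hk]

omit [BorelSpace M] [TopologicalSpace.PseudoMetrizableSpace M] [SecondCountableTopology M]
  [IsProbabilityMeasure μ] in
theorem LocE.koop_meas (L : LocE M μ) (r : ℝ) : MeasurableSet {z | r < L.d z} :=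
  measurableSet_lt measurable_const L.d_meas

omit [BorelSpace M] [TopologicalSpace.PseudoMetrizableSpace M] [SecondCountableTopology M] in
theorem LocE.koop_tame (L : LocE M μ) : ∃ C : ℝ, ∀ (x : Lp ℂ 2 μ) (B : ℝ), 0 ≤ B →
    (∀ᵐ z ∂μ, ‖x z‖ ≤ B) → ∀ r, 0 < r → ‖x - koopInd μ (L.koop_meas r) x‖ ≤ B * C * r := by
  obtain ⟨C, hC⟩ := L.small
  refine ⟨√C, fun x B hB hx r hr => ?_⟩
  rw [mul_assoc]
  refine koop_tail _ hB hx (by positivity) ?_
  have : {z | r < L.d z}ᶜ = {z | L.d z ≤ r} := by ext z; simp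
  rw [this]
  refine (hC r hr).trans (ENNReal.ofReal_le_ofReal ?_)
  rw [mul_pow]
  refine mul_le_mul_of_nonneg_right ?_ (by positivity)
  rw [Real.sq_sqrt']
  exact le_max_left _ _

omit [BorelSpace M] [TopologicalSpace.PseudoMetrizableSpace M] [SecondCountableTopology M]
  [IsProbabilityMeasure μ] in
theorem LocE.koop_inv (L : LocE M μ) (y : ℂ) : ∀ᵐ z ∂μ, L.τ (-y) (L.τ y z) = z := by
  filter_upwards [L.τ_add y 1 (-1), L.τ_zero] with z h1 h2
  simpa [h2] using h1.symm

/-- The Hilbert space structure of a local action. -/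
noncomputable def LocE.koopData (L : LocE M μ) : HData (Lp ℂ 2 μ) where
  W y := koopU (L.τ_mp y)
  V θ := koopU (L.R_mp θ)
  E r := koopInd μ (L.koop_meas r)
  W_zero x := by
    refine Lp.ext ?_
    filter_upwards [koopU_ae (L.τ_mp 0) x, L.τ_zero] with z h1 h2
    rw [h1, h2]
  W_add y s t x := by
    refine Lp.ext ?_
    filter_upwards [koopU_ae (L.τ_mp ((s + t) • y)) x,
      koopU_ae (L.τ_mp (s • y)) (koopU (L.τ_mp (t • y)) x),
      (L.τ_mp (s • y)).quasiMeasurePreserving.ae (koopU_ae (L.τ_mp (t • y)) x),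
      L.τ_add y s t] with z h1 h2 h3 h4
    rw [h1, h2, h3, h4]
  V_zero x := by
    refine Lp.ext ?_
    filter_upwards [koopU_ae (L.R_mp 0) x] with z h1
    rw [h1, L.R_zero]
  V_add θ θ' x := by
    refine Lp.ext ?_
    filter_upwards [koopU_ae (L.R_mp (θ + θ')) x,
      koopU_ae (L.R_mp θ) (koopU (L.R_mp θ') x),
      (L.R_mp θ).quasiMeasurePreserving.ae (koopU_ae (L.R_mp θ') x)] with z h1 h2 h3
    rw [h1, h2, h3, L.R_add]
  V_W θ y x := by
    refine Lp.ext ?_
    filter_upwards [koopU_ae (L.R_mp θ) (koopU (L.τ_mp y) x),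
      (L.R_mp θ).quasiMeasurePreserving.ae (koopU_ae (L.τ_mp y) x),
      koopU_ae (L.τ_mp (dir θ * y)) (koopU (L.R_mp θ) x),
      (L.τ_mp (dir θ * y)).quasiMeasurePreserving.ae (koopU_ae (L.R_mp θ) x),
      L.τ_R θ y] with z h1 h2 h3 h4 h5
    rw [h1, h2, h3, h4, h5]
  W_cont x := by
    rw [tendsto_iff_seq_tendsto]
    intro y hy
    exact koop_seq (fun k => L.τ_mp (y k)) (L.τ_cont y hy) x
  V_cont x := by
    rw [tendsto_iff_seq_tendsto]
    intro y hy
    exact koop_seq (fun k => L.R_mp (y k))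
      (Eventually.of_forall fun z => (L.R_cont z).comp hy) x
  E_adj r x x' := by
    rw [L2.inner_def, L2.inner_def]
    refine integral_congr_ae ?_
    filter_upwards [koopInd_ae (L.koop_meas r) x, koopInd_ae (L.koop_meas r) x'] with z h1 h2
    rw [h1, h2]
    by_cases hz : z ∈ {z | r < L.d z} <;> simp [hz]
  E_E r r' x hr := by
    refine Lp.ext ?_
    filter_upwards [koopInd_ae (L.koop_meas r) (koopInd μ (L.koop_meas r') x),
      koopInd_ae (L.koop_meas r') x] with z h1 h2
    rw [h1, Set.indicator_apply, h2]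
    split_ifs with hz
    · rfl
    · rw [Set.indicator_of_notMem]
      exact fun h => hz (lt_of_le_of_lt hr h)
  V_E θ r x := by
    refine Lp.ext ?_
    filter_upwards [koopU_ae (L.R_mp θ) (koopInd μ (L.koop_meas r) x),
      (L.R_mp θ).quasiMeasurePreserving.ae (koopInd_ae (L.koop_meas r) x),
      koopInd_ae (L.koop_meas r) (koopU (L.R_mp θ) x), koopU_ae (L.R_mp θ) x] with z h1 h2 h3 h4
    rw [h1, h2, h3]
    simp only [Set.indicator_apply, Set.mem_ofPred_eq, L.d_R, h4]
  lip r r' y x hr hr' := by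
    refine Lp.ext ?_
    filter_upwards [koopInd_ae (L.koop_meas r') (koopU (L.τ_mp y) x), koopU_ae (L.τ_mp y) x,
      koopInd_ae (L.koop_meas r') (koopU (L.τ_mp y) (koopInd μ (L.koop_meas r) x)),
      koopU_ae (L.τ_mp y) (koopInd μ (L.koop_meas r) x),
      (L.τ_mp y).quasiMeasurePreserving.ae (koopInd_ae (L.koop_meas r) x), L.lip y]
      with z h1 h2 h3 h4 h5 h6
    rw [h1, h3]
    simp only [Set.indicator_apply, Set.mem_ofPred_eq, h2, h4, h5]
    by_cases hz : r' < L.d z
    · have := h6 (by linarith)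
      rw [if_pos hz, if_pos hz, if_pos (by linarith)]
    · rw [if_neg hz, if_neg hz]
  loc r y y' x hr := by
    refine Lp.ext ?_
    filter_upwards [koopInd_ae (L.koop_meas r) (koopU (L.τ_mp y) (koopU (L.τ_mp y') x)),
      koopU_ae (L.τ_mp y) (koopU (L.τ_mp y') x),
      (L.τ_mp y).quasiMeasurePreserving.ae (koopU_ae (L.τ_mp y') x),
      koopInd_ae (L.koop_meas r) (koopU (L.τ_mp (y + y')) x), koopU_ae (L.τ_mp (y + y')) x,
      L.loc y y'] with z h1 h2 h3 h4 h5 h6
    rw [h1, h4]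
    simp only [Set.indicator_apply, Set.mem_ofPred_eq, h2, h3, h5]
    by_cases hz : r < L.d z
    · rw [if_pos hz, if_pos hz, h6 (by linarith)]
    · rw [if_neg hz, if_neg hz]
  comm r r' y x := by
    refine Lp.ext ?_
    have key : ∀ x : Lp ℂ 2 μ, ∀ᵐ z ∂μ,
        koopU (L.τ_mp y) (koopInd μ (L.koop_meas r') (koopU (L.τ_mp (-y)) x)) z =
          if r' < L.d (L.τ y z) then x z else 0 := fun x => by
      filter_upwards [koopU_ae (L.τ_mp y) (koopInd μ (L.koop_meas r') (koopU (L.τ_mp (-y)) x)),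
        (L.τ_mp y).quasiMeasurePreserving.ae
          (koopInd_ae (L.koop_meas r') (koopU (L.τ_mp (-y)) x)),
        (L.τ_mp y).quasiMeasurePreserving.ae (koopU_ae (L.τ_mp (-y)) x), L.koop_inv y]
        with z h1 h2 h3 h4
      rw [h1, h2]
      simp only [Set.indicator_apply, Set.mem_ofPred_eq, h3, h4]
    filter_upwards [key x, key (koopInd μ (L.koop_meas r) x), koopInd_ae (L.koop_meas r) x,
      koopInd_ae (L.koop_meas r)
        (koopU (L.τ_mp y) (koopInd μ (L.koop_meas r') (koopU (L.τ_mp (-y)) x)))]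
      with z h1 h2 h3 h4
    rw [h4, h2]
    simp only [Set.indicator_apply, Set.mem_ofPred_eq, h1, h3]
    split_ifs <;> rfl
  dense := by
    refine koop_dense.mono ?_
    rintro x ⟨g, hg⟩
    obtain ⟨C, hC⟩ := L.koop_tame
    refine ⟨‖g‖ * C, fun r hr y => hC _ _ (norm_nonneg g) ?_ r hr⟩
    filter_upwards [koopU_ae (L.τ_mp y) x, (L.τ_mp y).quasiMeasurePreserving.ae hg] with z h1 h2
    rw [h1, h2]
    exact g.norm_coe_le_norm _

theorem LocE.inv (L : LocE M μ) {A : Set M} (hA : MeasurableSet A)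
    (h : ∀ t : ℝ, ∀ᵐ z ∂μ, L.τ t z ∈ A ↔ z ∈ A) (y : ℂ) : ∀ᵐ z ∂μ, L.τ y z ∈ A ↔ z ∈ A := by
  let f : Lp ℂ 2 μ := indicatorConstLp 2 hA (measure_ne_top μ _) (1 : ℂ)
  have hf : ∀ᵐ z ∂μ, f z = A.indicator (fun _ => (1 : ℂ)) z := indicatorConstLp_coeFn
  obtain ⟨C, hC⟩ := L.koop_tame
  have h1 : koopU (L.τ_mp y) f = f := by
    refine L.koopData.inv_all (f := f) (fun t => ?_) (C := 1 * C)
      (fun r hr => hC f 1 zero_le_one ?_ r hr) y
    · refine Lp.ext ?_
      filter_upwards [koopU_ae (L.τ_mp t) f, (L.τ_mp t).quasiMeasurePreserving.ae hf, hf, h t]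
        with z h1 h2 h3 h4
      refine h1.trans ?_
      rw [h2, h3]
      by_cases h5 : z ∈ A
      · rw [Set.indicator_of_mem h5, Set.indicator_of_mem (h4.2 h5)]
      · rw [Set.indicator_of_notMem h5, Set.indicator_of_notMem (mt h4.1 h5)]
    · filter_upwards [hf] with z h1
      rw [h1]
      exact (norm_indicator_le_norm_self _ _).trans (by simp)
  have h2 := koopU_ae (L.τ_mp y) f
  rw [h1] at h2
  filter_upwards [h2, (L.τ_mp y).quasiMeasurePreserving.ae hf, hf] with z h3 h4 h5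
  rw [h4, h5] at h3
  by_cases h6 : z ∈ A <;> by_cases h7 : L.τ y z ∈ A <;> simp_all

end Vale.Agent.P099
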