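import Vale.Agent.P099.TriOf

/-! Billiard orbits: uniqueness and comparison with trajectories in the frame bundle. -/

namespace Vale.Agent.P099

open ComplexConjugate Filter Topology

theorem orb_dir_refl (T : Tri) (i : Fin 3) (θ : UnitAddCircle) :
    dir (T.κ i - θ) = dir θ - (2 * (conj (T.n i) * dir θ).re) • T.n i := by
  rw [T.geo_reflect, sub_eq_add_neg, dir_add, dir_neg, T.dir_κ]

/-- the relation between incoming and outgoing direction -/
def OrbRel (P : Fin 3 → ℂ) (x : ℂ) (u θ : UnitAddCircle) : Prop :=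
  (x ∈ table P ∧ θ = u) ∨ ∃ i j : Fin 3, i ≠ j ∧ x ∈ openSegment ℝ (P i) (P j) ∧
    dir θ = specular (P j - P i) (dir u)

theorem OrbRel.iff {P : Fin 3 → ℂ} (hP : AffineIndependent ℝ P) {x : ℂ}
    {u θ u' θ' : UnitAddCircle} (h : OrbRel P x u θ) (h' : OrbRel P x u' θ') :
    u = u' ↔ θ = θ' := by
  obtain ⟨T, hQ, -, hs, -⟩ := exists_tri hP
  have key : ∀ {u θ : UnitAddCircle}, OrbRel P x u θ → (x ∈ T.Q ∧ θ = u) ∨
      ∃ i, T.δ i x = 0 ∧ (∀ l, l ≠ i → 0 < T.δ l x) ∧ θ = T.κ i - u := by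
    rintro u θ (⟨a, b⟩ | ⟨j, k, hjk, hx, hd⟩)
    · exact Or.inl ⟨hQ ▸ a, b⟩
    · obtain ⟨i, h1, h2⟩ := hs j k hjk
      refine Or.inr ⟨i, (h1 x hx).1, (h1 x hx).2, dir_injective ?_⟩
      rw [hd, h2, orb_dir_refl]
  rcases key h with ⟨a, rfl⟩ | ⟨i, a1, a2, rfl⟩ <;> rcases key h' with ⟨b, rfl⟩ | ⟨j, b1, b2, rfl⟩
  · rfl
  · exact absurd b1 (a j).ne'
  · exact absurd a1 (b i).ne'
  · obtain rfl : i = j := by
      by_contra hc
      exact (b2 i hc).ne' a1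
    exact sub_right_inj.symm

theorem IsOrbit.unique {P : Fin 3 → ℂ} (hP : AffineIndependent ℝ P)
    {γ γ' : ℝ → ℂ × UnitAddCircle} (h : IsOrbit P γ) (h' : IsOrbit P γ') (h0 : γ 0 = γ' 0) :
    γ = γ' := by
  funext t
  have key := (isPreconnected_univ (α := ℝ)).induction₂' (fun s u => γ s = γ' s → γ u = γ' u) ?_
    (fun _ _ _ _ _ _ a b c => b (a c)) (Set.mem_univ 0) (Set.mem_univ t)
  · exact key h0
  intro s _
  obtain ⟨ε, hε, u, l1, r1, c1⟩ := h s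
  obtain ⟨ε', hε', u', l2, r2, c2⟩ := h' s
  refine Filter.Eventually.filter_mono nhdsWithin_le_nhds ?_
  filter_upwards [Ioo_mem_nhds (sub_lt_self s hε) (lt_add_of_pos_right s hε),
    Ioo_mem_nhds (sub_lt_self s hε') (lt_add_of_pos_right s hε')] with v m1 m2
  rcases lt_or_ge v s with hv | hv
  · rw [l1 v ⟨m1.1, hv⟩, l2 v ⟨m2.1, hv⟩]
    constructor
    · intro e
      have e1 : u = u' := by
        rw [e] at c1
        exact (OrbRel.iff hP c1 c2).2 rfl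
      rw [e, e1]
    · intro e
      obtain ⟨e1, e2⟩ := Prod.ext_iff.1 e
      dsimp only at e1 e2
      subst e2
      have e3 := add_right_cancel e1
      refine Prod.ext e3 ?_
      rw [e3] at c1
      exact (OrbRel.iff hP c1 c2).1 rfl
  · rw [r1 v ⟨hv, m1.2⟩, r2 v ⟨hv, m2.2⟩]
    constructor
    · intro e; rw [e]
    · intro e
      obtain ⟨e1, e2⟩ := Prod.ext_iff.1 e
      dsimp only at e1 e2
      rw [e2] at e1
      exact Prod.ext (add_right_cancel e1) e2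

open Classical in
/-- the outgoing direction -/
noncomputable def orbG (T : Tri) (z : Fr) : ℂ × UnitAddCircle :=
  (z.2, if h : ∃ i, T.δ i z.2 = 0 ∧ (conj (T.n i) * dir z.1.1).re < 0 then T.κ h.choose - z.1.1
    else z.1.1)

theorem orbG_of_Q {T : Tri} {z : Fr} (hz : z.2 ∈ T.Q) : orbG T z = (z.2, z.1.1) := by
  rw [orbG, dif_neg]
  rintro ⟨i, h1, -⟩
  exact (hz i).ne' h1

theorem orbG_neg {T : Tri} {z : Fr} {i : Fin 3} (h0 : T.δ i z.2 = 0)
    (hp : ∀ j, j ≠ i → 0 < T.δ j z.2) (ha : (conj (T.n i) * dir z.1.1).re < 0) :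
    orbG T z = (z.2, T.κ i - z.1.1) := by
  have h : ∃ i, T.δ i z.2 = 0 ∧ (conj (T.n i) * dir z.1.1).re < 0 := ⟨i, h0, ha⟩
  rw [orbG, dif_pos h]
  have : h.choose = i := by
    by_contra hc
    exact (hp _ hc).ne' h.choose_spec.1
  rw [this]

theorem orbG_nonneg {T : Tri} {z : Fr} {i : Fin 3}
    (hp : ∀ j, j ≠ i → 0 < T.δ j z.2) (ha : 0 ≤ (conj (T.n i) * dir z.1.1).re) :
    orbG T z = (z.2, z.1.1) := by
  rw [orbG, dif_neg]
  rintro ⟨j, h1, h2⟩
  by_cases hj : j = i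
  · rw [hj] at h2; linarith
  · exact (hp j hj).ne' h1

theorem orb_tr (h : ℝ) (z : Fr) : tr (h • (1 : ℂ)) z = (z.1, z.2 + h • dir z.1.1) := by
  rw [tr, act_smul]
  simp [act]

theorem orb_side {T : Tri} {z : Fr} {i : Fin 3} (hε : z.1.2 = true) (h0 : T.δ i z.2 = 0)
    (hi : ∀ j, j ≠ i → T.d z.2 ≤ T.δ j z.2) {h : ℝ} (hh : |h| < T.d z.2) :
    (h * (conj (T.n i) * dir z.1.1).re < 0 → orbG T (T.ell (h • (1 : ℂ)) z) =
      (z.2 + h • dir (T.κ i - z.1.1), T.κ i - z.1.1)) ∧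
    (0 ≤ h * (conj (T.n i) * dir z.1.1).re →
      0 ≤ (conj (T.n i) * dir z.1.1).re ∨ 0 < h * (conj (T.n i) * dir z.1.1).re →
      orbG T (T.ell (h • (1 : ℂ)) z) = (z.2 + h • dir z.1.1, z.1.1)) := by
  have pos : ∀ θ j, j ≠ i → 0 < T.δ j (z.2 + h • dir θ) := fun θ =>
    T.geo_pos_near hi (by
      rwa [add_sub_cancel_left, norm_smul, norm_dir, mul_one, Real.norm_eq_abs])
  have val : T.δ i (z.2 + h • dir z.1.1) = h * (conj (T.n i) * dir z.1.1).re := by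
    rw [T.δ_add, h0, zero_add, mul_smul_comm, Complex.smul_re, smul_eq_mul]
  rw [Tri.ell, orb_tr]
  obtain ⟨w, hw⟩ : ∃ w : Fr, w = (z.1, z.2 + h • dir z.1.1) := ⟨_, rfl⟩
  have w1 : w.1 = z.1 := by rw [hw]
  have w2 : w.2 = z.2 + h • dir z.1.1 := by rw [hw]
  rw [← hw]
  have no : ∀ j, j ≠ i → ¬T.Out j w := fun j hj => T.geo_not_out (w2 ▸ pos _ j hj)
  constructor
  · intro ha
    have ho : T.Out i w := Or.inl (by rwa [w2, val])
    have e : (T.refl i w).2 = z.2 + h • dir (T.κ i - z.1.1) := by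
      show w.2 - (2 * T.δ i w.2) • T.n i = _
      rw [w2, val, orb_dir_refl, smul_sub, smul_smul, add_sub_assoc]
      congr 3
      ring
    rw [T.fold_of_out ho no, orbG_of_Q, e]
    · show (_, T.κ i - w.1.1) = _
      rw [w1]
    · intro j
      by_cases hj : j = i
      · rw [hj, T.δ_refl, w2, val]; linarith
      · rw [e]; exact pos _ j hj
  · intro ha hb
    have ho : ¬T.Out i w := by
      rintro (a | ⟨-, a⟩)
      · rw [w2, val] at a; linarith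
      · rw [w1, hε] at a; exact absurd a (by decide)
    have all : ∀ j, ¬T.Out j w := fun j => by
      by_cases hj : j = i
      · rwa [hj]
      · exact no j hj
    rw [T.fold_of_mem all]
    rcases hb with hb | hb
    · rw [orbG_nonneg (i := i) (w2 ▸ pos _) (w1 ▸ hb), w1, w2]
    · rw [orbG_of_Q, w1, w2]
      intro j
      by_cases hj : j = i
      · rwa [hj, w2, val]
      · rw [w2]; exact pos _ j hj

theorem exists_orbit {P : Fin 3 → ℂ} {T : Tri} (hQ : T.Q = table P)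
    (hside : ∀ (i : Fin 3) (x : ℂ), T.δ i x = 0 → (∀ j, j ≠ i → 0 < T.δ j x) →
      ∃ j k : Fin 3, j ≠ k ∧ x ∈ openSegment ℝ (P j) (P k) ∧
        ∀ u, specular (P k - P j) u = u - (2 * (conj (T.n i) * u).re) • T.n i)
    {γ : ℝ → Fr} (h : T.Traj 1 γ Set.univ) :
    ∃ γ', IsOrbit P γ' ∧ ∀ t, (γ t).2 ∈ T.Q → γ' t = ((γ t).2, (γ t).1.1) := by
  refine ⟨fun t => orbG T (γ t), fun t₀ => ?_, fun t ht => orbG_of_Q ht⟩
  obtain ⟨hz, ev⟩ := h t₀ trivial
  beta_reduce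
  by_cases hq : (γ t₀).2 ∈ T.Q
  · have hc : ContinuousAt (fun k : ℝ => (γ t₀).2 + k • dir (γ t₀).1.1) 0 := by fun_prop
    have ev2 := hc.eventually (T.isOpen_Q.mem_nhds (by simpa using hq))
    obtain ⟨ε, hε, hb⟩ := Metric.eventually_nhds_iff.1 (ev.and ev2)
    have key : ∀ t, |t - t₀| < ε →
        orbG T (γ t) = ((γ t₀).2 + (t - t₀) • dir (γ t₀).1.1, (γ t₀).1.1) := by
      intro t ht
      obtain ⟨a1, a2⟩ := hb (y := t - t₀) (by rwa [dist_zero_right, Real.norm_eq_abs])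
      rw [add_sub_cancel] at a1
      have a3 : (tr ((t - t₀) • (1 : ℂ)) (γ t₀)).2 ∈ T.Q := by rw [orb_tr]; exact a2
      rw [a1, Tri.ell, T.fold_of_mem (T.mem_M₀_of_Q a3).1, orbG_of_Q a3, orb_tr]
    rw [orbG_of_Q hq]
    refine ⟨ε, hε, (γ t₀).1.1, fun t ht => key t ?_, fun t ht => key t ?_, Or.inl ⟨hQ ▸ hq, rfl⟩⟩
    · exact abs_lt.2 ⟨by linarith [ht.1], by linarith [ht.2]⟩
    · exact abs_lt.2 ⟨by linarith [ht.1], by linarith [ht.2]⟩
  · obtain ⟨i, hi0⟩ : ∃ i, T.δ i (γ t₀).2 ≤ 0 := by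
      by_contra hc
      push Not at hc
      exact hq hc
    have h0 : T.δ i (γ t₀).2 = 0 := le_antisymm hi0 (T.geo_nonneg (hz.1 i))
    have hε : (γ t₀).1.2 = true := by
      by_contra hc
      exact hz.1 i (Or.inr ⟨h0, by simpa using hc⟩)
    have hi : ∀ j, j ≠ i → T.d (γ t₀).2 ≤ T.δ j (γ t₀).2 := fun j hj => by
      rcases le_max_iff.1 (T.geo_d_le_max (γ t₀).2 hj) with a | a
      · exact a
      · linarith [hz.2]
    have hp : ∀ j, j ≠ i → 0 < T.δ j (γ t₀).2 := fun j hj => hz.2.trans_le (hi j hj)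
    obtain ⟨j, k, hjk, hx, hsp⟩ := hside i _ h0 hp
    obtain ⟨ε₁, hε₁, hb⟩ := Metric.eventually_nhds_iff.1 ev
    have key : ∀ t, t₀ - min ε₁ (T.d (γ t₀).2) < t → t < t₀ + min ε₁ (T.d (γ t₀).2) →
        ((t - t₀) * (conj (T.n i) * dir (γ t₀).1.1).re < 0 → orbG T (γ t) =
          ((γ t₀).2 + (t - t₀) • dir (T.κ i - (γ t₀).1.1), T.κ i - (γ t₀).1.1)) ∧
        (0 ≤ (t - t₀) * (conj (T.n i) * dir (γ t₀).1.1).re →
          0 ≤ (conj (T.n i) * dir (γ t₀).1.1).re ∨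
            0 < (t - t₀) * (conj (T.n i) * dir (γ t₀).1.1).re →
          orbG T (γ t) = ((γ t₀).2 + (t - t₀) • dir (γ t₀).1.1, (γ t₀).1.1)) := by
      intro t t1 t2
      have a0 : |t - t₀| < min ε₁ (T.d (γ t₀).2) := abs_lt.2 ⟨by linarith, by linarith⟩
      have a1 := hb (y := t - t₀) (by
        rw [dist_zero_right, Real.norm_eq_abs]; exact a0.trans_le (min_le_left _ _))
      rw [add_sub_cancel] at a1
      rw [a1]
      exact orb_side hε h0 hi (a0.trans_le (min_le_right _ _))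
    refine ⟨min ε₁ (T.d (γ t₀).2), lt_min hε₁ hz.2, ?_⟩
    have hm : 0 < min ε₁ (T.d (γ t₀).2) := lt_min hε₁ hz.2
    rcases lt_trichotomy (conj (T.n i) * dir (γ t₀).1.1).re 0 with ha | ha | ha
    · have g := orbG_neg h0 hp ha
      rw [g]
      refine ⟨(γ t₀).1.1, fun t ht => ?_, fun t ht => ?_, Or.inr ⟨j, k, hjk, hx, ?_⟩⟩
      · have := mul_pos_of_neg_of_neg (sub_neg.2 ht.2) ha
        exact (key t ht.1 (by linarith [ht.2])).2 this.le (Or.inr this)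
      · rcases ht.1.eq_or_lt with rfl | a
        · rw [g]; simp
        · exact (key t (by linarith) ht.2).1 (mul_neg_of_pos_of_neg (sub_pos.2 a) ha)
      · rw [hsp]; exact orb_dir_refl T i _
    · rw [orbG_nonneg hp ha.ge]
      refine ⟨(γ t₀).1.1, fun t ht => ?_, fun t ht => ?_, Or.inr ⟨j, k, hjk, hx, ?_⟩⟩
      · exact (key t ht.1 (by linarith [ht.2])).2 (by rw [ha, mul_zero]) (Or.inl ha.ge)
      · exact (key t (by linarith [ht.1]) ht.2).2 (by rw [ha, mul_zero]) (Or.inl ha.ge)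
      · rw [hsp, ha]; simp
    · rw [orbG_nonneg hp ha.le]
      refine ⟨T.κ i - (γ t₀).1.1, fun t ht => ?_, fun t ht => ?_, Or.inr ⟨j, k, hjk, hx, ?_⟩⟩
      · exact (key t ht.1 (by linarith [ht.2])).1 (mul_neg_of_neg_of_pos (sub_neg.2 ht.2) ha)
      · exact (key t (by linarith [ht.1]) ht.2).2 (mul_nonneg (sub_nonneg.2 ht.1) ha.le)
          (Or.inl ha.le)
      · rw [hsp, ← orb_dir_refl, sub_sub_cancel]

end Vale.Agent.P099
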