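import Vale.Agent.P099.Prod
import Vale.Agent.P099.Flow
import Vale.Agent.P099.Hol
import Vale.Agent.P099.Orbit

/-! Assembly. -/

namespace Vale.Agent.P099

open MeasureTheory

/-- forgetting the orientation -/
def proj (z : Fr) : ℂ × UnitAddCircle := (z.2, z.1.1)

theorem measurable_proj : Measurable proj := by
  unfold proj
  fun_prop

theorem proj_mp {P : Fin 3 → ℂ} {T : Tri} (hQ : T.Q = table P) :
    MeasurePreserving proj T.μ (liouville P) := by
  have h0 := T.volume_Q_ne_zero
  have h1 := T.volume_Q_ne_top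
  haveI : IsProbabilityMeasure ((2⁻¹ : ENNReal) • (Measure.dirac true + Measure.dirac false)) :=
    ⟨by simp [ENNReal.inv_two_add_inv_two, mul_add]⟩
  haveI : IsFiniteMeasure ((volume T.Q)⁻¹ • volume.restrict T.Q) :=
    ⟨by simp [ENNReal.inv_mul_cancel h0 h1]⟩
  have h2 : MeasurePreserving (Prod.fst : UnitAddCircle × Bool → UnitAddCircle) frM volume :=
    measurePreserving_fst
  rw [liouville, ← hQ]
  exact Measure.measurePreserving_swap.comp (h2.prod (MeasurePreserving.id _))

theorem sec_qmp {P : Fin 3 → ℂ} {T : Tri} (hQ : T.Q = table P) :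
    Measure.QuasiMeasurePreserving (fun w : ℂ × UnitAddCircle => (((w.2, true), w.1) : Fr))
      (liouville P) T.μ := by
  have h0 := T.volume_Q_ne_zero
  have h1 := T.volume_Q_ne_top
  haveI : IsFiniteMeasure ((volume T.Q)⁻¹ • volume.restrict T.Q) :=
    ⟨by simp [ENNReal.inv_mul_cancel h0 h1]⟩
  have h2 : Measure.QuasiMeasurePreserving (fun θ : UnitAddCircle => (θ, true)) volume frM := by
    refine ⟨by fun_prop, ?_⟩
    rw [← Measure.prod_dirac]
    refine Measure.AbsolutelyContinuous.rfl.prod ?_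
    refine Measure.AbsolutelyContinuous.mk fun s _ hs => ?_
    simp only [Measure.smul_apply, Measure.add_apply, smul_eq_mul, mul_eq_zero, add_eq_zero,
      ENNReal.inv_eq_zero] at hs
    exact (hs.resolve_left (by simp)).1
  rw [liouville, ← hQ]
  exact (MeasureTheory.QuasiMeasurePreserving.prodMap h2
    (Measure.QuasiMeasurePreserving.id _)).comp Measure.measurePreserving_swap.quasiMeasurePreserving

theorem flow_eq {P : Fin 3 → ℂ} (hP : AffineIndependent ℝ P) {γ : ℝ → ℂ × UnitAddCircle}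
    (h : IsOrbit P γ) (t : ℝ) : flow P t (γ 0) = γ t := by
  have h1 : ∃ γ', IsOrbit P γ' ∧ γ' 0 = γ 0 := ⟨γ, h, rfl⟩
  rw [flow, dif_pos h1, h1.choose_spec.1.unique hP h h1.choose_spec.2]

theorem main {P : Fin 3 → ℂ} (hP : AffineIndependent ℝ P) (hirr : ¬IsRational P) :
    IsProbabilityMeasure (liouville P) ∧
    (∀ᵐ z ∂liouville P, ∃! γ, IsOrbit P γ ∧ γ 0 = z) ∧
    (∀ t, AEMeasurable (flow P t) (liouville P) ∧ (liouville P).map (flow P t) = liouville P) ∧
    IsErgodicFlow (flow P) (liouville P) ∧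
    IsErgodicFlow (fun t => Prod.map (flow P t) (flow P t)) ((liouville P).prod (liouville P)) := by
  obtain ⟨T, hQ, hside, -, hκ⟩ := exists_tri hP
  obtain ⟨L, hL⟩ := T.exists_locE
  have hπ := proj_mp hQ
  have hs := sec_qmp hQ
  haveI hprob : IsProbabilityMeasure (liouville P) :=
    hπ.map_eq ▸ Measure.isProbabilityMeasure_map hπ.aemeasurable
  have key : ∀ t : ℝ, ∀ᵐ z ∂T.μ, (∃ γ, IsOrbit P γ ∧ γ 0 = proj z) ∧
      flow P t (proj z) = proj (L.τ t z) := by
    intro t
    filter_upwards [hL 1 t, T.ae_mem_Q, (L.τ_mp t).quasiMeasurePreserving.ae T.ae_mem_Q]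
      with z ⟨γ, h1, h2, h3⟩ h4 h5
    obtain ⟨γ', h6, h7⟩ := exists_orbit hQ hside h1
    rw [Complex.real_smul, mul_one] at h3
    have h8 : γ' 0 = proj z := by rw [h7 0 (h2 ▸ h4), h2, proj]
    refine ⟨⟨γ', h6, h8⟩, ?_⟩
    rw [← h8, flow_eq hP h6, h7 t (h3 ▸ h5), h3, proj]
  have wm : IsErgodicFlow (fun t => Prod.map (flow P t) (flow P t))
      ((liouville P).prod (liouville P)) := by
    intro A hA hinv
    have hππ := hπ.prod hπ
    have := L.prod_erg (T.hol_erg (hκ hirr) L.τ L.τ_mp fun y => by simpa using hL y 1)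
      (A := Prod.map proj proj ⁻¹' A) (hππ.measurable hA) fun t => by
        have h1 := hππ.quasiMeasurePreserving.ae (measure_eq_zero_iff_ae_notMem.1 (hinv t))
        filter_upwards [h1, Measure.quasiMeasurePreserving_fst.ae (key t),
          Measure.quasiMeasurePreserving_snd.ae (key t)] with z h2 h3 h4
        simp only [Set.mem_symmDiff, Set.mem_preimage, Prod.map, h3.2, h4.2] at h2 ⊢
        tauto
    rwa [hππ.measure_preimage hA.nullMeasurableSet] at this
  have hm : ∀ t, AEMeasurable (flow P t) (liouville P) := fun t => by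
    refine AEMeasurable.congr
      ((measurable_proj.comp (L.τ_mp t).measurable).comp hs.measurable).aemeasurable ?_
    filter_upwards [hs.ae (key t)] with w hw using hw.2.symm
  refine ⟨hprob, ?_, fun t => ⟨hm t, ?_⟩, fun A hA hinv => ?_, wm⟩
  · filter_upwards [hs.ae (key 0)] with w ⟨⟨γ, h1, h2⟩, _⟩
    exact ⟨γ, ⟨h1, h2⟩, fun γ' h => h.1.unique hP h1 (h.2.trans h2.symm)⟩
  · have h1 : AEMeasurable (flow P t) (T.μ.map proj) := hπ.map_eq.symm ▸ hm t
    conv_lhs => rw [← hπ.map_eq]
    rw [AEMeasurable.map_map_of_aemeasurable h1 hπ.aemeasurable,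
      Measure.map_congr (f := flow P t ∘ proj) (g := proj ∘ L.τ t)
        ((key t).mono fun z hz => hz.2)]
    exact (hπ.comp (L.τ_mp t)).map_eq
  · have := wm (A ×ˢ Set.univ) (hA.prod MeasurableSet.univ) fun t => by
      have h1 : symmDiff (Prod.map (flow P t) (flow P t) ⁻¹' A ×ˢ Set.univ) (A ×ˢ Set.univ) =
          symmDiff (flow P t ⁻¹' A) A ×ˢ (Set.univ : Set (ℂ × UnitAddCircle)) := by
        ext w
        simp [Set.mem_symmDiff]
      rw [h1, Measure.prod_prod, hinv t, zero_mul]
    simpa using this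

end Vale.Agent.P099
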