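import Vale.Agent.P099.Geo

/-! Measure theory of the folding maps. -/

namespace Vale.Agent.P099

open MeasureTheory Set ComplexConjugate

instance meas_bool_prob : IsProbabilityMeasure
    ((2⁻¹ : ENNReal) • (Measure.dirac true + Measure.dirac false)) :=
  ⟨by simp [ENNReal.inv_two_add_inv_two]⟩

instance frM_prob : IsProbabilityMeasure frM := by
  have : IsProbabilityMeasure (volume : Measure UnitAddCircle) := ⟨UnitAddCircle.measure_univ⟩
  unfold frM
  infer_instance

theorem meas_act (y : ℂ) : Continuous fun g : UnitAddCircle × Bool => act g y :=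
  (continuous_dir.comp continuous_fst).mul
    ((continuous_of_discreteTopology (f := fun b : Bool => if b then y else conj y)).comp
      continuous_snd)

theorem meas_tr_mp (y : ℂ) : MeasurePreserving (tr y) (frM.prod volume) (frM.prod volume) :=
  (MeasurePreserving.id frM).skew_product (g := fun g x => x + act g y)
    (measurable_snd.add ((meas_act y).measurable.comp measurable_fst))
    (Filter.Eventually.of_forall fun g => (measurePreserving_add_right volume (act g y)).map_eq)

theorem meas_shr_ite {M : Type} [MeasurableSpace M] {ν : Measure M} {f g : M → M} {p : M → Prop}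
    [DecidablePred p] (hp : MeasurableSet {z | p z})
    (hf : ∀ X, MeasurableSet X → ν (f '' X) ≤ ν X) (hg : ∀ X, MeasurableSet X → ν (g '' X) ≤ ν X) :
    ∀ X, MeasurableSet X → ν ((fun z => if p z then f z else g z) '' X) ≤ ν X := by
  intro X hX
  have hs : (fun z => if p z then f z else g z) '' X ⊆
      f '' (X ∩ {z | p z}) ∪ g '' (X \ {z | p z}) := by
    rintro _ ⟨z, hz, rfl⟩
    by_cases h : p z
    · exact Or.inl ⟨z, ⟨hz, h⟩, (if_pos h).symm⟩
    · exact Or.inr ⟨z, ⟨hz, h⟩, (if_neg h).symm⟩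
  refine (measure_mono hs).trans ((measure_union_le _ _).trans ?_)
  rw [← measure_inter_add_sdiff X hp]
  exact add_le_add (hf _ (hX.inter hp)) (hg _ (hX.diff hp))

namespace Tri

variable (T : Tri)

theorem meas_conj_mul (i : Fin 3) : conj (T.n i) * T.n i = 1 := by
  rw [Complex.conj_mul', T.norm_n]
  simp

theorem volume_Q_ne_zero : volume T.Q ≠ 0 := by
  refine (T.isOpen_Q.measure_pos volume ?_).ne'
  obtain ⟨x, h0, h1⟩ := T.side 0
  have a1 : 0 < T.δ 1 x := sub_pos.2 (h1 1 (by decide))
  have a2 : 0 < T.δ 2 x := sub_pos.2 (h1 2 (by decide))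
  have a0 : T.δ 0 x = 0 := sub_eq_zero.2 h0
  obtain ⟨ε, hε, e1, e2⟩ : ∃ ε : ℝ, 0 < ε ∧ ε < T.δ 1 x ∧ ε < T.δ 2 x :=
    ⟨min (T.δ 1 x) (T.δ 2 x) / 2, by positivity, by linarith [min_le_left (T.δ 1 x) (T.δ 2 x)],
      by linarith [min_le_right (T.δ 1 x) (T.δ 2 x)]⟩
  have hn : ‖x + ε • T.n 0 - x‖ = ε := by
    rw [add_sub_cancel_left, norm_smul, T.norm_n, mul_one, Real.norm_of_nonneg hε.le]
  refine ⟨x + ε • T.n 0, fun i => ?_⟩
  have hi := T.abs_δ_sub i (x + ε • T.n 0) x
  rw [hn, abs_le] at hi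
  fin_cases i
  · change 0 < T.δ 0 _
    rw [T.δ_add, a0, mul_smul_comm, T.meas_conj_mul]
    simpa using hε
  · change 0 < T.δ 1 _
    have : -ε ≤ T.δ 1 (x + ε • T.n 0) - T.δ 1 x := hi.1
    linarith
  · change 0 < T.δ 2 _
    have : -ε ≤ T.δ 2 (x + ε • T.n 0) - T.δ 2 x := hi.1
    linarith

theorem volume_Q_ne_top : volume T.Q ≠ ⊤ := by
  have : T.Q = {x : ℂ | ∀ i, T.c i < (conj (T.n i) * x).re} := by
    ext x
    simp only [Q, δ, mem_ofPred_eq, sub_pos]
  rw [this]
  exact T.bdd.measure_lt_top.ne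

instance meas_Q_prob : IsProbabilityMeasure ((volume T.Q)⁻¹ • volume.restrict T.Q) :=
  ⟨by simp [ENNReal.inv_mul_cancel T.volume_Q_ne_zero T.volume_Q_ne_top]⟩

instance μ_prob : IsProbabilityMeasure T.μ := by
  unfold μ
  infer_instance

theorem ae_mem_Q : ∀ᵐ z ∂T.μ, z.2 ∈ T.Q :=
  Measure.quasiMeasurePreserving_snd.ae
    (Measure.ae_smul_measure (ae_restrict_mem T.isOpen_Q.measurableSet) _)

/-- the reflection on frames preserves the uniform measure -/
theorem refl_mp (i : Fin 3) :
    MeasurePreserving (fun g : UnitAddCircle × Bool => (T.κ i - g.1, !g.2)) frM frM := by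
  have h : MeasurePreserving (fun b : Bool => !b)
      ((2⁻¹ : ENNReal) • (Measure.dirac true + Measure.dirac false))
      ((2⁻¹ : ENNReal) • (Measure.dirac true + Measure.dirac false)) := by
    refine ⟨measurable_of_countable _, ?_⟩
    rw [Measure.map_smul, Measure.map_add _ _ (measurable_of_countable _),
      Measure.map_dirac, Measure.map_dirac, add_comm]
    rfl
  exact (Measure.measurePreserving_sub_left volume (T.κ i)).prod h

theorem meas_refl_eq (i : Fin 3) (x : ℂ) :
    x - (2 * T.δ i x) • T.n i = dir (T.κ i) * conj x + (2 * T.c i) • T.n i := by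
  have h := T.meas_conj_mul i
  have h2 : (((conj (T.n i) * x).re : ℝ) : ℂ) * 2 = conj (T.n i) * x + T.n i * conj x := by
    rw [Complex.re_eq_add_conj]
    simp
  rw [T.dir_κ, δ, Complex.real_smul, Complex.real_smul]
  push_cast
  linear_combination (-T.n i) * h2 - x * h

theorem meas_refl_mp (i : Fin 3) :
    MeasurePreserving (T.refl i) (frM.prod volume) (frM.prod volume) := by
  have h1 := (measurePreserving_add_right (volume : Measure ℂ) ((2 * T.c i) • T.n i)).comp
    ((rotation (AddCircle.toCircle (T.κ i))).measurePreserving.comp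
      Complex.conjLIE.measurePreserving)
  have h2 : MeasurePreserving (fun x : ℂ => x - (2 * T.δ i x) • T.n i) volume volume := by
    rw [funext (T.meas_refl_eq i)]
    exact h1
  exact (T.refl_mp i).prod h2

theorem meas_out (i : Fin 3) : MeasurableSet {z | T.Out i z} := by
  have h : Measurable fun z : Fr => T.δ i z.2 := (T.continuous_δ i).measurable.comp measurable_snd
  exact (measurableSet_lt h measurable_const).union
    ((measurableSet_eq_fun h measurable_const).inter
      (measurableSet_eq_fun measurable_fst.snd measurable_const))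

theorem measurable_ell (y : ℂ) : Measurable (T.ell y) := by
  classical
  have h : Measurable T.fold :=
    Measurable.ite (T.meas_out 0) (T.meas_refl_mp 0).measurable
      (Measurable.ite (T.meas_out 1) (T.meas_refl_mp 1).measurable
        (Measurable.ite (T.meas_out 2) (T.meas_refl_mp 2).measurable measurable_id))
  exact h.comp (meas_tr_mp y).measurable

theorem measurableSet_M₀ : MeasurableSet T.M₀ := by
  have : T.M₀ = (⋂ i, {z | T.Out i z}ᶜ) ∩ {z | 0 < T.d z.2} := by
    ext z
    simp [M₀]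
  rw [this]
  exact (MeasurableSet.iInter fun i => (T.meas_out i).compl).inter
    (measurableSet_lt measurable_const (T.continuous_d.measurable.comp measurable_snd))

theorem rot_mp (θ : UnitAddCircle) : MeasurePreserving (rot θ) T.μ T.μ := by
  have h1 := (MeasurePreserving.id
      ((2⁻¹ : ENNReal) • (Measure.dirac true + Measure.dirac false))).skew_product
    (μc := (volume : Measure UnitAddCircle)) (μd := volume)
    (g := fun b a => a + (if b then θ else -θ))
    (measurable_snd.add
      ((measurable_of_countable fun b : Bool => if b then θ else -θ).comp measurable_fst))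
    (Filter.Eventually.of_forall fun b => (measurePreserving_add_right volume _).map_eq)
  have h2 : MeasurePreserving
      (fun g : UnitAddCircle × Bool => (g.1 + (if g.2 then θ else -θ), g.2)) frM frM :=
    Measure.measurePreserving_swap.comp (h1.comp Measure.measurePreserving_swap)
  exact h2.prod (MeasurePreserving.id _)

theorem meas_mu (S : Set Fr) :
    T.μ S = (volume T.Q)⁻¹ * (frM.prod volume) (S ∩ univ ×ˢ T.Q) := by
  rw [μ, Measure.prod_smul_right, ← Measure.restrict_univ (μ := frM), Measure.prod_restrict,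
    Measure.restrict_univ, Measure.smul_apply,
    Measure.restrict_apply' (MeasurableSet.univ.prod T.isOpen_Q.measurableSet), smul_eq_mul]

theorem meas_vertex {i j : Fin 3} (hij : i ≠ j) {x : ℂ} {r : ℝ} (hx : x ∈ T.Q)
    (hi : T.δ i x ≤ r) (hj : T.δ j x ≤ r) :
    ‖x - Complex.I * (T.n i * T.c j - T.n j * T.c i) / (conj (T.n i) * T.n j).im‖ ≤
      2 / |(conj (T.n i) * T.n j).im| * r := by
  have hs := T.indep i j hij
  have hs' : (((conj (T.n i) * T.n j).im : ℝ) : ℂ) ≠ 0 := by exact_mod_cast hs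
  have e : x - Complex.I * (T.n i * T.c j - T.n j * T.c i) / (conj (T.n i) * T.n j).im =
      Complex.I * (T.n i * T.δ j x - T.n j * T.δ i x) / (conj (T.n i) * T.n j).im := by
    rw [eq_div_iff hs', sub_mul, div_mul_cancel₀ _ hs']
    apply Complex.ext <;> simp [δ] <;> ring
  rw [e, norm_div, norm_mul, Complex.norm_I, one_mul, Complex.norm_real, Real.norm_eq_abs,
    div_mul_eq_mul_div]
  refine div_le_div_of_nonneg_right ((norm_sub_le _ _).trans ?_) (abs_nonneg _)
  rw [norm_mul, norm_mul, T.norm_n, T.norm_n, Complex.norm_real, Complex.norm_real,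
    Real.norm_of_nonneg (hx i).le, Real.norm_of_nonneg (hx j).le]
  linarith

theorem small : ∃ C : ℝ, ∀ r, 0 < r → T.μ {z | T.d z.2 ≤ r} ≤ ENNReal.ofReal (C * r ^ 2) := by
  let K : Fin 3 × Fin 3 → ℝ := fun p => 2 / |(conj (T.n p.1) * T.n p.2).im|
  let v : Fin 3 × Fin 3 → ℂ := fun p =>
    Complex.I * (T.n p.1 * T.c p.2 - T.n p.2 * T.c p.1) / (conj (T.n p.1) * T.n p.2).im
  have hK : ∀ p, 0 ≤ K p := fun p => by positivity
  refine ⟨((volume T.Q)⁻¹).toReal * ∑ p, K p ^ 2 * Real.pi, fun r hr => ?_⟩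
  have hs : {z : Fr | T.d z.2 ≤ r} ∩ univ ×ˢ T.Q ⊆
      univ ×ˢ ⋃ p, Metric.closedBall (v p) (K p * r) := by
    rintro z ⟨h1, -, h2⟩
    have h3 : ¬ ∀ i j, i ≠ j → r < T.δ i z.2 ∨ r < T.δ j z.2 :=
      fun h => absurd ((T.lt_d_iff r z.2).2 h) (not_lt.2 h1)
    push Not at h3
    obtain ⟨i, j, hij, hi, hj⟩ := h3
    refine ⟨trivial, mem_iUnion.2 ⟨(i, j), ?_⟩⟩
    rw [mem_closedBall_iff_norm]
    exact T.meas_vertex hij h2 hi hj
  have h1 : (frM.prod volume) ({z : Fr | T.d z.2 ≤ r} ∩ univ ×ˢ T.Q) ≤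
      ENNReal.ofReal ((∑ p, K p ^ 2 * Real.pi) * r ^ 2) := by
    refine (measure_mono hs).trans ?_
    rw [Measure.prod_prod, measure_univ, one_mul]
    refine (measure_iUnion_fintype_le _ _).trans (le_of_eq ?_)
    rw [Finset.sum_mul, ENNReal.ofReal_sum_of_nonneg (fun p _ => by positivity)]
    refine Finset.sum_congr rfl fun p _ => ?_
    rw [Complex.volume_closedBall, ← ENNReal.ofReal_pow (mul_nonneg (hK p) hr.le),
      ← ENNReal.ofReal_coe_nnreal, ← ENNReal.ofReal_mul (by positivity), NNReal.coe_real_pi]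
    congr 1
    ring
  rw [T.meas_mu, mul_assoc, ENNReal.ofReal_mul ENNReal.toReal_nonneg,
    ENNReal.ofReal_toReal (ENNReal.inv_ne_top.2 T.volume_Q_ne_zero)]
  exact mul_le_mul_right h1 _

theorem meas_line (i : Fin 3) : volume {x | T.δ i x = 0} = 0 := by
  let s : AffineSubspace ℝ ℂ :=
    ⟨{x | T.δ i x = 0}, by
      intro c p₁ p₂ p₃ h1 h2 h3
      simp only [mem_ofPred_eq, δ] at h1 h2 h3 ⊢
      simp only [vsub_eq_sub, vadd_eq_add, mul_add, mul_smul_comm, mul_sub, Complex.add_re,
        Complex.smul_re, Complex.sub_re, smul_eq_mul]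
      linear_combination c * h1 - c * h2 + h3⟩
  refine Measure.addHaar_affineSubspace volume s fun h => ?_
  have h0 : (0 : ℂ) ∈ s := by rw [h]; trivial
  have h1 : (0 : ℂ) + T.n i ∈ s := by rw [h]; trivial
  change T.δ i 0 = 0 at h0
  change T.δ i _ = 0 at h1
  rw [T.δ_add, h0, T.meas_conj_mul] at h1
  simp at h1

theorem meas_fold {X : Set Fr} (hX : MeasurableSet X) :
    (frM.prod volume) (T.fold '' X) ≤ (frM.prod volume) X := by
  classical
  have hr : ∀ i X, MeasurableSet X → (frM.prod volume) (T.refl i '' X) ≤ (frM.prod volume) X := by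
    intro i X hX
    rw [← (T.meas_refl_mp i).measure_preimage hX.nullMeasurableSet]
    refine measure_mono ?_
    rintro _ ⟨z, hz, rfl⟩
    rw [mem_preimage, T.refl_refl]
    exact hz
  exact meas_shr_ite (T.meas_out 0) (hr 0) (meas_shr_ite (T.meas_out 1) (hr 1)
    (meas_shr_ite (T.meas_out 2) (hr 2) (g := fun z => z) fun X _ => by simp)) X hX

/-- the local maps do not increase measure -/
theorem subinv (y : ℂ) {A : Set Fr} (hA : MeasurableSet A) :
    T.μ ({z | z ∈ T.M₀ ∧ 2 * ‖y‖ < T.d z.2} ∩ T.ell y ⁻¹' A) ≤ T.μ A := by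
  rw [T.meas_mu, T.meas_mu]
  refine mul_le_mul_right ?_ _
  have hB : MeasurableSet (A ∩ T.M₀) := hA.inter T.measurableSet_M₀
  have hs : {z | z ∈ T.M₀ ∧ 2 * ‖y‖ < T.d z.2} ∩ T.ell y ⁻¹' A ∩ univ ×ˢ T.Q ⊆
      T.fold '' (tr y ⁻¹' (A ∩ T.M₀)) := by
    rintro z ⟨⟨⟨h1, h2⟩, h3⟩, -⟩
    refine ⟨tr (-y) (T.ell y z), ?_, ?_⟩
    · rw [mem_preimage, tr_tr, neg_add_cancel, tr_zero]
      exact ⟨h3, T.ell_mem h1 (by linarith [norm_nonneg y])⟩
    · change T.ell (-y) (T.ell y z) = z
      rw [T.ell_add h1 (by rw [norm_neg]; linarith), add_neg_cancel, T.ell_zero h1]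
  refine (measure_mono hs).trans ((T.meas_fold ((meas_tr_mp y).measurable hB)).trans ?_)
  rw [(meas_tr_mp y).measure_preimage hB.nullMeasurableSet]
  refine measure_mono_ae ?_
  have hl : ∀ᵐ x ∂(volume : Measure ℂ), ∀ i, T.δ i x ≠ 0 :=
    ae_all_iff.2 fun i => measure_eq_zero_iff_ae_notMem.1 (T.meas_line i)
  filter_upwards [(Measure.quasiMeasurePreserving_snd (μ := frM)).ae hl] with z hz hz'
  refine ⟨hz'.1, trivial, fun i => lt_of_le_of_ne ?_ (hz i).symm⟩
  exact not_lt.1 fun h => hz'.2.1 i (Or.inl h)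

end Tri

end Vale.Agent.P099
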