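import Vale.Agent.P099.Koop
import Vale.Agent.P099.Geo

/-! The product flow. -/

namespace Vale.Agent.P099

open MeasureTheory Filter Topology Set ComplexConjugate

section

variable {M : Type} [TopologicalSpace M] [MeasurableSpace M] {μ : Measure M}

/-- the product of two local actions -/
def LocE.prodL [IsProbabilityMeasure μ] (L K : LocE M μ) : LocE (M × M) (μ.prod μ) where
  τ y z := (L.τ y z.1, K.τ y z.2)
  R θ z := (L.R θ z.1, K.R θ z.2)
  d z := min (L.d z.1) (K.d z.2)
  τ_mp y := (L.τ_mp y).prod (K.τ_mp y)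
  R_mp θ := (L.R_mp θ).prod (K.R_mp θ)
  d_meas := (L.d_meas.comp measurable_fst).min (K.d_meas.comp measurable_snd)
  τ_zero := by
    filter_upwards [Measure.quasiMeasurePreserving_fst.ae L.τ_zero,
      Measure.quasiMeasurePreserving_snd.ae K.τ_zero] with z h1 h2
    rw [h1, h2]
  τ_add y s t := by
    filter_upwards [Measure.quasiMeasurePreserving_fst.ae (L.τ_add y s t),
      Measure.quasiMeasurePreserving_snd.ae (K.τ_add y s t)] with z h1 h2
    rw [h1, h2]
  R_zero z := by rw [L.R_zero, K.R_zero]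
  R_add θ θ' z := by rw [L.R_add, K.R_add]
  τ_R θ y := by
    filter_upwards [Measure.quasiMeasurePreserving_fst.ae (L.τ_R θ y),
      Measure.quasiMeasurePreserving_snd.ae (K.τ_R θ y)] with z h1 h2
    rw [h1, h2]
  d_R θ z := by rw [L.d_R, K.d_R]
  τ_cont y hy := by
    filter_upwards [Measure.quasiMeasurePreserving_fst.ae (L.τ_cont y hy),
      Measure.quasiMeasurePreserving_snd.ae (K.τ_cont y hy)] with z h1 h2
    exact h1.prodMk_nhds h2
  R_cont z := (L.R_cont z.1).prodMk_nhds (K.R_cont z.2)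
  lip y := by
    filter_upwards [Measure.quasiMeasurePreserving_fst.ae (L.lip y),
      Measure.quasiMeasurePreserving_snd.ae (K.lip y)] with z h1 h2 h
    have a1 := h1 (h.trans_le (min_le_left _ _))
    have a2 := h2 (h.trans_le (min_le_right _ _))
    exact le_min (by linarith [min_le_left (L.d z.1) (K.d z.2)])
      (by linarith [min_le_right (L.d z.1) (K.d z.2)])
  loc y y' := by
    filter_upwards [Measure.quasiMeasurePreserving_fst.ae (L.loc y y'),
      Measure.quasiMeasurePreserving_snd.ae (K.loc y y')] with z h1 h2 h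
    rw [h1 (h.trans_le (min_le_left _ _)), h2 (h.trans_le (min_le_right _ _))]
  small := by
    obtain ⟨C, hC⟩ := L.small
    obtain ⟨D, hD⟩ := K.small
    refine ⟨|C| + |D|, fun r hr => ?_⟩
    have hs : {z : M × M | min (L.d z.1) (K.d z.2) ≤ r} ⊆
        {z | L.d z ≤ r} ×ˢ univ ∪ univ ×ˢ {z | K.d z ≤ r} := by
      intro z hz
      rcases min_le_iff.1 (show min (L.d z.1) (K.d z.2) ≤ r from hz) with h | h
      · exact Or.inl ⟨h, trivial⟩
      · exact Or.inr ⟨trivial, h⟩
    refine (measure_mono hs).trans ((measure_union_le _ _).trans ?_)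
    rw [Measure.prod_prod, Measure.prod_prod, measure_univ, mul_one, one_mul, add_mul,
      ENNReal.ofReal_add (by positivity) (by positivity)]
    exact add_le_add
      ((hC r hr).trans (ENNReal.ofReal_le_ofReal
        (mul_le_mul_of_nonneg_right (le_abs_self C) (by positivity))))
      ((hD r hr).trans (ENNReal.ofReal_le_ofReal
        (mul_le_mul_of_nonneg_right (le_abs_self D) (by positivity))))

/-- the mirror image of a local action -/
noncomputable def LocE.conjL (L : LocE M μ) : LocE M μ where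
  τ y := L.τ (conj y)
  R θ := L.R (-θ)
  d := L.d
  τ_mp y := L.τ_mp _
  R_mp θ := L.R_mp _
  d_meas := L.d_meas
  τ_zero := by simpa using L.τ_zero
  τ_add y s t := by
    have e : ∀ u : ℝ, conj (u • y) = u • conj y := fun u => by simp
    simpa only [e] using L.τ_add (conj y) s t
  R_zero z := by rw [neg_zero, L.R_zero]
  R_add θ θ' z := by rw [neg_add, L.R_add]
  τ_R θ y := by simpa only [map_mul, dir_neg] using L.τ_R (-θ) (conj y)
  d_R θ z := L.d_R _ _
  τ_cont y hy := L.τ_cont _ (by
    simpa [Function.comp_def] using (Complex.continuous_conj.tendsto 0).comp hy)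
  R_cont z := (L.R_cont z).comp (by simpa using (continuous_neg (G := UnitAddCircle)).tendsto 0)
  lip y := by simpa only [Complex.norm_conj] using L.lip (conj y)
  loc y y' := by simpa only [Complex.norm_conj, map_add] using L.loc (conj y) (conj y')
  small := L.small

/-- the local action turned by a right angle -/
noncomputable def LocE.rotL (L : LocE M μ) : LocE M μ where
  τ y := L.τ (Complex.I * y)
  R := L.R
  d := L.d
  τ_mp y := L.τ_mp _
  R_mp := L.R_mp
  d_meas := L.d_meas
  τ_zero := by simpa using L.τ_zero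
  τ_add y s t := by simpa only [mul_smul_comm] using L.τ_add (Complex.I * y) s t
  R_zero := L.R_zero
  R_add := L.R_add
  τ_R θ y := by simpa only [mul_left_comm Complex.I] using L.τ_R θ (Complex.I * y)
  d_R := L.d_R
  τ_cont y hy := L.τ_cont _ (by simpa using hy.const_mul Complex.I)
  R_cont := L.R_cont
  lip y := by simpa only [norm_mul, Complex.norm_I, one_mul] using L.lip (Complex.I * y)
  loc y y' := by
    simpa only [norm_mul, Complex.norm_I, one_mul, mul_add] using
      L.loc (Complex.I * y) (Complex.I * y')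
  small := L.small

/-- the trivial local action -/
def LocE.trivL (μ : Measure M) [IsProbabilityMeasure μ] : LocE M μ where
  τ _ z := z
  R _ z := z
  d _ := 1
  τ_mp _ := MeasurePreserving.id μ
  R_mp _ := MeasurePreserving.id μ
  d_meas := measurable_const
  τ_zero := Eventually.of_forall fun _ => rfl
  τ_add _ _ _ := Eventually.of_forall fun _ => rfl
  R_zero _ := rfl
  R_add _ _ _ := rfl
  τ_R _ _ := Eventually.of_forall fun _ => rfl
  d_R _ _ := rfl
  τ_cont _ _ := Eventually.of_forall fun _ => tendsto_const_nhds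
  R_cont _ := tendsto_const_nhds
  lip y := Eventually.of_forall fun _ _ => by linarith [norm_nonneg y]
  loc _ _ := Eventually.of_forall fun _ _ => rfl
  small := ⟨1, fun r hr => by
    by_cases h : 1 ≤ r
    · exact prob_le_one.trans (ENNReal.one_le_ofReal.2 (by nlinarith))
    · simp [h]⟩

omit [TopologicalSpace M] in
theorem prod_rect [IsProbabilityMeasure μ] {τ : ℂ → M → M}
    (herg : ∀ G : M → ℝ, Measurable G → (∀ z, |G z| ≤ 1) → (∀ y, ∀ᵐ z ∂μ, G (τ y z) = G z) →
      ∃ c, ∀ᵐ z ∂μ, G z = c)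
    {A : Set (M × M)} (hA : MeasurableSet A)
    (h : ∀ y, ∀ᵐ z ∂μ.prod μ, (τ y z.1, z.2) ∈ A ↔ z ∈ A) {B C : Set M} (hB : MeasurableSet B)
    (hC : MeasurableSet C) : μ.prod μ (A ∩ C ×ˢ B) = μ C * μ.prod μ (A ∩ univ ×ˢ B) := by
  have hAB : MeasurableSet (A ∩ univ ×ˢ B) := hA.inter (MeasurableSet.univ.prod hB)
  obtain ⟨c, hc⟩ := herg (fun z => (μ (Prod.mk z ⁻¹' (A ∩ univ ×ˢ B))).toReal)
    (measurable_measure_prodMk_left hAB).ennreal_toReal
    (fun z => by
      rw [abs_of_nonneg ENNReal.toReal_nonneg]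
      exact measureReal_le_one)
    (fun y => by
      filter_upwards [Measure.ae_ae_of_ae_prod (h y)] with z hz
      congr 1
      refine measure_congr ?_
      filter_upwards [hz] with w hw
      exact propext (and_congr hw Iff.rfl))
  have key : ∀ C, MeasurableSet C → μ.prod μ (A ∩ C ×ˢ B) = μ C * ENNReal.ofReal c := by
    intro C hC
    rw [Measure.prod_apply (hA.inter (hC.prod hB)), mul_comm, ← setLIntegral_const,
      ← lintegral_indicator hC]
    refine lintegral_congr_ae ?_
    filter_upwards [hc] with z hz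
    by_cases hzC : z ∈ C
    · rw [indicator_of_mem hzC, ← hz, ENNReal.ofReal_toReal (measure_ne_top _ _)]
      congr 1
      ext w
      simp [hzC]
    · rw [indicator_of_notMem hzC]
      have : Prod.mk z ⁻¹' (A ∩ C ×ˢ B) = ∅ := by
        ext w
        simp [hzC]
      rw [this, measure_empty]
  rw [key C hC, key univ MeasurableSet.univ, measure_univ, one_mul]

omit [TopologicalSpace M] in
theorem prod_zero_one [IsProbabilityMeasure μ] {τ : ℂ → M → M}
    (herg : ∀ G : M → ℝ, Measurable G → (∀ z, |G z| ≤ 1) → (∀ y, ∀ᵐ z ∂μ, G (τ y z) = G z) →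
      ∃ c, ∀ᵐ z ∂μ, G z = c)
    {A : Set (M × M)} (hA : MeasurableSet A)
    (h : ∀ y, ∀ᵐ z ∂μ.prod μ, (τ y z.1, z.2) ∈ A ↔ z ∈ A)
    (h' : ∀ y, ∀ᵐ z ∂μ.prod μ, (z.1, τ y z.2) ∈ A ↔ z ∈ A) :
    μ.prod μ A = 0 ∨ μ.prod μ A = 1 := by
  have hsw := Measure.measurePreserving_swap (μ := μ) (ν := μ)
  have h2 : ∀ B, MeasurableSet B → μ.prod μ (A ∩ univ ×ˢ B) = μ B * μ.prod μ A := by
    intro B hB
    have := prod_rect herg (measurable_swap hA) (fun y => hsw.quasiMeasurePreserving.ae (h' y))
      MeasurableSet.univ hB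
    rw [univ_prod_univ, inter_univ, hsw.measure_preimage hA.nullMeasurableSet] at this
    rw [← this, ← hsw.measure_preimage (hA.inter (MeasurableSet.univ.prod hB)).nullMeasurableSet]
    congr 1
    ext z
    simp
  have h3 : (μ.prod μ).restrict A = (μ.prod μ A) • μ.prod μ := by
    have : IsFiniteMeasure ((μ.prod μ A) • μ.prod μ) :=
      ⟨by simp⟩
    refine Measure.ext_prod fun {C B} hC hB => ?_
    rw [Measure.restrict_apply (hC.prod hB), inter_comm, prod_rect herg hA h hB hC, h2 B hB,
      Measure.smul_apply, Measure.prod_prod, smul_eq_mul]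
    ring
  have h4 : μ.prod μ A = μ.prod μ A * μ.prod μ A := by
    have := congrArg (fun m : Measure (M × M) => m A) h3
    simpa [Measure.restrict_apply hA] using this
  by_cases h0 : μ.prod μ A = 0
  · exact Or.inl h0
  · right
    nth_rewrite 1 [← mul_one (μ.prod μ A)] at h4
    exact ((ENNReal.mul_right_inj h0 (measure_ne_top _ _)).1 h4).symm

end

variable {M : Type} [TopologicalSpace M] [MeasurableSpace M] [BorelSpace M]
  [TopologicalSpace.PseudoMetrizableSpace M] [SecondCountableTopology M]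
  {μ : Measure M} [IsProbabilityMeasure μ]

theorem LocE.prod_erg (L : LocE M μ)
    (herg : ∀ G : M → ℝ, Measurable G → (∀ z, |G z| ≤ 1) → (∀ y, ∀ᵐ z ∂μ, G (L.τ y z) = G z) →
      ∃ c, ∀ᵐ z ∂μ, G z = c)
    {A : Set (M × M)} (hA : MeasurableSet A)
    (h : ∀ t : ℝ, ∀ᵐ z ∂μ.prod μ, (L.τ t z.1, L.τ t z.2) ∈ A ↔ z ∈ A) :
    μ.prod μ A = 0 ∨ μ.prod μ A = 1 := by
  have I1 : ∀ y, ∀ᵐ z ∂μ.prod μ, (L.τ y z.1, L.τ y z.2) ∈ A ↔ z ∈ A :=
    (L.prodL L).inv hA h
  have I2 : ∀ y, ∀ᵐ z ∂μ.prod μ, (L.τ y z.1, L.τ (conj y) z.2) ∈ A ↔ z ∈ A :=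
    (L.prodL L.conjL).inv hA fun t => by
      have := h t
      nth_rewrite 2 [← Complex.conj_ofReal t] at this
      exact this
  have dbl : ∀ s : ℝ, ∀ᵐ z ∂μ, L.τ ((s / 2) • Complex.I) (L.τ ((s / 2) • Complex.I) z) =
      L.τ (Complex.I * s) z := by
    intro s
    filter_upwards [L.τ_add Complex.I (s / 2) (s / 2)] with z hz
    rw [← hz, add_halves, Complex.real_smul, mul_comm]
  have can : ∀ s : ℝ, ∀ᵐ z ∂μ, L.τ ((-s) • Complex.I) (L.τ (s • Complex.I) z) = z := by
    intro s
    filter_upwards [L.τ_add Complex.I s (-s), L.τ_zero] with z hz h0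
    rw [← hz, add_neg_cancel, zero_smul, h0]
  have cj : ∀ s : ℝ, conj (s • Complex.I) = (-s) • Complex.I := fun s => by simp
  have J1 : ∀ s : ℝ, ∀ᵐ z ∂μ.prod μ, (L.τ (Complex.I * s) z.1, z.2) ∈ A ↔ z ∈ A := by
    intro s
    filter_upwards [I1 ((s / 2) • Complex.I),
      ((L.prodL L).τ_mp ((s / 2) • Complex.I)).quasiMeasurePreserving.ae
        (I2 ((s / 2) • Complex.I)),
      Measure.quasiMeasurePreserving_fst.ae (dbl s),
      Measure.quasiMeasurePreserving_snd.ae (can (s / 2))] with z h1 h2 h3 h4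
    simp only [LocE.prodL, cj] at h2
    rw [h3, h4] at h2
    exact h2.trans h1
  have J2 : ∀ s : ℝ, ∀ᵐ z ∂μ.prod μ, (z.1, L.τ (Complex.I * s) z.2) ∈ A ↔ z ∈ A := by
    intro s
    filter_upwards [I1 ((s / 2) • Complex.I),
      ((L.prodL L).τ_mp ((s / 2) • Complex.I)).quasiMeasurePreserving.ae
        (I2 ((-(s / 2)) • Complex.I)),
      Measure.quasiMeasurePreserving_fst.ae (can (s / 2)),
      Measure.quasiMeasurePreserving_snd.ae (dbl s)] with z h1 h2 h3 h4
    simp only [LocE.prodL, cj, neg_neg] at h2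
    rw [h3, h4] at h2
    exact h2.trans h1
  have e : ∀ y : ℂ, Complex.I * (-Complex.I * y) = y := fun y => by
    rw [← mul_assoc]
    simp
  refine prod_zero_one herg hA (fun y => ?_) fun y => ?_
  · have := (L.rotL.prodL (LocE.trivL μ)).inv hA J1 (-Complex.I * y)
    simpa only [LocE.prodL, LocE.rotL, LocE.trivL, e] using this
  · have := ((LocE.trivL μ).prodL L.rotL).inv hA J2 (-Complex.I * y)
    simpa only [LocE.prodL, LocE.rotL, LocE.trivL, e] using this

end Vale.Agent.P099
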