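import Mathlib

/-! The billiard flow in a triangle. -/

namespace Vale.Agent.P099

open MeasureTheory

/-- The unit vector with direction angle `2 π θ`. -/
noncomputable def dir (θ : UnitAddCircle) : ℂ := (AddCircle.toCircle θ : ℂ)

/-- The open triangle with vertices `P 0, P 1, P 2`. -/
def table (P : Fin 3 → ℂ) : Set ℂ := interior (convexHull ℝ (Set.range P))

/-- Specular reflection of the velocity `u` at a wall parallel to `w`: the component along `w`
is kept and the normal component is reversed. -/
noncomputable def specular (w u : ℂ) : ℂ := (2 * (inner ℝ u w / ‖w‖ ^ 2)) • w - u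

/-- A billiard orbit defined for all times: near each time `t₀` the point moves at unit speed
with an incoming direction `u` before `t₀` and with its current direction from `t₀` on; either
it is inside the table and the direction is unchanged, or it is on an open side and the direction
is reflected. -/
def IsOrbit (P : Fin 3 → ℂ) (γ : ℝ → ℂ × UnitAddCircle) : Prop :=
  ∀ t₀ : ℝ, ∃ ε : ℝ, 0 < ε ∧ ∃ u : UnitAddCircle,
    (∀ t ∈ Set.Ioo (t₀ - ε) t₀, γ t = ((γ t₀).1 + (t - t₀) • dir u, u)) ∧
    (∀ t ∈ Set.Ico t₀ (t₀ + ε), γ t = ((γ t₀).1 + (t - t₀) • dir (γ t₀).2, (γ t₀).2)) ∧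
    (((γ t₀).1 ∈ table P ∧ (γ t₀).2 = u) ∨
      ∃ i j : Fin 3, i ≠ j ∧ (γ t₀).1 ∈ openSegment ℝ (P i) (P j) ∧
        dir (γ t₀).2 = specular (P j - P i) (dir u))

open Classical in
/-- The billiard flow (the identity on points without an orbit defined for all times). -/
noncomputable def flow (P : Fin 3 → ℂ) (t : ℝ) (z : ℂ × UnitAddCircle) : ℂ × UnitAddCircle :=
  if h : ∃ γ, IsOrbit P γ ∧ γ 0 = z then h.choose t else z

/-- Normalized area on the table times the uniform measure on directions. -/
noncomputable def liouville (P : Fin 3 → ℂ) : Measure (ℂ × UnitAddCircle) :=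
  ((volume (table P))⁻¹ • volume.restrict (table P)).prod volume

/-- Ergodicity of a flow. -/
def IsErgodicFlow {X : Type} [MeasurableSpace X] (Φ : ℝ → X → X) (μ : Measure X) : Prop :=
  ∀ A : Set X, MeasurableSet A → (∀ t : ℝ, μ (symmDiff (Φ t ⁻¹' A) A) = 0) → μ A = 0 ∨ μ A = 1

/-- All angles of the triangle are rational multiples of `π`. -/
def IsRational (P : Fin 3 → ℂ) : Prop :=
  ∀ i j k : Fin 3, i ≠ j → i ≠ k → j ≠ k →
    ∃ q : ℚ, EuclideanGeometry.angle (P j) (P i) (P k) / Real.pi = q

end Vale.Agent.P099
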