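import Vale.Agent.P099.Geo

/-! The half plane description of a triangle. -/

namespace Vale.Agent.P099

open ComplexConjugate

theorem triof_perp {n w : ℂ} (hn : ‖n‖ = 1) (h : (conj n * w).re = 0) :
    ∃ s : ℝ, w = s * (Complex.I * n) := by
  have h1 : conj n * n = 1 := by rw [Complex.conj_mul', hn]; simp
  refine ⟨(conj n * w).im, ?_⟩
  have h2 := Complex.re_add_im (conj n * w)
  rw [h, Complex.ofReal_zero, zero_add] at h2
  linear_combination (-w) * h1 - n * h2

theorem triof_spec {n w : ℂ} (hn : ‖n‖ = 1) (hw : w ≠ 0) (h : (conj n * w).re = 0) (u : ℂ) :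
    specular w u = u - (2 * (conj n * u).re) • n := by
  obtain ⟨s, rfl⟩ := triof_perp hn h
  have hs : s ≠ 0 := by rintro rfl; simp at hw
  have h1 : conj n * n = 1 := by rw [Complex.conj_mul', hn]; simp
  have e1 : ‖(s : ℂ) * (Complex.I * n)‖ ^ 2 = s ^ 2 := by simp [hn]
  have e2 : inner ℝ u ((s : ℂ) * (Complex.I * n)) = s * (conj n * u).im := by
    rw [Complex.inner]
    simp only [Complex.mul_re, Complex.mul_im, Complex.ofReal_re, Complex.ofReal_im, Complex.I_re,
      Complex.I_im, Complex.conj_re, Complex.conj_im]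
    ring
  have h2 := Complex.re_add_im (conj n * u)
  have e3 : 2 * (s * (conj n * u).im / s ^ 2) = 2 * (conj n * u).im / s := by field_simp
  have hs' : (s : ℂ) ≠ 0 := Complex.ofReal_ne_zero.2 hs
  rw [specular, e1, e2, e3, Complex.real_smul, Complex.real_smul]
  generalize (conj n * u).im = B at *
  generalize (conj n * u).re = A at *
  push_cast
  field_simp
  linear_combination 2 * n * h2 + 2 * u * h1

theorem triof_coord (f : ℂ →ᵃ[ℝ] ℝ) {p q : ℂ} (hpq : f p ≠ f q) :
    ∃ (n : ℂ) (c h : ℝ), ‖n‖ = 1 ∧ 0 < h ∧ ∀ x, (conj n * x).re - c = h * f x := by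
  obtain ⟨a, ha⟩ : ∃ a : ℂ, ∀ x, f x = (conj a * x).re + f 0 := by
    refine ⟨⟨f.linear 1, f.linear Complex.I⟩, fun x => ?_⟩
    have e1 := f.map_vadd 0 x
    rw [vadd_eq_add, add_zero, vadd_eq_add] at e1
    have e2 : x = x.re • (1 : ℂ) + x.im • Complex.I := by simp
    have e3 : f.linear x = x.re * f.linear 1 + x.im * f.linear Complex.I := by
      conv_lhs => rw [e2, map_add, map_smul, map_smul]
      rfl
    rw [e1, e3]
    simp only [Complex.mul_re, Complex.conj_re, Complex.conj_im]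
    ring
  have a0 : a ≠ 0 := by
    rintro rfl
    apply hpq
    rw [ha p, ha q]; simp
  have hp : 0 < ‖a‖ := norm_pos_iff.2 a0
  refine ⟨(‖a‖⁻¹ : ℝ) • a, -(‖a‖⁻¹ * f 0), ‖a‖⁻¹, ?_, inv_pos.2 hp, fun x => ?_⟩
  · rw [norm_smul, norm_inv, norm_norm, inv_mul_cancel₀ hp.ne']
  · rw [ha x]
    simp only [Complex.mul_re, Complex.conj_re, Complex.conj_im, Complex.smul_re, Complex.smul_im,
      smul_eq_mul]
    ring

theorem triof_third (i j : Fin 3) (h : i ≠ j) :
    ∃ k, k ≠ i ∧ k ≠ j ∧ ∀ l, l = i ∨ l = j ∨ l = k := by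
  revert i j; decide

theorem triof_two (i : Fin 3) :
    ∃ j k, j ≠ k ∧ j ≠ i ∧ k ≠ i ∧ (∀ l, l ≠ i → l = j ∨ l = k) ∧
      (Finset.univ : Finset (Fin 3)) = {i, j, k} := by
  revert i; decide

theorem triof_rat {a b nj nk : ℂ} {m : ℕ} (hm : 0 < m) (ha : a ≠ 0) (hb : b ≠ 0) (hj : ‖nj‖ = 1)
    (hk : ‖nk‖ = 1) (h1 : (conj nk * a).re = 0) (h2 : (conj nj * b).re = 0)
    (h : (-nk ^ 2 * conj (-nj ^ 2)) ^ m = 1) :
    ∃ q : ℚ, InnerProductGeometry.angle a b / Real.pi = q := by
  rw [Complex.angle_eq_abs_arg ha hb]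
  obtain ⟨s, hs⟩ := triof_perp hk h1
  obtain ⟨t, ht⟩ := triof_perp hj h2
  have t0 : (t : ℂ) ≠ 0 := by rintro h0; rw [h0] at ht; simp at ht; exact hb ht
  have c1 : conj nj * nj = 1 := by rw [Complex.conj_mul', hj]; simp
  have e1 : a / b = ((s / t : ℝ) : ℂ) * (nk * conj nj) := by
    rw [div_eq_iff hb, hs, ht]
    push_cast
    field_simp
    linear_combination (-(s : ℂ) * nk) * c1
  have r0 : a / b ≠ 0 := div_ne_zero ha hb
  generalize a / b = r at *
  generalize s / t = v at *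
  have e2 : (nk * conj nj) ^ (2 * m) = 1 := by
    rw [pow_mul, ← h]
    congr 1
    simp only [map_neg, map_pow]
    ring
  have e3 : ‖r‖ = |v| := by rw [e1]; simp [hj, hk]
  have e4 : r ^ (2 * m) = (‖r‖ : ℂ) ^ (2 * m) := by
    rw [e3, ← Complex.ofReal_pow, (even_two_mul m).pow_abs]
    conv_lhs => rw [e1, mul_pow, e2, mul_one]
    push_cast; rfl
  have e5 := Complex.norm_mul_exp_arg_mul_I r
  have n0 : (‖r‖ : ℂ) ^ (2 * m) ≠ 0 := pow_ne_zero _ (by simpa using r0)
  have e6 : Complex.exp (((2 * m : ℕ) : ℂ) * (r.arg * Complex.I)) = 1 := by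
    rw [Complex.exp_nat_mul]
    apply mul_left_cancel₀ n0
    rw [← mul_pow, e5, mul_one, e4]
  obtain ⟨N, hN⟩ := Complex.exp_eq_one_iff.1 e6
  have e7 : (m : ℝ) * r.arg = N * Real.pi := by
    have := congrArg Complex.im hN
    simp at this
    linarith
  have m0 : (0 : ℝ) < m := Nat.cast_pos.2 hm
  refine ⟨|(N : ℚ)| / m, ?_⟩
  have e8 : r.arg = N * Real.pi / m := by rw [← e7]; field_simp
  rw [e8, abs_div, abs_mul, abs_of_pos Real.pi_pos, abs_of_pos m0]
  push_cast
  field_simp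

theorem triof_comb (T : Tri) (i : Fin 3) (x x' : ℂ) {a b : ℝ} (hab : a + b = 1) :
    T.δ i (a • x + b • x') = a * T.δ i x + b * T.δ i x' := by
  simp only [Tri.δ, mul_add, mul_smul_comm, Complex.add_re, Complex.smul_re, smul_eq_mul]
  linear_combination (T.c i) * hab

theorem exists_tri {P : Fin 3 → ℂ} (hP : AffineIndependent ℝ P) : ∃ T : Tri,
    T.Q = table P ∧
    (∀ (i : Fin 3) (x : ℂ), T.δ i x = 0 → (∀ j, j ≠ i → 0 < T.δ j x) →
      ∃ j k : Fin 3, j ≠ k ∧ x ∈ openSegment ℝ (P j) (P k) ∧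
        ∀ u, specular (P k - P j) u = u - (2 * (conj (T.n i) * u).re) • T.n i) ∧
    (∀ j k : Fin 3, j ≠ k → ∃ i, (∀ x ∈ openSegment ℝ (P j) (P k),
        T.δ i x = 0 ∧ ∀ l, l ≠ i → 0 < T.δ l x) ∧
      ∀ u, specular (P k - P j) u = u - (2 * (conj (T.n i) * u).re) • T.n i) ∧
    (¬IsRational P → ∃ i j, addOrderOf (T.κ i - T.κ j) = 0) := by
  let b : AffineBasis (Fin 3) ℝ ℂ :=
    ⟨P, hP, hP.affineSpan_eq_top_iff_card_eq_finrank_add_one.2 (by simp)⟩
  have hb : ∀ l, b l = P l := fun _ => rfl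
  have ex : ∀ i : Fin 3, ∃ (n : ℂ) (c h : ℝ), ‖n‖ = 1 ∧ 0 < h ∧
      ∀ x, (conj n * x).re - c = h * b.coord i x := by
    intro i
    obtain ⟨j, -, -, hj, -⟩ := triof_two i
    refine triof_coord (b.coord i) (p := b i) (q := b j) ?_
    rw [b.coord_apply_eq, b.coord_apply_ne hj.symm]
    exact one_ne_zero
  choose n c h hn hh hδ using ex
  have exκ : ∀ i, ∃ θ, dir θ = -n i ^ 2 := fun i => exists_dir (by simp [hn])
  choose κ hκ using exκ
  have p1 : ∀ i, (conj (n i) * P i).re - c i = h i := fun i => by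
    rw [hδ, ← hb, b.coord_apply_eq, mul_one]
  have p0 : ∀ i l, i ≠ l → (conj (n i) * P l).re - c i = 0 := fun i l hl => by
    rw [hδ, ← hb, b.coord_apply_ne hl, mul_zero]
  have perp : ∀ i j k, i ≠ j → i ≠ k → (conj (n i) * (P k - P j)).re = 0 := fun i j k hj hk => by
    have := p0 i j hj
    have := p0 i k hk
    rw [mul_sub, Complex.sub_re]; linarith
  have hne : ∀ j k, j ≠ k → P k - P j ≠ 0 := fun j k hjk =>
    sub_ne_zero.2 fun e => hjk (hP.injective e).symm
  have hQ : {x : ℂ | ∀ i, c i < (conj (n i) * x).re} = table P := by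
    have e : table P = {x | ∀ i, 0 < b.coord i x} := b.interior_convexHull
    rw [e]
    ext x
    refine forall_congr' fun i => ?_
    rw [← sub_pos, hδ, mul_pos_iff_of_pos_left (hh i)]
  let T : Tri :=
    { n := n, c := c, κ := κ, norm_n := hn, dir_κ := hκ
      indep := fun i j hij h0 => by
        obtain ⟨k, k1, k2, -⟩ := triof_third i j hij
        have e1 := perp i j k hij k1.symm
        obtain ⟨s, hs⟩ := triof_perp (hn i) e1
        have e2 := p1 j
        have e3 := p0 j k k2.symm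
        have e4 : (conj (n j) * (P k - P j)).re = 0 := by
          rw [hs]
          simp only [Complex.mul_re, Complex.mul_im, Complex.ofReal_re, Complex.ofReal_im,
            Complex.I_re, Complex.I_im, Complex.conj_re, Complex.conj_im] at h0 ⊢
          linear_combination s * h0
        rw [mul_sub, Complex.sub_re] at e4
        linarith [hh j]
      side := fun i => by
        obtain ⟨j, k, hjk, hj, hk, hl, -⟩ := triof_two i
        have e : ∀ l, (conj (n l) * ((1 / 2 : ℝ) • (P j + P k))).re =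
            ((conj (n l) * P j).re + (conj (n l) * P k).re) / 2 := fun l => by
          rw [mul_smul_comm, mul_add, Complex.smul_re, Complex.add_re, smul_eq_mul]; ring
        refine ⟨(1 / 2 : ℝ) • (P j + P k), ?_, fun l hl' => ?_⟩
        · rw [e]; linarith [p0 i j hj.symm, p0 i k hk.symm]
        · rw [e]
          rcases hl l hl' with rfl | rfl
          · linarith [p1 l, p0 l k hjk, hh l]
          · linarith [p1 l, p0 l j hjk.symm, hh l]
      bdd := by
        rw [hQ]
        exact (isBounded_convexHull.2 (Set.finite_range P).isBounded).subset interior_subset }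
  have hT : ∀ i x, T.δ i x = h i * b.coord i x := hδ
  have q1 : ∀ i, T.δ i (P i) = h i := p1
  have q0 : ∀ i l, i ≠ l → T.δ i (P l) = 0 := p0
  refine ⟨T, ?_, ?_, ?_, ?_⟩
  · rw [← hQ]
    ext x
    exact forall_congr' fun i => sub_pos
  · intro i x h0 hpos
    obtain ⟨j, k, hjk, hj, hk, -, hu⟩ := triof_two i
    refine ⟨j, k, hjk, ?_, triof_spec (hn i) (hne j k hjk) (perp i j k hj.symm hk.symm)⟩
    have a0 : b.coord i x = 0 := by
      rw [hT] at h0
      exact (mul_eq_zero.1 h0).resolve_left (hh i).ne'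
    have a1 := hpos j hj
    have a2 := hpos k hk
    rw [hT, mul_pos_iff_of_pos_left (hh _)] at a1 a2
    have s1 := b.sum_coord_apply_eq_one x
    have s2 := b.linear_combination_coord_eq_self x
    have ni : i ∉ ({j, k} : Finset (Fin 3)) := by simp [hj.symm, hk.symm]
    rw [hu, Finset.sum_insert ni, Finset.sum_pair hjk, a0] at s1 s2
    exact ⟨_, _, a1, a2, by linarith, by simpa [hb] using s2⟩
  · intro j k hjk
    obtain ⟨i, hj, hk, hl⟩ := triof_third j k hjk
    refine ⟨i, ?_, triof_spec (hn i) (hne j k hjk) (perp i j k hj hk)⟩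
    rintro x ⟨a, a', ha, ha', hs, rfl⟩
    refine ⟨by rw [triof_comb T i _ _ hs, q0 i j hj, q0 i k hk]; simp, fun l hl' => ?_⟩
    rw [triof_comb T l _ _ hs]
    rcases hl l with rfl | rfl | rfl
    · rw [q1, q0 l k hjk]; simpa using mul_pos ha (hh l)
    · rw [q1, q0 l j hjk.symm]; simpa using mul_pos ha' (hh l)
    · exact absurd rfl hl'
  · intro hirr
    by_contra hc
    push Not at hc
    apply hirr
    intro i j k hij hik hjk
    have e1 := addOrderOf_nsmul_eq_zero (κ k - κ j)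
    have e2 : dir (addOrderOf (κ k - κ j) • (κ k - κ j)) = dir (κ k - κ j) ^ addOrderOf (κ k - κ j) := by
      rw [dir, AddCircle.toCircle_nsmul, dir]; simp
    rw [e1, dir_zero, sub_eq_add_neg (κ k) (κ j), dir_add, dir_neg, hκ, hκ, ← sub_eq_add_neg] at e2
    exact triof_rat (Nat.pos_of_ne_zero (hc k j)) (hne i j hij) (hne i k hik) (hn j) (hn k)
      (perp k i j hik.symm hjk.symm) (perp j i k hij.symm hjk) e2.symm

end Vale.Agent.P099
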